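import Vale.Agent.Lib.P205T.Defs

/-! # P205T module FA2: boundedness and termwise integration -/

open scoped ContDiff ENNReal
open Complex Set

namespace P205T

theorem fa2_bounded {E : Type*} [SeminormedAddCommGroup E] {f : ℝ × ℝ → E} (hc : Continuous f)
    (hp : IsPer f) : ∃ B : ℝ, 0 ≤ B ∧ ∀ x, ‖f x‖ ≤ B := by
  have hK : IsCompact (Icc (0:ℝ) 1 ×ˢ Icc (0:ℝ) 1) := isCompact_Icc.prod isCompact_Icc
  obtain ⟨B, hB⟩ := hK.exists_bound_of_continuousOn hc.continuousOn
  have h00 : ((0:ℝ), (0:ℝ)) ∈ Icc (0:ℝ) 1 ×ˢ Icc (0:ℝ) 1 := by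
    simp
  refine ⟨B, (norm_nonneg _).trans (hB _ h00), fun x => ?_⟩
  have h1 : f x = f (Int.fract x.1, Int.fract x.2) := by
    have h2 := hp (Int.fract x.1, Int.fract x.2) (⌊x.1⌋, ⌊x.2⌋)
    rw [← h2]
    congr 1
    ext
    · simp [lat]
    · simp [lat]
  rw [h1]
  apply hB
  exact ⟨⟨Int.fract_nonneg _, (Int.fract_lt_one _).le⟩, ⟨Int.fract_nonneg _, (Int.fract_lt_one _).le⟩⟩

theorem fa2_ev_norm (n : ℤ × ℤ) (x : ℝ × ℝ) : ‖ev n x‖ = 1 := by
  rw [ev_apply]
  have h : 2 * (Real.pi : ℂ) * I * (n.1 * x.1 + n.2 * x.2) =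
      ((2 * Real.pi * (n.1 * x.1 + n.2 * x.2) : ℝ) : ℂ) * I := by
    push_cast
    ring
  rw [h, Complex.norm_exp_ofReal_mul_I]

/-- periodic continuous functions are bounded -/
theorem bounded_PC (f : PC) : ∃ B : ℝ, 0 ≤ B ∧ ∀ x, ‖f x‖ ≤ B := fa2_bounded (PC.smooth f).continuous (PC.per f)

theorem bounded_PR (f : PR) : ∃ B : ℝ, 0 ≤ B ∧ ∀ x, |f x| ≤ B := fa2_bounded (PR.smooth f).continuous (PR.per f)

/-- termwise integration of an absolutely convergent series of functions -/
theorem cf_of_hasSum {κ : Type*} [Countable κ] (F : κ → PC) (f : PC) (B : κ → ℝ) (hB : Summable B)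
    (hF : ∀ k x, ‖F k x‖ ≤ B k) (hf : ∀ x, HasSum (fun k => F k x) (f x)) (n : ℤ × ℤ) :
    HasSum (fun k => cf (F k) n) (cf f n) := by
  have hb : ∀ k x, ‖F k x * ev (-n) x‖ ≤ B k := by
    intro k x
    rw [norm_mul, fa2_ev_norm, mul_one]
    exact hF k x
  have hlim : ∀ x, HasSum (fun k => F k x * ev (-n) x) (f x * ev (-n) x) := fun x =>
    (hf x).mul_right _
  have hcont : ∀ k, Continuous (fun p : ℝ × ℝ => F k p * ev (-n) p) := fun k =>
    ((PC.smooth (F k)).continuous).mul ((PC.smooth (ev (-n))).continuous)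
  have hinner : ∀ x : ℝ, HasSum (fun k => ∫ y in (0:ℝ)..1, F k (x, y) * ev (-n) (x, y))
      (∫ y in (0:ℝ)..1, f (x, y) * ev (-n) (x, y)) := by
    intro x
    refine intervalIntegral.hasSum_integral_of_dominated_convergence (fun k _ => B k) ?_ ?_ ?_ ?_ ?_
    · intro k
      exact ((hcont k).comp (Continuous.prodMk_right x)).aestronglyMeasurable
    · intro k
      exact Filter.Eventually.of_forall fun y _ => hb k (x, y)
    · exact Filter.Eventually.of_forall fun y _ => hB
    · exact intervalIntegrable_const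
    · exact Filter.Eventually.of_forall fun y _ => hlim (x, y)
  unfold cf
  refine intervalIntegral.hasSum_integral_of_dominated_convergence (fun k _ => B k) ?_ ?_ ?_ ?_ ?_
  · intro k
    have h1 : Continuous (fun x : ℝ => ∫ y in (0:ℝ)..1, F k (x, y) * ev (-n) (x, y)) :=
      intervalIntegral.continuous_parametric_intervalIntegral_of_continuous' (hcont k) 0 1
    exact h1.aestronglyMeasurable
  · intro k
    refine Filter.Eventually.of_forall fun x _ => ?_
    have h1 := intervalIntegral.norm_integral_le_of_norm_le_const (a := (0:ℝ)) (b := 1)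
      (f := fun y => F k (x, y) * ev (-n) (x, y)) (C := B k) (fun y _ => hb k (x, y))
    simpa using h1
  · exact Filter.Eventually.of_forall fun y _ => hB
  · exact intervalIntegrable_const
  · exact Filter.Eventually.of_forall fun x _ => hinner x

end P205T
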