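import Vale.Agent.Lib.P205T.FA
import Vale.Agent.Lib.P205T.FA2

/-! # P205T module FE: synthesis of smooth periodic functions from rapidly decreasing coefficients -/

open scoped ContDiff ENNReal
open Complex Set

namespace P205T

theorem fe_iter (a : ℂ) (k : ℕ) :
    iteratedDeriv k (fun t : ℝ => a * exp (I * t)) = fun t : ℝ => a * I ^ k * exp (I * t) := by
  induction k with
  | zero => simp
  | succ k ih =>
    rw [iteratedDeriv_succ, ih]
    funext t
    have h1 : HasDerivAt (fun t : ℝ => (I * (t : ℂ))) (I * 1) t :=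
      (Complex.ofRealCLM.hasDerivAt (x := t)).const_mul I
    have h2 := (h1.cexp.const_mul (a * I ^ k)).deriv
    rw [h2]
    ring

theorem fe_norm_iter (a : ℂ) (k : ℕ) (t : ℝ) :
    ‖iteratedFDeriv ℝ k (fun t : ℝ => a * exp (I * t)) t‖ = ‖a‖ := by
  rw [norm_iteratedFDeriv_eq_norm_iteratedDeriv, fe_iter]
  simp only [norm_mul, norm_pow, Complex.norm_I, one_pow, mul_one]
  rw [mul_comm I, Complex.norm_exp_ofReal_mul_I, mul_one]

/-- the phase -/
noncomputable def feL (n : ℤ × ℤ) : ℝ × ℝ →L[ℝ] ℝ :=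
  (2 * Real.pi) • ((n.1 : ℝ) • ContinuousLinearMap.fst ℝ ℝ ℝ +
    (n.2 : ℝ) • ContinuousLinearMap.snd ℝ ℝ ℝ)

theorem feL_apply (n : ℤ × ℤ) (x : ℝ × ℝ) : feL n x = 2 * Real.pi * (n.1 * x.1 + n.2 * x.2) := by
  simp [feL]
  ring

theorem feL_norm (n : ℤ × ℤ) : ‖feL n‖ ≤ 2 * Real.pi * nn n := by
  have hpi := Real.pi_pos
  have hnn := nn_nonneg n
  refine ContinuousLinearMap.opNorm_le_bound _ (by positivity) fun x => ?_
  rw [feL_apply, Real.norm_eq_abs, abs_mul, abs_of_pos (by positivity : 0 < 2 * Real.pi)]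
  have h1 : |x.1| ≤ ‖x‖ := norm_fst_le x
  have h2 : |x.2| ≤ ‖x‖ := norm_snd_le x
  have h3 : |(n.1 : ℝ) * x.1 + n.2 * x.2| ≤ nn n * ‖x‖ := by
    calc |(n.1 : ℝ) * x.1 + n.2 * x.2| ≤ |(n.1 : ℝ)| * |x.1| + |(n.2 : ℝ)| * |x.2| := by
          rw [← abs_mul, ← abs_mul]
          exact abs_add_le _ _
      _ ≤ |(n.1 : ℝ)| * ‖x‖ + |(n.2 : ℝ)| * ‖x‖ :=
          add_le_add (mul_le_mul_of_nonneg_left h1 (abs_nonneg _))
            (mul_le_mul_of_nonneg_left h2 (abs_nonneg _))
      _ = nn n * ‖x‖ := by unfold nn; ring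
  calc 2 * Real.pi * |(n.1 : ℝ) * x.1 + n.2 * x.2| ≤ 2 * Real.pi * (nn n * ‖x‖) :=
        mul_le_mul_of_nonneg_left h3 (by positivity)
    _ = 2 * Real.pi * nn n * ‖x‖ := by ring

theorem fe_eq (a : ℂ) (n : ℤ × ℤ) :
    (fun x => a * ev n x) = (fun t : ℝ => a * exp (I * t)) ∘ (feL n) := by
  funext x
  simp only [Function.comp, ev_apply, feL_apply]
  congr 2
  push_cast
  ring

theorem fe_bound (a : ℂ) (n : ℤ × ℤ) (k : ℕ) (x : ℝ × ℝ) :
    ‖iteratedFDeriv ℝ k (fun x => a * ev n x) x‖ ≤ (2 * Real.pi) ^ k * (‖a‖ * (1 + nn n) ^ k) := by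
  have hpi := Real.pi_pos
  have hnn := nn_nonneg n
  have hg : ContDiff ℝ ∞ (fun t : ℝ => a * exp (I * t)) :=
    contDiff_const.mul (Complex.contDiff_exp.comp (contDiff_const.mul Complex.ofRealCLM.contDiff))
  rw [fe_eq, ContinuousLinearMap.iteratedFDeriv_comp_right (feL n) hg x (by exact_mod_cast le_top)]
  refine (ContinuousMultilinearMap.norm_compContinuousLinearMap_le _ _).trans ?_
  rw [fe_norm_iter, Finset.prod_const, Finset.card_univ, Fintype.card_fin]
  calc ‖a‖ * ‖feL n‖ ^ k ≤ ‖a‖ * (2 * Real.pi * (1 + nn n)) ^ k := by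
        apply mul_le_mul_of_nonneg_left _ (norm_nonneg _)
        apply pow_le_pow_left₀ (norm_nonneg _)
        refine (feL_norm n).trans ?_
        apply mul_le_mul_of_nonneg_left _ (by positivity)
        linarith
    _ = _ := by rw [mul_pow]; ring

theorem fe_ev_norm (n : ℤ × ℤ) (x : ℝ × ℝ) : ‖ev n x‖ = 1 := fa2_ev_norm n x

/-- smoothness of the sum from `contDiff_tsum` -/
theorem synth (a : ℤ × ℤ → ℂ) (h : ∀ s : ℕ, Summable fun n => ‖a n‖ * (1 + nn n) ^ s) :
    ∃ f : PC, (∀ n, cf f n = a n) ∧ ∀ x, HasSum (fun n => a n * ev n x) (f x) := by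
  have hsum0 : Summable fun n => ‖a n‖ := by
    have := h 0
    simpa using this
  have hs : ∀ x, Summable fun n => a n * ev n x := by
    intro x
    refine Summable.of_norm ?_
    refine hsum0.congr fun n => ?_
    rw [norm_mul, fe_ev_norm, mul_one]
  have hsm : ContDiff ℝ ∞ (fun x => ∑' n, a n * ev n x) := by
    refine contDiff_tsum (v := fun k n => (2 * Real.pi) ^ k * (‖a n‖ * (1 + nn n) ^ k)) ?_ ?_ ?_
    · intro n
      exact contDiff_const.mul (PC.smooth (ev n))
    · intro k _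
      exact (h k).mul_left _
    · intro k n x _
      exact fe_bound (a n) n k x
  have hper : IsPer (fun x => ∑' n, a n * ev n x) := by
    intro x m
    show ∑' n, a n * ev n (x + lat m) = ∑' n, a n * ev n x
    refine tsum_congr fun n => ?_
    rw [PC.per (ev n) x m]
  refine ⟨⟨fun x => ∑' n, a n * ev n x, hsm, hper⟩, ?_, fun x => (hs x).hasSum⟩
  intro n
  have h1 := cf_of_hasSum (fun k => a k • ev k) ⟨fun x => ∑' n, a n * ev n x, hsm, hper⟩
    (fun k => ‖a k‖) hsum0 (fun k x => by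
      rw [PC.smul_apply, norm_mul, fe_ev_norm, mul_one]) (fun x => (hs x).hasSum) n
  have h2 : HasSum (fun k => cf (a k • ev k) n) (a n) := by
    have h3 : (fun k => cf (a k • ev k) n) = fun k => if k = n then a n else 0 := by
      funext k
      rw [cf_smul, cf_ev]
      split_ifs with hk
      · rw [hk, mul_one]
      · rw [mul_zero]
    rw [h3]
    exact hasSum_ite_eq n (a n)
  exact h1.unique h2

end P205T
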