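import Vale.Agent.Lib.P205T.FC
import Vale.Agent.Lib.P205T.FE

/-! # P205T module FD: Fourier inversion and uniqueness -/

open scoped ContDiff ENNReal
open Complex Set

namespace P205T

/-- a continuous periodic function of one variable with vanishing Fourier coefficients is zero -/
theorem FD_one {u : ℝ → ℂ} (hc : Continuous u) (hp : Function.Periodic u 1)
    (h : ∀ k : ℤ, ∫ t in (0 : ℝ)..1, u t * exp (2 * Real.pi * I * (k * t)) = 0) (t : ℝ) :
    u t = 0 := by
  have : Fact ((0 : ℝ) < 1) := ⟨one_pos⟩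
  set F : AddCircle (1 : ℝ) → ℂ := hp.lift with hF
  have hFc : Continuous F := by
    refine (QuotientAddGroup.isQuotientMap_mk (AddSubgroup.zmultiples (1 : ℝ))).continuous_iff.2 ?_
    have e : F ∘ (QuotientAddGroup.mk : ℝ → AddCircle (1 : ℝ)) = u := by
      funext s
      exact hp.lift_coe s
    rw [e]
    exact hc
  have hcoef : ∀ k : ℤ, fourierCoeff F k = 0 := by
    intro k
    rw [fourierCoeff_eq_intervalIntegral F k 0, zero_add]
    have e : ∀ s : ℝ, (fourier (-k) (s : AddCircle (1 : ℝ)) : ℂ) • F (s : AddCircle (1 : ℝ)) =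
        u s * exp (2 * Real.pi * I * (((-k : ℤ) : ℂ) * s)) := by
      intro s
      have e1 : F (s : AddCircle (1 : ℝ)) = u s := hp.lift_coe s
      rw [e1, fourier_coe_apply, smul_eq_mul, mul_comm]
      congr 2
      push_cast
      ring
    simp only [e]
    rw [h (-k), smul_zero]
  have hsum := has_pointwise_sum_fourier_series_of_summable (f := ⟨F, hFc⟩) (by
    refine summable_zero.congr fun k => ?_
    exact (hcoef k).symm) (t : AddCircle (1 : ℝ))
  have h0 : (fun i : ℤ => fourierCoeff (⟨F, hFc⟩ : C(AddCircle (1 : ℝ), ℂ)) i •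
      fourier i (t : AddCircle (1 : ℝ))) = fun _ => 0 := by
    funext i
    have : fourierCoeff (⟨F, hFc⟩ : C(AddCircle (1 : ℝ), ℂ)) i = 0 := hcoef i
    rw [this, zero_smul]
  rw [h0] at hsum
  have h1 : F (t : AddCircle (1 : ℝ)) = 0 := hsum.unique hasSum_zero
  rw [← h1]
  exact (hp.lift_coe t).symm

theorem FD_zero (f : PC) (h : ∀ n, cf f n = 0) (z : ℝ × ℝ) : f z = 0 := by
  have hfc : Continuous (f : ℝ × ℝ → ℂ) := (PC.smooth f).continuous
  have hcont : ∀ m : ℤ, Continuous (Function.uncurry fun x y : ℝ =>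
      f (x, y) * exp (2 * Real.pi * I * (m * y))) := by
    intro m
    have h1 : Continuous fun p : ℝ × ℝ => f p * exp (2 * Real.pi * I * (m * p.2)) := by
      fun_prop
    exact h1
  set c : ℤ → ℝ → ℂ := fun m x => ∫ y in (0 : ℝ)..1, f (x, y) * exp (2 * Real.pi * I * (m * y))
    with hc
  have hcc : ∀ m, Continuous (c m) := fun m =>
    intervalIntegral.continuous_parametric_intervalIntegral_of_continuous' (hcont m) 0 1
  have hper1 : ∀ x y : ℝ, f (x + 1, y) = f (x, y) := by
    intro x y
    have h1 := PC.per f (x, y) (1, 0)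
    simp only [lat, Prod.mk_add_mk, Int.cast_zero, Int.cast_one, add_zero] at h1
    exact h1
  have hper2 : ∀ x y : ℝ, f (x, y + 1) = f (x, y) := by
    intro x y
    have h1 := PC.per f (x, y) (0, 1)
    simp only [lat, Prod.mk_add_mk, Int.cast_zero, Int.cast_one, add_zero] at h1
    exact h1
  have hcp : ∀ m, Function.Periodic (c m) 1 := by
    intro m x
    simp only [hc, hper1]
  have hint : ∀ m k : ℤ, ∫ x in (0 : ℝ)..1, c m x * exp (2 * Real.pi * I * (k * x)) = 0 := by
    intro m k
    have h1 := h (-k, -m)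
    unfold cf at h1
    rw [← h1]
    congr 1
    funext x
    simp only [hc]
    rw [← intervalIntegral.integral_mul_const]
    congr 1
    funext y
    rw [ev_apply, mul_assoc, ← Complex.exp_add]
    congr 2
    simp only [Prod.fst_neg, Prod.snd_neg]
    push_cast
    ring
  have hc0 : ∀ m x, c m x = 0 := fun m x => FD_one (hcc m) (hcp m) (hint m) x
  exact FD_one (u := fun y => f (z.1, y)) (by fun_prop) (fun y => hper2 z.1 y)
    (fun k => hc0 k z.1) z.2

theorem cf_injective {f g : PC} (h : ∀ n, cf f n = cf g n) : f = g := by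
  ext z
  have h1 := FD_zero (f - g) (fun n => by rw [cf_sub, h n, sub_self]) z
  rw [PC.sub_apply] at h1
  exact sub_eq_zero.1 h1

theorem hasSum_cf (f : PC) (x : ℝ × ℝ) : HasSum (fun n => cf f n * ev n x) (f x) := by
  obtain ⟨g, hg1, hg2⟩ := synth (cf f) (summable_cf f)
  have h1 : g = f := cf_injective hg1
  rw [← h1]
  have h2 := hg2 x
  simpa only [hg1, h1] using h2

end P205T
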