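import Vale.Agent.Lib.P205T.GDefs

/-! # P205T module GB: families of fixed points -/

open scoped ContDiff ENNReal
open Complex Set

namespace P205T

private theorem BdX.mono' {k : ℕ} {w : Weight} {s : ℕ} {x : Fin k → PR} {B B' : ℝ}
    (h : BdX w s x B) (hB : B ≤ B') : BdX w s x B' :=
  ⟨h.1.trans hB, fun j => (h.2 j).mono hB⟩

/-- If all components of `Θ` have gauge `g` then for small `g i` there is a fixed point, small of
order `g * r`, and Lipschitz in the parameter. -/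
theorem Gau_fixed {ι : Type} (D : Fam ι) (Θ : ι → (Fin D.k → PR) → ℝ → (Fin D.k → PR)) (g : ι → ℝ)
    (hg : ∀ i, 0 ≤ g i) (h : ∀ j, Gau D D.s0 g (fun i x μ => Θ i x μ j)) :
    ∃ C : ℝ, 0 ≤ C ∧ ∀ i, C * g i ≤ 1 / 2 → ∃ sol : ℝ → (Fin D.k → PR),
      ∀ μ, 0 ≤ μ → μ ≤ D.kap i → D.mem i (sol μ) μ ∧ Θ i (sol μ) μ = sol μ ∧
        BdX D.w D.s0 (sol μ) (C * g i * D.r i) ∧
        ∀ ν, 0 ≤ ν → ν ≤ D.kap i →
          BdX D.w D.s0 (sol μ - sol ν) (D.r i / D.kap i * |μ - ν|) := by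
  choose Cj hCj0 hCj using h
  have hC0 : 0 ≤ ∑ j, Cj j := Finset.sum_nonneg fun j _ => hCj0 j
  refine ⟨∑ j, Cj j, hC0, fun i hi => ?_⟩
  set C : ℝ := ∑ j, Cj j with hC
  have hle : ∀ j, Cj j ≤ C := fun j =>
    Finset.single_le_sum (f := Cj) (fun j _ => hCj0 j) (Finset.mem_univ j)
  have hr := D.r_pos i
  have hk := D.kap_pos i
  -- size
  have hsize : ∀ x μ, D.mem i x μ → BdX D.w D.s0 (Θ i x μ) (C * g i * D.r i) := by
    intro x μ hx
    refine ⟨mul_nonneg (mul_nonneg hC0 (hg i)) hr.le, fun j => ((hCj j i x μ hx).1).mono ?_⟩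
    exact mul_le_mul_of_nonneg_right (mul_le_mul_of_nonneg_right (hle j) (hg i)) hr.le
  -- Lipschitz
  have hlip : ∀ x μ y ν c, D.mem i x μ → D.mem i y ν → D.dst i x μ y ν c → 0 ≤ c →
      BdX D.w D.s0 (Θ i x μ - Θ i y ν) (c / 2) := by
    intro x μ y ν c hx hy hd hc
    refine ⟨by positivity, fun j => ((hCj j i x μ hx).2 y ν c hy hd).mono ?_⟩
    calc Cj j * g i * c ≤ C * g i * c :=
          mul_le_mul_of_nonneg_right (mul_le_mul_of_nonneg_right (hle j) (hg i)) hc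
      _ ≤ 1 / 2 * c := mul_le_mul_of_nonneg_right hi hc
      _ = c / 2 := by ring
  have hmem : ∀ x μ, BdX D.w D.s0 x (D.r i) → 0 ≤ μ → μ ≤ D.kap i → D.mem i x μ :=
    fun x μ h1 h2 h3 => ⟨h1, h2, h3⟩
  have hex : ∀ μ, 0 ≤ μ → μ ≤ D.kap i → ∃ x, BdX D.w D.s0 x (D.r i) ∧ Θ i x μ = x := by
    intro μ h0 h1
    refine fixedPoint D.w D.s0 hr.le (fun x => Θ i x μ) ?_ ?_
    · have hz : BdX D.w D.s0 (0 : Fin D.k → PR) (D.r i) :=
        ⟨hr.le, fun j => (Bd.zero).mono hr.le⟩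
      refine (hsize 0 μ (hmem 0 μ hz h0 h1)).mono' ?_
      calc C * g i * D.r i ≤ 1 / 2 * D.r i := mul_le_mul_of_nonneg_right hi hr.le
        _ = D.r i / 2 := by ring
    · intro x y c hx hy hxy
      refine hlip x μ y μ c (hmem x μ hx h0 h1) (hmem y μ hy h0 h1) ⟨hxy, ?_⟩ hxy.1
      rw [sub_self, abs_zero, mul_zero]
      exact hxy.1
  choose! sol hsol using hex
  refine ⟨sol, fun μ h0 h1 => ?_⟩
  obtain ⟨hx1, hx2⟩ := hsol μ h0 h1
  refine ⟨hmem _ _ hx1 h0 h1, hx2, ?_, fun ν k0 k1 => ?_⟩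
  · have := hsize (sol μ) μ (hmem _ _ hx1 h0 h1)
    rwa [hx2] at this
  obtain ⟨hy1, hy2⟩ := hsol ν k0 k1
  set c0 : ℝ := D.r i / D.kap i * |μ - ν| with hc0
  rcases eq_or_ne μ ν with rfl | hne
  · have : c0 = 0 := by rw [hc0, sub_self, abs_zero, mul_zero]
    rw [this, sub_self]
    exact ⟨le_rfl, fun j => Bd.zero⟩
  have hc0pos : 0 < c0 := by
    have : 0 < |μ - ν| := abs_pos.2 (sub_ne_zero.2 hne)
    positivity
  have key : ∀ n : ℕ, BdX D.w D.s0 (sol μ - sol ν) (max (2 * D.r i / 2 ^ n) c0) := by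
    intro n
    induction n with
    | zero =>
      have hb : BdX D.w D.s0 (sol μ - sol ν) (D.r i + D.r i) :=
        ⟨by positivity, fun j => (hx1.2 j).sub (hy1.2 j)⟩
      refine hb.mono' (le_max_of_le_left ?_)
      rw [pow_zero, div_one]
      linarith
    | succ n ih =>
      have hd : D.dst i (sol μ) μ (sol ν) ν (max (2 * D.r i / 2 ^ n) c0) :=
        ⟨ih, le_max_right _ _⟩
      have := hlip (sol μ) μ (sol ν) ν _ (hmem _ _ hx1 h0 h1) (hmem _ _ hy1 k0 k1) hd ih.1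
      rw [hx2, hy2] at this
      refine this.mono' ?_
      have h2 : (0 : ℝ) < 2 ^ n := by positivity
      have e : 2 * D.r i / 2 ^ (n + 1) = (2 * D.r i / 2 ^ n) / 2 := by
        rw [pow_succ]
        field_simp
      rw [e]
      rcases le_total (2 * D.r i / 2 ^ n) c0 with hh | hh
      · rw [max_eq_right hh]
        exact le_max_of_le_right (by linarith)
      · rw [max_eq_left hh]
        exact le_max_left _ _
  obtain ⟨n, hn⟩ : ∃ n : ℕ, 2 * D.r i / 2 ^ n ≤ c0 := by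
    obtain ⟨n, hn⟩ := pow_unbounded_of_one_lt (2 * D.r i / c0) (one_lt_two)
    refine ⟨n, ?_⟩
    have h2 : (0 : ℝ) < 2 ^ n := by positivity
    rw [div_le_iff₀ h2]
    rw [div_lt_iff₀ hc0pos] at hn
    linarith
  have := key n
  rwa [max_eq_right hn] at this

end P205T
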