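import Vale.Agent.Lib.P205T.S1G2

/-! # P205T module S1Dr: the first contraction: the drift of the mean defect -/

open scoped ContDiff ENNReal
open Complex Set

namespace P205T

private theorem S1Dr_mean_add (f g : PR) : mean (f + g) = mean f + mean g := by
  unfold mean
  rw [cr_add, Complex.add_re]

private theorem S1Dr_mean_sub (f g : PR) : mean (f - g) = mean f - mean g := by
  unfold mean
  rw [cr_sub, Complex.sub_re]

private theorem S1Dr_mean_smul (r : ℝ) (f : PR) : mean (r • f) = r * mean f := by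
  unfold mean
  rw [cr_smul, Complex.re_ofReal_mul]

private theorem S1Dr_mean_one : mean (1 : PR) = 1 := by
  have h : (1 : PR) = cst 1 := by
    ext x
    simp [cst_apply]
  unfold mean
  rw [h, cr_cst]
  simp

/-- algebraic form of the normalized remainder -/
private theorem S1Dr_alg {A : Type*} [CommRing A] (rho rhoi p0 p1 q0 q1 x1 x2 e0 γ : A)
    (hr : rho * rhoi = 1) :
    rhoi ^ 2 * (rho ^ 2 * p0 * p1
      + (2 * rho * (-(rho * p0) + x1) + (-(rho * p0) + x1) ^ 2) * (1 + p0) * p1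
      + rho ^ 2 * q0 * q1
      + (2 * rho * (-(rho * q1) + x2) + (-(rho * q1) + x2) ^ 2) * q0 * (1 + q1)
      + e0 - γ * rho ^ 2) =
    -(p0 * p1 + q0 * q1) - γ + (-(p0 * p0 * p1 + p0 * p0 * p1)
      + (rhoi * x1 + rhoi * x1 + rhoi * rhoi * ((-(rho * p0) + x1) * (-(rho * p0) + x1)))
        * ((1 + p0) * p1)
      + (-(q1 * q1 * q0 + q1 * q1 * q0))
      + (rhoi * x2 + rhoi * x2 + rhoi * rhoi * ((-(rho * q1) + x2) * (-(rho * q1) + x2)))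
        * (q0 * (1 + q1))
      + rhoi * rhoi * e0) := by
  have h2 : rhoi ^ 2 * rho ^ 2 = 1 := by
    rw [← mul_pow, mul_comm rhoi rho, hr, one_pow]
  linear_combination (p0 * p1 - 2 * p0 * (1 + p0) * p1 + q0 * q1 - 2 * q1 * q0 * (1 + q1) - γ) * h2
    + (2 * rhoi * x1 * (1 + p0) * p1 + 2 * rhoi * x2 * q0 * (1 + q1)) * hr

private theorem S1Dr_alg2 {A : Type*} [CommRing A] (μ l0 l1 c a0 a1 b0 b1 : A) :
    (μ * (-(l0 * l0 * c)) + a0) * (μ * (-(l1 * l0 * c)) + a1)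
      + (-(μ * (-(l0 * l1 * c))) + b0) * (-(μ * (-(l1 * l1 * c))) + b1) =
    (l0 * l1 * (l0 ^ 2 + l1 ^ 2) * μ ^ 2) * (c * c)
      + ((μ * (-(l0 * l0 * c))) * a1 + a0 * (μ * (-(l1 * l0 * c)) + a1)
      + ((-(μ * (-(l0 * l1 * c)))) * b1 + b0 * (-(μ * (-(l1 * l1 * c))) + b1))) := by
  ring



/-- final numerical inequality -/
private theorem S1Dr_num (K κ : ℝ) (hK1 : 1 ≤ K) (hκ0 : 0 < κ) (hκK : κ ≤ K) :
    (K * κ * (K * κ) * (K * κ) + K * κ * (K * κ) * (K * κ)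
      + (K * (K * κ ^ 2) + K * (K * κ ^ 2) + K * K * (K * κ * (K * κ))) * ((1 + K * κ) * (K * κ))
      + (K * κ * (K * κ) * (K * κ) + K * κ * (K * κ) * (K * κ))
      + (K * (K * κ ^ 2) + K * (K * κ ^ 2) + K * K * (K * κ * (K * κ))) * (K * κ * (1 + K * κ))
      + K * K * (K * κ ^ 2 * (K * κ ^ 2) + K * κ ^ 2 * (K * κ ^ 2)))
      + (K * κ * (K * κ ^ 2) + K * κ ^ 2 * (K * κ)
      + (K * κ * (K * κ ^ 2) + K * κ ^ 2 * (K * κ)))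
      ≤ (4 * K ^ 2 + 4 * K ^ 3 + 12 * K ^ 7 + 2 * K ^ 5) * κ ^ 3 := by
  have hKK : 1 + K * κ ≤ 2 * K ^ 2 := by nlinarith
  have hK24 : K ^ 2 ≤ K ^ 4 := pow_le_pow_right₀ hK1 (by norm_num)
  have t1 : (K * (K * κ ^ 2) + K * (K * κ ^ 2) + K * K * (K * κ * (K * κ))) ≤ 3 * K ^ 4 * κ ^ 2 := by
    have h5 : K * (K * κ ^ 2) + K * (K * κ ^ 2) + K * K * (K * κ * (K * κ))
        = (2 * K ^ 2 + K ^ 4) * κ ^ 2 := by ring
    rw [h5]
    apply mul_le_mul_of_nonneg_right _ (by positivity)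
    linarith
  have t2 : (1 + K * κ) * (K * κ) ≤ 2 * K ^ 2 * (K * κ) :=
    mul_le_mul_of_nonneg_right hKK (by positivity)
  have t3 : (K * (K * κ ^ 2) + K * (K * κ ^ 2) + K * K * (K * κ * (K * κ)))
      * ((1 + K * κ) * (K * κ)) ≤ 3 * K ^ 4 * κ ^ 2 * (2 * K ^ 2 * (K * κ)) :=
    mul_le_mul t1 t2 (by positivity) (by positivity)
  have t3' : (K * (K * κ ^ 2) + K * (K * κ ^ 2) + K * K * (K * κ * (K * κ)))
      * (K * κ * (1 + K * κ)) ≤ 3 * K ^ 4 * κ ^ 2 * (2 * K ^ 2 * (K * κ)) := by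
    rw [mul_comm (K * κ) (1 + K * κ)]
    exact t3
  have t4 : K * K * (K * κ ^ 2 * (K * κ ^ 2) + K * κ ^ 2 * (K * κ ^ 2)) ≤ 2 * K ^ 5 * κ ^ 3 := by
    have h5 : K * K * (K * κ ^ 2 * (K * κ ^ 2) + K * κ ^ 2 * (K * κ ^ 2))
        = 2 * K ^ 4 * κ ^ 3 * κ := by ring
    have h6 : 2 * K ^ 5 * κ ^ 3 = 2 * K ^ 4 * κ ^ 3 * K := by ring
    rw [h5, h6]
    exact mul_le_mul_of_nonneg_left hκK (by positivity)
  have e1 : (4 * K ^ 2 + 4 * K ^ 3 + 12 * K ^ 7 + 2 * K ^ 5) * κ ^ 3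
      = (K * κ * (K * κ) * (K * κ) + K * κ * (K * κ) * (K * κ)
      + 3 * K ^ 4 * κ ^ 2 * (2 * K ^ 2 * (K * κ))
      + (K * κ * (K * κ) * (K * κ) + K * κ * (K * κ) * (K * κ))
      + 3 * K ^ 4 * κ ^ 2 * (2 * K ^ 2 * (K * κ))
      + 2 * K ^ 5 * κ ^ 3)
      + (K * κ * (K * κ ^ 2) + K * κ ^ 2 * (K * κ)
      + (K * κ * (K * κ ^ 2) + K * κ ^ 2 * (K * κ))) := by ring
  rw [e1]
  exact add_le_add (add_le_add (add_le_add (add_le_add (add_le_add le_rfl t3) le_rfl) t3') t4) le_rfl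

/-- the remainders are small -/
private theorem S1Dr_core {w : Weight} {p0 p1 q0 q1 al be x1 x2 rhoi e0 e1 f0 f1 P Q a0 a1 b0 b1 : PR}
    {K κ : ℝ} (hK1 : 1 ≤ K) (hκ0 : 0 < κ) (hκK : κ ≤ K)
    (bp0 : Bd w 13 p0 (K * κ)) (bp1 : Bd w 13 p1 (K * κ)) (bq0 : Bd w 13 q0 (K * κ))
    (bq1 : Bd w 13 q1 (K * κ)) (bal : Bd w 13 al (K * κ)) (bbe : Bd w 13 be (K * κ))
    (bx1 : Bd w 13 x1 (K * κ ^ 2)) (bx2 : Bd w 13 x2 (K * κ ^ 2)) (bri : Bd w 13 rhoi K)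
    (be0 : Bd w 13 e0 (K * κ ^ 2)) (be1 : Bd w 13 e1 (K * κ ^ 2)) (bf0 : Bd w 13 f0 (K * κ ^ 2))
    (bf1 : Bd w 13 f1 (K * κ ^ 2)) (bP : Bd w 13 P (K * κ)) (bQ : Bd w 13 Q (K * κ))
    (ba0 : Bd w 13 a0 (K * κ ^ 2)) (ba1 : Bd w 13 a1 (K * κ ^ 2)) (bb0 : Bd w 13 b0 (K * κ ^ 2))
    (bb1 : Bd w 13 b1 (K * κ ^ 2)) :
    |mean (-(p0 * p0 * p1 + p0 * p0 * p1)
      + (rhoi * x1 + rhoi * x1 + rhoi * rhoi * (al * al)) * ((1 + p0) * p1)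
      + (-(q1 * q1 * q0 + q1 * q1 * q0))
      + (rhoi * x2 + rhoi * x2 + rhoi * rhoi * (be * be)) * (q0 * (1 + q1))
      + rhoi * rhoi * (e0 * e1 + f0 * f1))
      - mean (P * a1 + a0 * p1 + (Q * b1 + b0 * q1))|
      ≤ (4 * K ^ 2 + 4 * K ^ 3 + 12 * K ^ 7 + 2 * K ^ 5) * κ ^ 3 := by
  have b1' := (((((bp0.mul bp0).mul bp1).add ((bp0.mul bp0).mul bp1)).neg.add
      ((((bri.mul bx1).add (bri.mul bx1)).add ((bri.mul bri).mul (bal.mul bal))).mul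
        ((Bd.one.add bp0).mul bp1))).add
      (((bq1.mul bq1).mul bq0).add ((bq1.mul bq1).mul bq0)).neg).add
      ((((bri.mul bx2).add (bri.mul bx2)).add ((bri.mul bri).mul (bbe.mul bbe))).mul
        (bq0.mul (Bd.one.add bq1)))
  have b2 := b1'.add ((bri.mul bri).mul ((be0.mul be1).add (bf0.mul bf1)))
  have b3 := ((bP.mul ba1).add (ba0.mul bp1)).add ((bQ.mul bb1).add (bb0.mul bq1))
  exact (abs_sub _ _).trans ((add_le_add b2.mean b3.mean).trans (S1Dr_num K κ hK1 hκ0 hκK))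

/-- the mean of the normalized remainder -/
private theorem S1Dr_mean {p0 p1 q0 q1 E1 E2 c f : PR} {γ L : ℝ}
    (hf : f = -(p0 * p1 + q0 * q1) - γ • (1 : PR) + E1)
    (h : p0 * p1 + q0 * q1 = L • (c * c) + E2) (hc : mean (c * c) = 1 / 2) :
    mean f - (-γ - L / 2) = mean E1 - mean E2 := by
  have hneg : ∀ f : PR, mean (-f) = -mean f := by
    intro f
    have := S1Dr_mean_smul (-1) f
    rw [neg_one_smul, neg_one_mul] at this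
    exact this
  rw [hf, h, S1Dr_mean_add, S1Dr_mean_sub, hneg, S1Dr_mean_add, S1Dr_mean_smul,
    S1Dr_mean_smul, S1Dr_mean_one, hc]
  ring

private theorem S1Dr_key1 (rho rhoi p0 p1 q0 q1 x1 x2 e0 : PR) (γ : ℝ) (hr : rho * rhoi = 1) :
    rhoi ^ 2 * (rho ^ 2 * p0 * p1
      + (2 * rho * (-(rho * p0) + x1) + (-(rho * p0) + x1) ^ 2) * (1 + p0) * p1
      + rho ^ 2 * q0 * q1
      + (2 * rho * (-(rho * q1) + x2) + (-(rho * q1) + x2) ^ 2) * q0 * (1 + q1)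
      + e0 - γ • rho ^ 2) =
    -(p0 * p1 + q0 * q1) - γ • (1 : PR) + (-(p0 * p0 * p1 + p0 * p0 * p1)
      + (rhoi * x1 + rhoi * x1 + rhoi * rhoi * ((-(rho * p0) + x1) * (-(rho * p0) + x1)))
        * ((1 + p0) * p1)
      + (-(q1 * q1 * q0 + q1 * q1 * q0))
      + (rhoi * x2 + rhoi * x2 + rhoi * rhoi * ((-(rho * q1) + x2) * (-(rho * q1) + x2)))
        * (q0 * (1 + q1))
      + rhoi * rhoi * e0) := by
  have h := S1Dr_alg rho rhoi p0 p1 q0 q1 x1 x2 e0 (algebraMap ℝ PR γ) hr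
  rw [Algebra.smul_def, Algebra.smul_def, mul_one]
  exact h

private theorem S1Dr_key2 (μ l0 l1 : ℝ) (c a0 a1 b0 b1 : PR) :
    (μ • (-((l0 * l0) • c)) + a0) * (μ • (-((l1 * l0) • c)) + a1)
      + (-(μ • (-((l0 * l1) • c))) + b0) * (-(μ • (-((l1 * l1) • c))) + b1) =
    (l0 * l1 * (l0 ^ 2 + l1 ^ 2) * μ ^ 2) • (c * c)
      + ((μ • (-((l0 * l0) • c))) * a1 + a0 * (μ • (-((l1 * l0) • c)) + a1)
      + ((-(μ • (-((l0 * l1) • c)))) * b1 + b0 * (-(μ • (-((l1 * l1) • c))) + b1))) := by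
  have h := S1Dr_alg2 (algebraMap ℝ PR μ) (algebraMap ℝ PR l0) (algebraMap ℝ PR l1) c a0 a1 b0 b1
  simp only [Algebra.smul_def, map_mul, map_pow, map_add]
  exact h

section

variable {ι : Type} {w : Weight} {F : ι → Frame} {C3 : ℝ} (h3 : 0 < C3) {G : CMet} {C0 c1 : ℝ}
  {m : ℤ × ℤ} (hF : ∀ i, (F i).Good G C0 c1 m) {rho rhoi : PR}
  (hrho : Nm w 14 rho ≠ ⊤) (hrhoi : Nm w 14 rhoi ≠ ⊤) (hr : rho * rhoi = 1)

include hF hrho hrhoi hr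

/-- see `notes/P205/TORUS_PROOF.md`, DRIFT: at a fixed point `x = O (kap ^ 2)`, and
`rhoi ^ 2 * R01 = -gam01 - (dp 0 * dp 1 + dq 0 * dq 1) + O (kap ^ 3)` -/
theorem S1_drift : ∃ C : ℝ, 0 ≤ C ∧ ∀ i x μ, (famS1 w F C3 h3).mem i x μ →
    (mkS1 G rho rhoi m (F i)).Theta x μ = x →
    |(mkS1 G rho rhoi m (F i)).s x μ - (-(F i).gam G 0 1 -
      (F i).l 0 m * (F i).l 1 m * (F i).lsq m / 2 * μ ^ 2)| ≤ C * (F i).kap C3 ^ 3 := by
  obtain ⟨Cp0, hCp0, hp0⟩ := S1_dp (w := w) (rho := rho) (rhoi := rhoi) h3 hF 0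
  obtain ⟨Cp1, hCp1, hp1⟩ := S1_dp (w := w) (rho := rho) (rhoi := rhoi) h3 hF 1
  obtain ⟨Cq0, hCq0, hq0⟩ := S1_dq (w := w) (rho := rho) (rhoi := rhoi) h3 hF 0
  obtain ⟨Cq1, hCq1, hq1⟩ := S1_dq (w := w) (rho := rho) (rhoi := rhoi) h3 hF 1
  obtain ⟨Cal, hCal, hal⟩ := S1_al (rhoi := rhoi) h3 hF hrho
  obtain ⟨Cbe, hCbe, hbe⟩ := S1_be (rhoi := rhoi) h3 hF hrho
  obtain ⟨Ce0, hCe0, he0⟩ := S1_eA (rhoi := rhoi) h3 hF hrho 0
  obtain ⟨Ce1, hCe1, he1⟩ := S1_eA (rhoi := rhoi) h3 hF hrho 1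
  obtain ⟨Cf0, hCf0, hf0⟩ := S1_eB (rhoi := rhoi) h3 hF hrho 0
  obtain ⟨Cf1, hCf1, hf1⟩ := S1_eB (rhoi := rhoi) h3 hF hrho 1
  obtain ⟨Ct0, hCt0, ht0⟩ := S1_Theta h3 hF hrho hrhoi 0
  obtain ⟨Ct1, hCt1, ht1⟩ := S1_Theta h3 hF hrho hrhoi 1
  obtain ⟨Ct2, hCt2, ht2⟩ := S1_Theta h3 hF hrho hrhoi 2
  obtain ⟨Br, hBr⟩ := exists_Bd hrhoi
  obtain ⟨Bc, hBc⟩ := exists_Bd (Nm_cosm w 13 m)
  have hBr0 := hBr.nonneg
  have hBc0 := hBc.nonneg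
  have hk3 : 0 ≤ Real.sqrt C3 := Real.sqrt_nonneg _
  have hCB : 0 ≤ |C0| * Bc := by positivity
  obtain ⟨K, hK1, kp0, kp1, kq0, kq1, kal, kbe, ke0, ke1, kf0, kf1, kt0, kt1, kt2, kr, kc, k3⟩ :
      ∃ K : ℝ, 1 ≤ K ∧ Cp0 ≤ K ∧ Cp1 ≤ K ∧ Cq0 ≤ K ∧ Cq1 ≤ K ∧ Cal ≤ K ∧ Cbe ≤ K ∧ Ce0 ≤ K ∧
        Ce1 ≤ K ∧ Cf0 ≤ K ∧ Cf1 ≤ K ∧ Ct0 ≤ K ∧ Ct1 ≤ K ∧ Ct2 ≤ K ∧ Br ≤ K ∧ |C0| * Bc ≤ K ∧
        Real.sqrt C3 ≤ K := by
    refine ⟨1 + Cp0 + Cp1 + Cq0 + Cq1 + Cal + Cbe + Ce0 + Ce1 + Cf0 + Cf1 + Ct0 + Ct1 + Ct2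
      + Br + |C0| * Bc + Real.sqrt C3, ?_⟩
    refine ⟨?_, ?_, ?_, ?_, ?_, ?_, ?_, ?_, ?_, ?_, ?_, ?_, ?_, ?_, ?_, ?_, ?_⟩ <;> linarith
  have hK0 : 0 ≤ K := by linarith
  refine ⟨4 * K ^ 2 + 4 * K ^ 3 + 12 * K ^ 7 + 2 * K ^ 5, by positivity,
    fun i x μ hx hfix => ?_⟩
  have hκ0 : 0 < (F i).kap C3 := Real.sqrt_pos.mpr (mul_pos h3 (F i).e_pos)
  have hκK : (F i).kap C3 ≤ K := by
    have h1 : (F i).kap C3 ≤ Real.sqrt C3 := by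
      apply Real.sqrt_le_sqrt
      have := (hF i).e_le
      nlinarith
    linarith
  have hμ0 : 0 ≤ μ := hx.2.1
  have hμκ : μ ≤ (F i).kap C3 := hx.2.2
  -- first order bounds
  have up : ∀ {f : PR} {C : ℝ}, Bd w 13 f (C * 1 * (F i).kap C3) → C ≤ K →
      Bd w 13 f (K * (F i).kap C3) := by
    intro f C h hC
    refine h.mono ?_
    rw [mul_one]
    exact mul_le_mul_of_nonneg_right hC hκ0.le
  have up2 : ∀ {f : PR} {C : ℝ}, Bd w 13 f (C * (F i).kap C3 * (F i).kap C3) → C ≤ K →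
      Bd w 13 f (K * (F i).kap C3 ^ 2) := by
    intro f C h hC
    refine h.mono ?_
    rw [mul_assoc, ← sq]
    exact mul_le_mul_of_nonneg_right hC (by positivity)
  have bp0 : Bd w 13 ((mkS1 G rho rhoi m (F i)).dp x μ 0) (K * (F i).kap C3) :=
    up (hp0 i x μ hx).1 kp0
  have bp1 : Bd w 13 ((mkS1 G rho rhoi m (F i)).dp x μ 1) (K * (F i).kap C3) :=
    up (hp1 i x μ hx).1 kp1
  have bq0 : Bd w 13 ((mkS1 G rho rhoi m (F i)).dq x μ 0) (K * (F i).kap C3) :=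
    up (hq0 i x μ hx).1 kq0
  have bq1 : Bd w 13 ((mkS1 G rho rhoi m (F i)).dq x μ 1) (K * (F i).kap C3) :=
    up (hq1 i x μ hx).1 kq1
  have bal : Bd w 13 ((mkS1 G rho rhoi m (F i)).al x μ) (K * (F i).kap C3) :=
    up (hal i x μ hx).1 kal
  have bbe : Bd w 13 ((mkS1 G rho rhoi m (F i)).be x μ) (K * (F i).kap C3) :=
    up (hbe i x μ hx).1 kbe
  have be0 : Bd w 13 ((mkS1 G rho rhoi m (F i)).eA x μ 0) (K * (F i).kap C3 ^ 2) :=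
    up2 (he0 i x μ hx).1 ke0
  have be1 : Bd w 13 ((mkS1 G rho rhoi m (F i)).eA x μ 1) (K * (F i).kap C3 ^ 2) :=
    up2 (he1 i x μ hx).1 ke1
  have bf0 : Bd w 13 ((mkS1 G rho rhoi m (F i)).eB x μ 0) (K * (F i).kap C3 ^ 2) :=
    up2 (hf0 i x μ hx).1 kf0
  have bf1 : Bd w 13 ((mkS1 G rho rhoi m (F i)).eB x μ 1) (K * (F i).kap C3 ^ 2) :=
    up2 (hf1 i x μ hx).1 kf1
  have bx0 : Bd w 13 (x 0) (K * (F i).kap C3 ^ 2) := by
    have h := up2 (ht0 i x μ hx).1 kt0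
    have e : (mkS1 G rho rhoi m (F i)).Theta x μ 0 = x 0 := congrFun hfix 0
    rw [← e]
    exact h
  have bx1 : Bd w 13 (x 1) (K * (F i).kap C3 ^ 2) := by
    have h := up2 (ht1 i x μ hx).1 kt1
    have e : (mkS1 G rho rhoi m (F i)).Theta x μ 1 = x 1 := congrFun hfix 1
    rw [← e]
    exact h
  have bx2 : Bd w 13 (x 2) (K * (F i).kap C3 ^ 2) := by
    have h := up2 (ht2 i x μ hx).1 kt2
    have e : (mkS1 G rho rhoi m (F i)).Theta x μ 2 = x 2 := congrFun hfix 2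
    rw [← e]
    exact h
  have bri : Bd w 13 rhoi K := (hBr.level (by norm_num)).mono kr
  -- the main parts of the phase derivatives
  have hl : ∀ j k : Fin 2, |(F i).l j m * (F i).l k m| ≤ |C0| := by
    intro j k
    have h1 := (F i).FrB_l_sq_le j m
    have h2 := (F i).FrB_l_sq_le k m
    have h4 := (hF i).m_hi
    have h5 := le_abs_self C0
    rw [abs_le]
    constructor
    · nlinarith [sq_nonneg ((F i).l j m + (F i).l k m)]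
    · nlinarith [sq_nonneg ((F i).l j m - (F i).l k m)]
  have bmain : ∀ j k : Fin 2, Bd w 13 (μ • (-(((F i).l j m * (F i).l k m) • cosm m)))
      (K * (F i).kap C3) := by
    intro j k
    refine (((hBc.smul ((F i).l j m * (F i).l k m)).neg).smul μ).mono ?_
    rw [abs_of_nonneg hμ0]
    calc μ * (|(F i).l j m * (F i).l k m| * Bc) ≤ (F i).kap C3 * (|C0| * Bc) := by
          apply mul_le_mul hμκ (mul_le_mul_of_nonneg_right (hl j k) hBc0) (by positivity) hκ0.le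
      _ ≤ (F i).kap C3 * K := mul_le_mul_of_nonneg_left kc hκ0.le
      _ = K * (F i).kap C3 := mul_comm _ _
  have bT : ∀ j k : Fin 2, Bd w 13 ((F i).T j k (x 0)) (K * (F i).kap C3 ^ 2) :=
    fun j k => Frame.Bd_T (F i) j k bx0
  have hm : m ≠ 0 := by
    intro hm
    have h1 := (hF i).m_lo
    have h2 := (hF i).c1_pos
    have h4 : (F i).l 0 m = 0 := by
      rw [hm]
      simp [Frame.l, dotZ]
    rw [h4, zero_mul] at h1
    linarith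
  -- the algebra
  have d0 : (mkS1 G rho rhoi m (F i)).dp x μ 0 =
      μ • (-(((F i).l 0 m * (F i).l 0 m) • cosm m)) + (F i).T 0 1 (x 0) := by
    rw [← d_d_cosm]
    rfl
  have d1 : (mkS1 G rho rhoi m (F i)).dp x μ 1 =
      μ • (-(((F i).l 1 m * (F i).l 0 m) • cosm m)) + (F i).T 1 1 (x 0) := by
    rw [← d_d_cosm]
    rfl
  have d2 : (mkS1 G rho rhoi m (F i)).dq x μ 0 =
      -(μ • (-(((F i).l 0 m * (F i).l 1 m) • cosm m))) + (F i).T 0 0 (x 0) := by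
    rw [← d_d_cosm]
    rfl
  have d3 : (mkS1 G rho rhoi m (F i)).dq x μ 1 =
      -(μ • (-(((F i).l 1 m * (F i).l 1 m) • cosm m))) + (F i).T 1 0 (x 0) := by
    rw [← d_d_cosm]
    rfl
  have key2 := S1Dr_key2 μ ((F i).l 0 m) ((F i).l 1 m) (cosm m) ((F i).T 0 1 (x 0))
    ((F i).T 1 1 (x 0)) ((F i).T 0 0 (x 0)) ((F i).T 1 0 (x 0))
  rw [← d0, ← d1, ← d2, ← d3] at key2
  have e1 := (mkS1 G rho rhoi m (F i)).R01_eq x μ
  have e2 : (mkS1 G rho rhoi m (F i)).al x μ =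
      -(rho * (mkS1 G rho rhoi m (F i)).dp x μ 0) + x 1 := rfl
  have e3 : (mkS1 G rho rhoi m (F i)).be x μ =
      -(rho * (mkS1 G rho rhoi m (F i)).dq x μ 1) + x 2 := rfl
  generalize (mkS1 G rho rhoi m (F i)).al x μ = al at *
  generalize (mkS1 G rho rhoi m (F i)).be x μ = be at *
  have key1 := S1Dr_key1 rho rhoi ((mkS1 G rho rhoi m (F i)).dp x μ 0)
    ((mkS1 G rho rhoi m (F i)).dp x μ 1) ((mkS1 G rho rhoi m (F i)).dq x μ 0)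
    ((mkS1 G rho rhoi m (F i)).dq x μ 1) (x 1) (x 2)
    ((mkS1 G rho rhoi m (F i)).eA x μ 0 * (mkS1 G rho rhoi m (F i)).eA x μ 1
      + (mkS1 G rho rhoi m (F i)).eB x μ 0 * (mkS1 G rho rhoi m (F i)).eB x μ 1)
    ((F i).gam G 0 1) hr
  rw [← e2, ← e3] at key1
  have key0 : rhoi ^ 2 * (mkS1 G rho rhoi m (F i)).R01 x μ = _ := (congrArg (rhoi ^ 2 * ·) e1).trans key1
  have hmean := S1Dr_mean key0 key2 (mean_cosm_sq hm)
  have hlsq : (F i).lsq m = (F i).l 0 m ^ 2 + (F i).l 1 m ^ 2 := rfl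
  have hfin := S1Dr_core hK1 hκ0 hκK bp0 bp1 bq0 bq1 bal bbe bx1 bx2 bri be0 be1 bf0 bf1
    (bmain 0 0) (bmain 0 1).neg (bT 0 1) (bT 1 1) (bT 0 0) (bT 1 0)
  have e5 : (F i).l 0 m * (F i).l 1 m * (F i).lsq m / 2 * μ ^ 2 =
      (F i).l 0 m * (F i).l 1 m * ((F i).l 0 m ^ 2 + (F i).l 1 m ^ 2) * μ ^ 2 / 2 := by
    rw [hlsq]
    ring
  rw [e5]
  have e6 : (mkS1 G rho rhoi m (F i)).s x μ = mean (rhoi ^ 2 * (mkS1 G rho rhoi m (F i)).R01 x μ) :=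
    rfl
  rw [e6, hmean]
  exact hfin

end

end P205T
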