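import Vale.Agent.Lib.P205T.FrG

/-! # P205T module FrT: gauge of the high frequency tail -/

open scoped ContDiff ENNReal
open Complex Set

namespace P205T

theorem Gau.frtail {ι : Type} {D : Fam ι} {s t : ℕ} {g : ι → ℝ}
    {φ : ι → (Fin D.k → PR) → ℝ → PR} (K : ι → ℝ) (hK : ∀ i, 0 ≤ K i) (h : Gau D (s + t) g φ) :
    Gau D s (fun i => g i / (1 + K i) ^ t) (fun i x μ => φ i x μ - Cut (K i) (φ i x μ)) := by
  obtain ⟨C, hC, H⟩ := h
  refine ⟨C, hC, fun i x μ hx => ⟨?_, fun y ν c hy hc => ?_⟩⟩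
  · have := Frame.Bd_tail (hK i) (H i x μ hx).1
    refine this.mono (le_of_eq (by ring))
  · have := Frame.Bd_tail (hK i) ((H i x μ hx).2 y ν c hy hc)
    rw [map_sub] at this
    have h2 : φ i x μ - (Cut (K i)) (φ i x μ) - (φ i y ν - (Cut (K i)) (φ i y ν)) =
        φ i x μ - φ i y ν - ((Cut (K i)) (φ i x μ) - (Cut (K i)) (φ i y ν)) := by ring
    rw [h2]
    exact this.mono (le_of_eq (by ring))

end P205T
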