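import Vale.Agent.Lib.P205T.S1G1
import Vale.Agent.Lib.P205T.FrT

/-! # P205T module S1Err: the first contraction: the truncation error -/

open scoped ContDiff ENNReal
open Complex Set

namespace P205T

/-- the truncation error of the metric -/
noncomputable def S1.Er (S : S1) (x : Fin 3 → PR) (μ : ℝ) (i j : Fin 2) : PR :=
  S.F.e ^ 2 • (S.F.d i (S.A x μ) * S.F.d j (S.A x μ) + S.F.d i (S.B x μ) * S.F.d j (S.B x μ))
    - (S.eA x μ i * S.eA x μ j + S.eB x μ i * S.eB x μ j)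

section

variable {ι : Type} {w : Weight} {F : ι → Frame} {C3 : ℝ} (h3 : 0 < C3) {G : CMet} {C0 c1 : ℝ}
  {m : ℤ × ℤ} (hF : ∀ i, (F i).Good G C0 c1 m) {rho rhoi : PR}
  (hrho : Nm w 14 rho ≠ ⊤)

private theorem S1Err_K10 (F : Frame) : 1 / (1 + F.Kc) ^ 10 ≤ F.e ^ 5 := by
  have he := F.e_pos
  have hs : 0 < Real.sqrt F.e := Real.sqrt_pos.mpr he
  have hK : 0 < F.Kc := inv_pos.mpr hs
  have h2 : F.Kc ^ 10 ≤ (1 + F.Kc) ^ 10 := pow_le_pow_left₀ hK.le (by linarith) 10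
  have h3 : F.Kc ^ 10 * F.e ^ 5 = 1 := by
    have h4 : Real.sqrt F.e ^ 2 = F.e := Real.sq_sqrt he.le
    unfold Frame.Kc
    rw [inv_pow]
    have h5 : Real.sqrt F.e ^ 10 = F.e ^ 5 := by
      calc Real.sqrt F.e ^ 10 = (Real.sqrt F.e ^ 2) ^ 5 := by ring
        _ = F.e ^ 5 := by rw [h4]
    rw [h5]
    exact inv_mul_cancel₀ (by positivity)
  rw [div_le_iff₀ (by positivity)]
  calc (1 : ℝ) = F.Kc ^ 10 * F.e ^ 5 := h3.symm
    _ ≤ (1 + F.Kc) ^ 10 * F.e ^ 5 := mul_le_mul_of_nonneg_right h2 (by positivity)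
    _ = F.e ^ 5 * (1 + F.Kc) ^ 10 := by ring

include hF

private theorem S1Err_tail {φ : ι → (Fin 3 → PR) → ℝ → PR}
    (h : Gau (famS1 w F C3 h3) 13 (fun i => 1 / (F i).kap C3) φ) (j : Fin 2) :
    Gau (famS1 w F C3 h3) 2 (fun i => (F i).e ^ 6 / (F i).kap C3)
      (fun i x μ => (F i).e • (F i).d j (φ i x μ - Cut (F i).Kc (φ i x μ))) := by
  have hkp : ∀ i, 0 < (F i).kap C3 := fun i => Real.sqrt_pos.mpr (mul_pos h3 (F i).e_pos)
  have hK : ∀ i, 0 ≤ (F i).Kc := fun i => inv_nonneg.mpr (Real.sqrt_nonneg _)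
  have h' : Gau (famS1 w F C3 h3) (3 + 10) (fun i => 1 / (F i).kap C3) φ := h
  have h1 := Gau.frtail (s := 3) (t := 10) (fun i => (F i).Kc) hK h'
  have h2 : Gau (famS1 w F C3 h3) (2 + 1) (fun i => (F i).e ^ 5 / (F i).kap C3)
      (fun i x μ => φ i x μ - Cut (F i).Kc (φ i x μ)) := by
    refine h1.mono zero_le_one fun i => ?_
    have h4 := S1Err_K10 (F i)
    have h5 := hkp i
    calc 1 / (F i).kap C3 / (1 + (F i).Kc) ^ 10 = 1 / (1 + (F i).Kc) ^ 10 / (F i).kap C3 := by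
          rw [div_right_comm]
      _ ≤ (F i).e ^ 5 / (F i).kap C3 := div_le_div_of_nonneg_right h4 h5.le
      _ = 1 * ((F i).e ^ 5 / (F i).kap C3) := (one_mul _).symm
  have h6 := (Gau.frd hF j h2).smul (fun i => (F i).e)
  refine h6.mono zero_le_one fun i => ?_
  rw [abs_of_pos (F i).e_pos, one_mul]
  exact le_of_eq (by ring)

private theorem S1Err_sum {φ a : ι → Fin 2 → (Fin 3 → PR) → ℝ → PR}
    {ψ : ι → (Fin 3 → PR) → ℝ → PR}
    (ha : ∀ j, Gau (famS1 w F C3 h3) 13 (fun i => (F i).kap C3) (fun i x μ => a i j x μ))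
    (ht : ∀ j, Gau (famS1 w F C3 h3) 2 (fun i => (F i).e ^ 6 / (F i).kap C3)
      (fun i x μ => φ i j x μ)) (j k : Fin 2)
    (hψ : ∀ i x μ, ψ i x μ = a i j x μ * φ i k x μ + φ i j x μ * a i k x μ
      + φ i j x μ * φ i k x μ) :
    Gau (famS1 w F C3 h3) 2 (fun i => (F i).e ^ 7 / (F i).kap C3) ψ := by
  have hkp : ∀ i, 0 < (F i).kap C3 := fun i => Real.sqrt_pos.mpr (mul_pos h3 (F i).e_pos)
  have hk2 : ∀ i, (F i).kap C3 ^ 2 = C3 * (F i).e := fun i =>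
    Real.sq_sqrt (mul_pos h3 (F i).e_pos).le
  have m1 : ∀ (a' b' : ι → (Fin 3 → PR) → ℝ → PR),
      Gau (famS1 w F C3 h3) 13 (fun i => (F i).kap C3) a' →
      Gau (famS1 w F C3 h3) 2 (fun i => (F i).e ^ 6 / (F i).kap C3) b' →
      Gau (famS1 w F C3 h3) 2 (fun i => (F i).e ^ 7 / (F i).kap C3)
        (fun i x μ => a' i x μ * b' i x μ) := by
    intro a' b' h1 h2
    refine ((h1.level (s := 2) (by norm_num)).mul h2).mono h3.le fun i => ?_
    have h4 := (hkp i).ne'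
    have h5 := hk2 i
    show (F i).kap C3 * ((F i).e ^ 6 / (F i).kap C3) * (F i).kap C3
      ≤ C3 * ((F i).e ^ 7 / (F i).kap C3)
    refine le_of_eq ?_
    field_simp
    rw [h5]
    ring
  have m2 : ∀ (a' b' : ι → (Fin 3 → PR) → ℝ → PR),
      Gau (famS1 w F C3 h3) 2 (fun i => (F i).e ^ 6 / (F i).kap C3) a' →
      Gau (famS1 w F C3 h3) 2 (fun i => (F i).e ^ 6 / (F i).kap C3) b' →
      Gau (famS1 w F C3 h3) 2 (fun i => (F i).e ^ 7 / (F i).kap C3)
        (fun i x μ => a' i x μ * b' i x μ) := by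
    intro a' b' h1 h2
    refine (h1.mul h2).mono zero_le_one fun i => ?_
    have h4 := hkp i
    have h5 := (hF i).e_le
    have h6 := (F i).e_pos
    show (F i).e ^ 6 / (F i).kap C3 * ((F i).e ^ 6 / (F i).kap C3) * (F i).kap C3
      ≤ 1 * ((F i).e ^ 7 / (F i).kap C3)
    have h7 : (F i).e ^ 6 / (F i).kap C3 * ((F i).e ^ 6 / (F i).kap C3) * (F i).kap C3
        = (F i).e ^ 12 / (F i).kap C3 := by
      field_simp
    rw [h7, one_mul]
    refine div_le_div_of_nonneg_right ?_ h4.le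
    exact pow_le_pow_of_le_one h6.le h5 (by norm_num)
  refine (((m1 _ _ (ha j) (ht k)).add (m1 _ _ (ha k) (ht j))).add
    (m2 _ _ (ht j) (ht k))).congr fun i x μ _ => ?_
  rw [hψ i x μ]
  ring

include hrho

/-- `d A - d (Cut A) = d (A - Cut A)`, `Gau.frtail` with `t = 10`, `(1 + Kc) ^ (-10) ≤ e ^ 5` -/
theorem S1_Er (j k : Fin 2) : Gau (famS1 w F C3 h3) 2 (fun i => (F i).e ^ 7 / (F i).kap C3)
    (fun i x μ => (mkS1 G rho rhoi m (F i)).Er x μ j k) := by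
  have hA := S1Err_sum h3 hF
    (a := fun i j x μ => (mkS1 G rho rhoi m (F i)).eA x μ j)
    (φ := fun i j x μ => (F i).e • (F i).d j ((mkS1 G rho rhoi m (F i)).A x μ
      - Cut (F i).Kc ((mkS1 G rho rhoi m (F i)).A x μ)))
    (fun j => S1_eA h3 hF hrho j)
    (fun j => S1Err_tail h3 hF (S1_A h3 hF hrho) j) j k (fun _ _ _ => rfl)
  have hB := S1Err_sum h3 hF
    (a := fun i j x μ => (mkS1 G rho rhoi m (F i)).eB x μ j)
    (φ := fun i j x μ => (F i).e • (F i).d j ((mkS1 G rho rhoi m (F i)).B x μ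
      - Cut (F i).Kc ((mkS1 G rho rhoi m (F i)).B x μ)))
    (fun j => S1_eB h3 hF hrho j)
    (fun j => S1Err_tail h3 hF (S1_B h3 hF hrho) j) j k (fun _ _ _ => rfl)
  refine (hA.add hB).congr fun i x μ _ => ?_
  show _ = (mkS1 G rho rhoi m (F i)).Er x μ j k
  simp only [S1.Er, S1.eA, S1.eB, map_sub, smul_sub]
  generalize (mkS1 G rho rhoi m (F i)).A x μ = A
  generalize (mkS1 G rho rhoi m (F i)).B x μ = B
  simp only [Algebra.smul_def, map_pow]
  ring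

end

end P205T
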