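import Vale.Agent.Lib.P205T.S1G2
import Vale.Agent.Lib.P205T.S1Err
import Vale.Agent.Lib.P205T.S1Dr
import Vale.Agent.Lib.P205T.GB

/-! # P205T module Approx: approximate solutions -/

open scoped ContDiff ENNReal
open Complex Set

namespace P205T

/-- approximate solution data, depending on the parameter `μ` -/
structure ApproxData where
  A : ℝ → PR
  B : ℝ → PR
  p : ℝ → PR
  q : ℝ → PR
  s : ℝ → ℝ
  E : Fin 2 → Fin 2 → ℝ → PR

/-- quantitative properties of approximate solutions -/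
structure IsApprox (X : ApproxData) (w : Weight) (F : Frame) (G : CMet) (rho : PR)
    (kap C c : ℝ) : Prop where
  A_bd : ∀ μ ∈ Icc 0 kap, Bd w 13 (X.A μ - rho) (C * kap)
  A_lip : ∀ μ ∈ Icc 0 kap, ∀ ν ∈ Icc 0 kap, Bd w 13 (X.A μ - X.A ν) (C * |μ - ν|)
  B_bd : ∀ μ ∈ Icc 0 kap, Bd w 13 (X.B μ - rho) (C * kap)
  B_lip : ∀ μ ∈ Icc 0 kap, ∀ ν ∈ Icc 0 kap, Bd w 13 (X.B μ - X.B ν) (C * |μ - ν|)
  p_bd : ∀ i, ∀ μ ∈ Icc 0 kap, Bd w 13 (F.d i (X.p μ)) (C * kap)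
  p_lip : ∀ i, ∀ μ ∈ Icc 0 kap, ∀ ν ∈ Icc 0 kap,
    Bd w 13 (F.d i (X.p μ) - F.d i (X.p ν)) (C * |μ - ν|)
  q_bd : ∀ i, ∀ μ ∈ Icc 0 kap, Bd w 13 (F.d i (X.q μ)) (C * kap)
  q_lip : ∀ i, ∀ μ ∈ Icc 0 kap, ∀ ν ∈ Icc 0 kap,
    Bd w 13 (F.d i (X.q μ) - F.d i (X.q ν)) (C * |μ - ν|)
  E_symm : ∀ i j μ, X.E i j μ = X.E j i μ
  E_bd : ∀ i j, ∀ μ ∈ Icc 0 kap, Bd w 2 (X.E i j μ) (C * F.e ^ 7)
  E_lip : ∀ i j, ∀ μ ∈ Icc 0 kap, ∀ ν ∈ Icc 0 kap,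
    Bd w 2 (X.E i j μ - X.E i j ν) (C * F.e ^ 7 / kap * |μ - ν|)
  metric : ∀ i j, ∀ μ ∈ Icc 0 kap,
    (X.A μ) ^ 2 * (((if i = 0 then 1 else 0) + F.d i (X.p μ)) *
        ((if j = 0 then 1 else 0) + F.d j (X.p μ))) +
      (X.B μ) ^ 2 * (((if i = 1 then 1 else 0) + F.d i (X.q μ)) *
        ((if j = 1 then 1 else 0) + F.d j (X.q μ))) +
      F.e ^ 2 • (F.d i (X.A μ) * F.d j (X.A μ) + F.d i (X.B μ) * F.d j (X.B μ)) =
    F.gam G i j • rho ^ 2 + (X.s μ * sig i j) • rho ^ 2 + X.E i j μ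
  s_cont : ContinuousOn X.s (Icc 0 kap)
  s_zero : c * F.e ≤ X.s 0
  s_kap : X.s kap ≤ -(c * F.e)

private theorem st1_eval {ι : Type} {w : Weight} {F : ι → Frame} {C3 : ℝ} (h3 : 0 < C3) {s : ℕ}
    {g : ι → ℝ} {φ : ι → (Fin 3 → PR) → ℝ → PR} (h : Gau (famS1 w F C3 h3) s g φ) :
    ∃ C : ℝ, 0 ≤ C ∧ ∀ i (sol : ℝ → (Fin 3 → PR)),
      (∀ μ ∈ Icc 0 ((F i).kap C3), (famS1 w F C3 h3).mem i (sol μ) μ ∧
        ∀ ν ∈ Icc 0 ((F i).kap C3), BdX w 13 (sol μ - sol ν) |μ - ν|) →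
      ∀ μ ∈ Icc 0 ((F i).kap C3), Bd w s (φ i (sol μ) μ) (C * g i * (F i).kap C3) ∧
        ∀ ν ∈ Icc 0 ((F i).kap C3),
          Bd w s (φ i (sol μ) μ - φ i (sol ν) ν) (C * g i * |μ - ν|) := by
  obtain ⟨C, hC, h⟩ := h
  refine ⟨C, hC, fun i sol hs μ hμ => ⟨(h i (sol μ) μ (hs μ hμ).1).1, fun ν hν => ?_⟩⟩
  refine (h i (sol μ) μ (hs μ hμ).1).2 (sol ν) ν |μ - ν| (hs ν hν).1 ⟨(hs μ hμ).2 ν hν, ?_⟩
  have hk : 0 < (F i).kap C3 := (famS1 w F C3 h3).kap_pos i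
  show (F i).kap C3 / (F i).kap C3 * |μ - ν| ≤ |μ - ν|
  rw [div_self hk.ne', one_mul]

private theorem st1_mean_sub (f g : PR) : mean (f - g) = mean f - mean g := by
  unfold mean
  rw [cr_sub, Complex.sub_re]

private theorem st1_kap_sq (F : Frame) {C3 : ℝ} (h3 : 0 < C3) : F.kap C3 ^ 2 = C3 * F.e :=
  Real.sq_sqrt (mul_pos h3 F.e_pos).le

private theorem st1_kap_pos (F : Frame) {C3 : ℝ} (h3 : 0 < C3) : 0 < F.kap C3 :=
  Real.sqrt_pos.mpr (mul_pos h3 F.e_pos)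

private theorem st1_kap_le (F : Frame) {C3 t : ℝ} (h3 : 0 < C3) (ht : 0 < t)
    (he : F.e ≤ t ^ 2 / C3) : F.kap C3 ≤ t := by
  refine Real.sqrt_le_iff.mpr ⟨ht.le, ?_⟩
  rw [le_div_iff₀ h3] at he
  linarith

/-- the drift estimate at both ends of the interval -/
private theorem st1_drift {F : Frame} {G : CMet} {C0 c1 : ℝ} {m : ℤ × ℤ} (hF : F.Good G C0 c1 m)
    {C3 c D : ℝ} (h3 : 0 < C3) (h3' : C0 + 1 ≤ c1 ^ 2 * C3) (hc : c ≤ c1 / 2) (hc' : c ≤ 1 / 2)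
    (hD : D * F.kap C3 ^ 3 ≤ c * F.e) {s0 sk : ℝ}
    (h0 : |s0 - (-F.gam G 0 1 - F.l 0 m * F.l 1 m * F.lsq m / 2 * 0 ^ 2)| ≤ D * F.kap C3 ^ 3)
    (hk : |sk - (-F.gam G 0 1 - F.l 0 m * F.l 1 m * F.lsq m / 2 * F.kap C3 ^ 2)| ≤
      D * F.kap C3 ^ 3) : c * F.e ≤ s0 ∧ sk ≤ -(c * F.e) := by
  have he := F.e_pos
  have hlo := hF.gam01_lo
  have hhi := hF.gam01_hi
  have hm := hF.m_lo
  have hc1 := hF.c1_pos
  have h0' := (abs_le.mp h0).1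
  have hk' := (abs_le.mp hk).2
  have hce : c * F.e ≤ c1 / 2 * F.e := mul_le_mul_of_nonneg_right hc he.le
  have hce' : c * F.e ≤ 1 / 2 * F.e := mul_le_mul_of_nonneg_right hc' he.le
  refine ⟨?_, ?_⟩
  · nlinarith
  · have hl : 2 * (F.l 0 m * F.l 1 m) ≤ F.lsq m := by
      unfold Frame.lsq
      nlinarith [sq_nonneg (F.l 0 m - F.l 1 m)]
    have h1 : c1 ^ 2 ≤ F.l 0 m * F.l 1 m * F.lsq m / 2 := by
      have h2 : c1 * (2 * c1) ≤ F.l 0 m * F.l 1 m * F.lsq m :=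
        mul_le_mul hm (by linarith) (by positivity) (by linarith)
      nlinarith
    have h4 : c1 ^ 2 * F.kap C3 ^ 2 ≤ F.l 0 m * F.l 1 m * F.lsq m / 2 * F.kap C3 ^ 2 :=
      mul_le_mul_of_nonneg_right h1 (sq_nonneg _)
    have h5 : (C0 + 1) * F.e ≤ c1 ^ 2 * F.kap C3 ^ 2 := by
      rw [st1_kap_sq F h3, ← mul_assoc]
      exact mul_le_mul_of_nonneg_right h3' he.le
    nlinarith

/-- Summary of the first contraction (`Gau_fixed` for `Theta`, `S1_drift`, `S1_Er`, algebra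
`S1.fixed_metric`); index type: all good frames. -/
theorem stage1 (G : CMet) (rho rhoi : PR) (hr : rho * rhoi = 1) (C0 c1 : ℝ) (m : ℤ × ℤ)
    (w : Weight) (hc0 : 1 ≤ C0) (hc1 : 0 < c1)
    (hrho : Nm w 14 rho ≠ ⊤) (hrhoi : Nm w 14 rhoi ≠ ⊤) :
    ∃ C3 C c e1 : ℝ, 0 < C3 ∧ 0 ≤ C ∧ 0 < c ∧ 0 < e1 ∧ ∀ F : Frame, F.Good G C0 c1 m → F.e ≤ e1 →
      ∃ X : ApproxData, IsApprox X w F G rho (F.kap C3) C c := by
  set C3 : ℝ := (C0 + 1) / c1 ^ 2 with hC3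
  have h3 : 0 < C3 := by positivity
  have h3' : C0 + 1 ≤ c1 ^ 2 * C3 := by
    rw [hC3, mul_div_cancel₀]
    exact (pow_pos hc1 2).ne'
  set ι : Type := {F : Frame // F.Good G C0 c1 m} with hι
  set FF : ι → Frame := fun i => i.1 with hFF
  have hF : ∀ i : ι, (FF i).Good G C0 c1 m := fun i => i.2
  -- the gauges
  obtain ⟨Cf, hCf0, hCf⟩ := Gau_fixed (famS1 w FF C3 h3)
    (fun i x μ => (mkS1 G rho rhoi m (FF i)).Theta x μ) (fun i => (FF i).kap C3)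
    (fun i => (st1_kap_pos (FF i) h3).le) (fun j => S1_Theta h3 hF hrho hrhoi j)
  obtain ⟨Ca, hCa0, hCa⟩ := st1_eval h3 (S1_al (rhoi := rhoi) h3 hF hrho)
  obtain ⟨Cb, hCb0, hCb⟩ := st1_eval h3 (S1_be (rhoi := rhoi) h3 hF hrho)
  choose Cp hCp0 hCp using fun j : Fin 2 =>
    st1_eval h3 (S1_dp (rho := rho) (rhoi := rhoi) (w := w) h3 hF j)
  choose Cq hCq0 hCq using fun j : Fin 2 =>
    st1_eval h3 (S1_dq (rho := rho) (rhoi := rhoi) (w := w) h3 hF j)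
  choose Ce hCe0 hCe using fun j k : Fin 2 =>
    st1_eval h3 (S1_Er (rhoi := rhoi) (w := w) h3 hF hrho j k)
  obtain ⟨Cs, hCs0, hCs⟩ := st1_eval h3 (S1_hR01 h3 hF hrho hrhoi)
  obtain ⟨Cd, hCd0, hCd⟩ := S1_drift (w := w) h3 hF hrho hrhoi hr
  -- the constants
  set c : ℝ := min (c1 / 2) (1 / 2) with hc
  have hcpos : 0 < c := lt_min (by linarith) (by norm_num)
  have hSp0 : 0 ≤ ∑ j, Cp j := Finset.sum_nonneg fun j _ => hCp0 j
  have hSq0 : 0 ≤ ∑ j, Cq j := Finset.sum_nonneg fun j _ => hCq0 j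
  have hSe0 : 0 ≤ ∑ j, ∑ k, Ce j k :=
    Finset.sum_nonneg fun j _ => Finset.sum_nonneg fun k _ => hCe0 j k
  have hSp : ∀ j, Cp j ≤ ∑ j, Cp j := fun j =>
    Finset.single_le_sum (f := Cp) (fun j _ => hCp0 j) (Finset.mem_univ j)
  have hSq : ∀ j, Cq j ≤ ∑ j, Cq j := fun j =>
    Finset.single_le_sum (f := Cq) (fun j _ => hCq0 j) (Finset.mem_univ j)
  have hSe : ∀ j k, Ce j k ≤ ∑ j, ∑ k, Ce j k := fun j k =>
    (Finset.single_le_sum (f := fun k => Ce j k) (fun k _ => hCe0 j k) (Finset.mem_univ k)).trans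
      (Finset.single_le_sum (f := fun j => ∑ k, Ce j k)
        (fun j _ => Finset.sum_nonneg fun k _ => hCe0 j k) (Finset.mem_univ j))
  set C : ℝ := Ca + Cb + ∑ j, Cp j + ∑ j, Cq j + ∑ j, ∑ k, Ce j k with hC
  have hCaC : Ca ≤ C := by linarith
  have hCbC : Cb ≤ C := by linarith
  have hCpC : ∀ j, Cp j ≤ C := fun j => by linarith [hSp j]
  have hCqC : ∀ j, Cq j ≤ C := fun j => by linarith [hSq j]
  have hCeC : ∀ j k, Ce j k ≤ C := fun j k => by linarith [hSe j k]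
  have hC0 : 0 ≤ C := hCa0.trans hCaC
  set t : ℝ := min (1 / (2 * (Cf + 1))) (c / (Cd * C3 + 1)) with ht
  have htpos : 0 < t := lt_min (by positivity) (by positivity)
  refine ⟨C3, C, c, t ^ 2 / C3, h3, hC0, hcpos, by positivity, fun F hgood hFe => ?_⟩
  have hkt : F.kap C3 ≤ t := st1_kap_le F h3 htpos hFe
  have hkpos : 0 < F.kap C3 := st1_kap_pos F h3
  have hkf : Cf * F.kap C3 ≤ 1 / 2 := by
    have h1 : F.kap C3 ≤ 1 / (2 * (Cf + 1)) := hkt.trans (min_le_left _ _)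
    rw [le_div_iff₀ (by positivity)] at h1
    nlinarith
  have hkd : Cd * F.kap C3 ^ 3 ≤ c * F.e := by
    have h1 : F.kap C3 ≤ c / (Cd * C3 + 1) := hkt.trans (min_le_right _ _)
    rw [le_div_iff₀ (by positivity)] at h1
    have h2 : F.kap C3 ^ 3 = C3 * F.e * F.kap C3 := by
      rw [← st1_kap_sq F h3]
      ring
    rw [h2]
    have h4 : Cd * C3 * F.kap C3 ≤ c := by nlinarith
    calc Cd * (C3 * F.e * F.kap C3) = Cd * C3 * F.kap C3 * F.e := by ring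
      _ ≤ c * F.e := mul_le_mul_of_nonneg_right h4 F.e_pos.le
  set i : ι := ⟨F, hgood⟩ with hi
  obtain ⟨sol, hsol⟩ := hCf i hkf
  set S : S1 := mkS1 G rho rhoi m F with hS
  have hs : ∀ μ ∈ Icc 0 ((FF i).kap C3), (famS1 w FF C3 h3).mem i (sol μ) μ ∧
      ∀ ν ∈ Icc 0 ((FF i).kap C3), BdX w 13 (sol μ - sol ν) |μ - ν| := by
    intro μ hμ
    refine ⟨(hsol μ hμ.1 hμ.2).1, fun ν hν => ?_⟩
    have h1 := (hsol μ hμ.1 hμ.2).2.2.2 ν hν.1 hν.2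
    have h2 : (famS1 w FF C3 h3).r i / (famS1 w FF C3 h3).kap i * |μ - ν| = |μ - ν| := by
      show F.kap C3 / F.kap C3 * |μ - ν| = |μ - ν|
      rw [div_self hkpos.ne', one_mul]
    rw [h2] at h1
    exact h1
  have hfix : ∀ μ ∈ Icc 0 (F.kap C3), S.Theta (sol μ) μ = sol μ := fun μ hμ =>
    (hsol μ hμ.1 hμ.2).2.1
  refine ⟨⟨fun μ => S.A (sol μ) μ, fun μ => S.B (sol μ) μ, fun μ => S.p (sol μ) μ,
    fun μ => S.q (sol μ) μ, fun μ => S.s (sol μ) μ, fun j k μ => S.Er (sol μ) μ j k⟩, ?_⟩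
  have hA : ∀ μ, S.A (sol μ) μ = rho + S.al (sol μ) μ := fun μ => rfl
  have hB : ∀ μ, S.B (sol μ) μ = rho + S.be (sol μ) μ := fun μ => rfl
  have hp : ∀ j μ, F.d j (S.p (sol μ) μ) = S.dp (sol μ) μ j := fun j μ => S.d_p (sol μ) μ j
  have hq : ∀ j μ, F.d j (S.q (sol μ) μ) = S.dq (sol μ) μ j := fun j μ => S.d_q (sol μ) μ j
  refine
    { A_bd := fun μ hμ => ?_
      A_lip := fun μ hμ ν hν => ?_
      B_bd := fun μ hμ => ?_
      B_lip := fun μ hμ ν hν => ?_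
      p_bd := fun j μ hμ => ?_
      p_lip := fun j μ hμ ν hν => ?_
      q_bd := fun j μ hμ => ?_
      q_lip := fun j μ hμ ν hν => ?_
      E_symm := fun j k μ => ?_
      E_bd := fun j k μ hμ => ?_
      E_lip := fun j k μ hμ ν hν => ?_
      metric := fun j k μ hμ => ?_
      s_cont := ?_
      s_zero := ?_
      s_kap := ?_ }
  · show Bd w 13 (S.A (sol μ) μ - rho) (C * F.kap C3)
    rw [hA, add_sub_cancel_left]
    refine (hCa i sol hs μ hμ).1.mono ?_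
    rw [mul_one]
    exact mul_le_mul_of_nonneg_right hCaC hkpos.le
  · show Bd w 13 (S.A (sol μ) μ - S.A (sol ν) ν) (C * |μ - ν|)
    rw [hA, hA, add_sub_add_left_eq_sub]
    refine ((hCa i sol hs μ hμ).2 ν hν).mono ?_
    rw [mul_one]
    exact mul_le_mul_of_nonneg_right hCaC (abs_nonneg _)
  · show Bd w 13 (S.B (sol μ) μ - rho) (C * F.kap C3)
    rw [hB, add_sub_cancel_left]
    refine (hCb i sol hs μ hμ).1.mono ?_
    rw [mul_one]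
    exact mul_le_mul_of_nonneg_right hCbC hkpos.le
  · show Bd w 13 (S.B (sol μ) μ - S.B (sol ν) ν) (C * |μ - ν|)
    rw [hB, hB, add_sub_add_left_eq_sub]
    refine ((hCb i sol hs μ hμ).2 ν hν).mono ?_
    rw [mul_one]
    exact mul_le_mul_of_nonneg_right hCbC (abs_nonneg _)
  · show Bd w 13 (F.d j (S.p (sol μ) μ)) (C * F.kap C3)
    rw [hp]
    refine (hCp j i sol hs μ hμ).1.mono ?_
    rw [mul_one]
    exact mul_le_mul_of_nonneg_right (hCpC j) hkpos.le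
  · show Bd w 13 (F.d j (S.p (sol μ) μ) - F.d j (S.p (sol ν) ν)) (C * |μ - ν|)
    rw [hp, hp]
    refine ((hCp j i sol hs μ hμ).2 ν hν).mono ?_
    rw [mul_one]
    exact mul_le_mul_of_nonneg_right (hCpC j) (abs_nonneg _)
  · show Bd w 13 (F.d j (S.q (sol μ) μ)) (C * F.kap C3)
    rw [hq]
    refine (hCq j i sol hs μ hμ).1.mono ?_
    rw [mul_one]
    exact mul_le_mul_of_nonneg_right (hCqC j) hkpos.le
  · show Bd w 13 (F.d j (S.q (sol μ) μ) - F.d j (S.q (sol ν) ν)) (C * |μ - ν|)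
    rw [hq, hq]
    refine ((hCq j i sol hs μ hμ).2 ν hν).mono ?_
    rw [mul_one]
    exact mul_le_mul_of_nonneg_right (hCqC j) (abs_nonneg _)
  · show S.Er (sol μ) μ j k = S.Er (sol μ) μ k j
    unfold S1.Er
    rw [mul_comm (S.F.d j (S.A (sol μ) μ)), mul_comm (S.F.d j (S.B (sol μ) μ)),
      mul_comm (S.eA (sol μ) μ j), mul_comm (S.eB (sol μ) μ j)]
  · show Bd w 2 (S.Er (sol μ) μ j k) (C * F.e ^ 7)
    refine (hCe j k i sol hs μ hμ).1.mono ?_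
    have h1 : Ce j k * (F.e ^ 7 / F.kap C3) * F.kap C3 = Ce j k * F.e ^ 7 := by
      rw [mul_assoc, div_mul_cancel₀ _ hkpos.ne']
    show Ce j k * (F.e ^ 7 / F.kap C3) * F.kap C3 ≤ C * F.e ^ 7
    rw [h1]
    exact mul_le_mul_of_nonneg_right (hCeC j k) (pow_nonneg F.e_pos.le _)
  · show Bd w 2 (S.Er (sol μ) μ j k - S.Er (sol ν) ν j k) (C * F.e ^ 7 / F.kap C3 * |μ - ν|)
    refine ((hCe j k i sol hs μ hμ).2 ν hν).mono ?_
    show Ce j k * (F.e ^ 7 / F.kap C3) * |μ - ν| ≤ C * F.e ^ 7 / F.kap C3 * |μ - ν|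
    refine mul_le_mul_of_nonneg_right ?_ (abs_nonneg _)
    rw [mul_div_assoc]
    exact mul_le_mul_of_nonneg_right (hCeC j k)
      (div_nonneg (pow_nonneg F.e_pos.le _) hkpos.le)
  · have h1 := S.fixed_metric (sol μ) μ hr (hfix μ hμ) j k
    have h2 : S.phi (sol μ) μ j = (if j = 0 then 1 else 0) + F.d j (S.p (sol μ) μ) := rfl
    have h3 : S.phi (sol μ) μ k = (if k = 0 then 1 else 0) + F.d k (S.p (sol μ) μ) := rfl
    have h4 : S.psi (sol μ) μ j = (if j = 1 then 1 else 0) + F.d j (S.q (sol μ) μ) := rfl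
    have h5 : S.psi (sol μ) μ k = (if k = 1 then 1 else 0) + F.d k (S.q (sol μ) μ) := rfl
    rw [h2, h3, h4, h5] at h1
    show (S.A (sol μ) μ) ^ 2 * (((if j = 0 then 1 else 0) + F.d j (S.p (sol μ) μ)) *
        ((if k = 0 then 1 else 0) + F.d k (S.p (sol μ) μ))) +
      (S.B (sol μ) μ) ^ 2 * (((if j = 1 then 1 else 0) + F.d j (S.q (sol μ) μ)) *
        ((if k = 1 then 1 else 0) + F.d k (S.q (sol μ) μ))) +
      F.e ^ 2 • (F.d j (S.A (sol μ) μ) * F.d k (S.A (sol μ) μ) +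
        F.d j (S.B (sol μ) μ) * F.d k (S.B (sol μ) μ)) =
      F.gam G j k • rho ^ 2 + (S.s (sol μ) μ * sig j k) • rho ^ 2 + S.Er (sol μ) μ j k
    have h6 : S.Er (sol μ) μ j k = F.e ^ 2 • (F.d j (S.A (sol μ) μ) * F.d k (S.A (sol μ) μ) +
        F.d j (S.B (sol μ) μ) * F.d k (S.B (sol μ) μ))
        - (S.eA (sol μ) μ j * S.eA (sol μ) μ k + S.eB (sol μ) μ j * S.eB (sol μ) μ k) := rfl
    rw [h6]
    have h7 : F.gam G j k • rho ^ 2 + (S.s (sol μ) μ * sig j k) • rho ^ 2 = _ := h1.symm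
    rw [h7]
    ring
  · have hlip : ∀ μ ∈ Icc 0 (F.kap C3), ∀ ν ∈ Icc 0 (F.kap C3),
        |S.s (sol μ) μ - S.s (sol ν) ν| ≤ Cs * F.kap C3 * |μ - ν| := by
      intro μ hμ ν hν
      have h1 := ((hCs i sol hs μ hμ).2 ν hν).mean
      rw [st1_mean_sub] at h1
      exact h1
    have hK : LipschitzOnWith (Real.toNNReal (Cs * F.kap C3)) (fun μ => S.s (sol μ) μ)
        (Icc 0 (F.kap C3)) := by
      refine LipschitzOnWith.of_dist_le_mul fun μ hμ ν hν => ?_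
      rw [Real.dist_eq, Real.dist_eq, Real.coe_toNNReal _ (mul_nonneg hCs0 hkpos.le)]
      exact hlip μ hμ ν hν
    exact hK.continuousOn
  · have h0 : (0 : ℝ) ∈ Icc 0 (F.kap C3) := ⟨le_rfl, hkpos.le⟩
    have hk : F.kap C3 ∈ Icc 0 (F.kap C3) := ⟨hkpos.le, le_rfl⟩
    exact (st1_drift hgood h3 h3' (min_le_left _ _) (min_le_right _ _) hkd
      (hCd i (sol 0) 0 (hs 0 h0).1 (hfix 0 h0))
      (hCd i (sol (F.kap C3)) (F.kap C3) (hs _ hk).1 (hfix _ hk))).1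
  · have h0 : (0 : ℝ) ∈ Icc 0 (F.kap C3) := ⟨le_rfl, hkpos.le⟩
    have hk : F.kap C3 ∈ Icc 0 (F.kap C3) := ⟨hkpos.le, le_rfl⟩
    exact (st1_drift hgood h3 h3' (min_le_left _ _) (min_le_right _ _) hkd
      (hCd i (sol 0) 0 (hs 0 h0).1 (hfix 0 h0))
      (hCd i (sol (F.kap C3)) (F.kap C3) (hs _ hk).1 (hfix _ hk))).2

end P205T
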