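import Mathlib

/-!
# P205T: the ring of smooth periodic functions on the plane

`PC` is the complex algebra of smooth `ℤ²`-periodic functions `ℝ × ℝ → ℂ`, `PR` the real algebra of
smooth `ℤ²`-periodic functions `ℝ × ℝ → ℝ`.
-/

open scoped ContDiff ENNReal
open Complex Set

namespace P205T

/-- the lattice point of an integer pair -/
def lat (n : ℤ × ℤ) : ℝ × ℝ := ((n.1 : ℝ), (n.2 : ℝ))

/-- `ℤ²`-periodic functions -/
def IsPer {β : Type*} (f : ℝ × ℝ → β) : Prop := ∀ (x : ℝ × ℝ) (n : ℤ × ℤ), f (x + lat n) = f x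

/-- the complex algebra of smooth periodic complex functions -/
def PC : Subalgebra ℂ (ℝ × ℝ → ℂ) where
  carrier := {f | ContDiff ℝ ∞ f ∧ IsPer f}
  mul_mem' := by
    rintro f g ⟨hf, hf'⟩ ⟨hg, hg'⟩
    exact ⟨hf.mul hg, fun x n => by simp only [Pi.mul_apply, hf' x n, hg' x n]⟩
  add_mem' := by
    rintro f g ⟨hf, hf'⟩ ⟨hg, hg'⟩
    exact ⟨hf.add hg, fun x n => by simp only [Pi.add_apply, hf' x n, hg' x n]⟩
  algebraMap_mem' := by
    intro r
    exact ⟨contDiff_const, fun x n => rfl⟩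

/-- the real algebra of smooth periodic real functions -/
def PR : Subalgebra ℝ (ℝ × ℝ → ℝ) where
  carrier := {f | ContDiff ℝ ∞ f ∧ IsPer f}
  mul_mem' := by
    rintro f g ⟨hf, hf'⟩ ⟨hg, hg'⟩
    exact ⟨hf.mul hg, fun x n => by simp only [Pi.mul_apply, hf' x n, hg' x n]⟩
  add_mem' := by
    rintro f g ⟨hf, hf'⟩ ⟨hg, hg'⟩
    exact ⟨hf.add hg, fun x n => by simp only [Pi.add_apply, hf' x n, hg' x n]⟩
  algebraMap_mem' := by
    intro r
    exact ⟨contDiff_const, fun x n => rfl⟩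

instance : CoeFun PC (fun _ => ℝ × ℝ → ℂ) := ⟨fun f => f.1⟩
instance : CoeFun PR (fun _ => ℝ × ℝ → ℝ) := ⟨fun f => f.1⟩

theorem PC.smooth (f : PC) : ContDiff ℝ ∞ (f : ℝ × ℝ → ℂ) := f.2.1
theorem PC.per (f : PC) : IsPer (f : ℝ × ℝ → ℂ) := f.2.2
theorem PR.smooth (f : PR) : ContDiff ℝ ∞ (f : ℝ × ℝ → ℝ) := f.2.1
theorem PR.per (f : PR) : IsPer (f : ℝ × ℝ → ℝ) := f.2.2

@[ext] theorem PC.ext {f g : PC} (h : ∀ x, f x = g x) : f = g := Subtype.ext (funext h)
@[ext] theorem PR.ext {f g : PR} (h : ∀ x, f x = g x) : f = g := Subtype.ext (funext h)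

@[simp] theorem PC.add_apply (f g : PC) (x : ℝ × ℝ) : (f + g) x = f x + g x := rfl
@[simp] theorem PC.sub_apply (f g : PC) (x : ℝ × ℝ) : (f - g) x = f x - g x := rfl
@[simp] theorem PC.mul_apply (f g : PC) (x : ℝ × ℝ) : (f * g) x = f x * g x := rfl
@[simp] theorem PC.neg_apply (f : PC) (x : ℝ × ℝ) : (-f) x = -f x := rfl
@[simp] theorem PC.smul_apply (r : ℂ) (f : PC) (x : ℝ × ℝ) : (r • f) x = r * f x := rfl
@[simp] theorem PC.one_apply (x : ℝ × ℝ) : (1 : PC) x = 1 := rfl
@[simp] theorem PC.zero_apply (x : ℝ × ℝ) : (0 : PC) x = 0 := rfl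
@[simp] theorem PR.add_apply (f g : PR) (x : ℝ × ℝ) : (f + g) x = f x + g x := rfl
@[simp] theorem PR.sub_apply (f g : PR) (x : ℝ × ℝ) : (f - g) x = f x - g x := rfl
@[simp] theorem PR.mul_apply (f g : PR) (x : ℝ × ℝ) : (f * g) x = f x * g x := rfl
@[simp] theorem PR.neg_apply (f : PR) (x : ℝ × ℝ) : (-f) x = -f x := rfl
@[simp] theorem PR.smul_apply (r : ℝ) (f : PR) (x : ℝ × ℝ) : (r • f) x = r * f x := rfl
@[simp] theorem PR.one_apply (x : ℝ × ℝ) : (1 : PR) x = 1 := rfl
@[simp] theorem PR.zero_apply (x : ℝ × ℝ) : (0 : PR) x = 0 := rfl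

/-- the directional derivative of a periodic function is periodic -/
theorem isPer_fderiv {F : Type*} [NormedAddCommGroup F] [NormedSpace ℝ F] {f : ℝ × ℝ → F}
    (h : IsPer f) : IsPer (fderiv ℝ f) := by
  intro x n
  have : f = fun y => f (y + lat n) := by funext y; exact (h y n).symm
  conv_rhs => rw [this]
  rw [fderiv_comp_add_right]

/-- directional derivative on `PR` -/
noncomputable def dv (a : ℝ × ℝ) : PR →ₗ[ℝ] PR where
  toFun f := ⟨fun x => fderiv ℝ f x a,
    ((PR.smooth f).fderiv_right (m := ∞) (by norm_cast)).clm_apply contDiff_const,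
    fun x n => by simp only [isPer_fderiv (PR.per f) x n]⟩
  map_add' f g := by
    ext x
    have := fderiv_add ((PR.smooth f).differentiable (by simp) x) ((PR.smooth g).differentiable (by simp) x)
    show fderiv ℝ (fun y => f y + g y) x a = fderiv ℝ f x a + fderiv ℝ g x a
    rw [show (fun y => f y + g y) = (f : ℝ × ℝ → ℝ) + g from rfl, this]; rfl
  map_smul' r f := by
    ext x
    have := fderiv_const_smul ((PR.smooth f).differentiable (by simp) x) r
    show fderiv ℝ (fun y => r * f y) x a = r * fderiv ℝ f x a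
    rw [show (fun y => r * f y) = r • (f : ℝ × ℝ → ℝ) from rfl, this]; rfl

/-- directional derivative on `PC` -/
noncomputable def dvC (a : ℝ × ℝ) : PC →ₗ[ℂ] PC where
  toFun f := ⟨fun x => fderiv ℝ f x a,
    ((PC.smooth f).fderiv_right (m := ∞) (by norm_cast)).clm_apply contDiff_const,
    fun x n => by simp only [isPer_fderiv (PC.per f) x n]⟩
  map_add' f g := by
    ext x
    have := fderiv_add ((PC.smooth f).differentiable (by simp) x) ((PC.smooth g).differentiable (by simp) x)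
    show fderiv ℝ (fun y => f y + g y) x a = fderiv ℝ f x a + fderiv ℝ g x a
    rw [show (fun y => f y + g y) = (f : ℝ × ℝ → ℂ) + g from rfl, this]; rfl
  map_smul' r f := by
    ext x
    have := fderiv_const_smul ((PC.smooth f).differentiable (by simp) x) r
    show fderiv ℝ (fun y => r * f y) x a = r * fderiv ℝ f x a
    rw [show (fun y => r * f y) = r • (f : ℝ × ℝ → ℂ) from rfl, this]; rfl

theorem dv_apply (a : ℝ × ℝ) (f : PR) (x : ℝ × ℝ) : dv a f x = fderiv ℝ f x a := rfl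
theorem dvC_apply (a : ℝ × ℝ) (f : PC) (x : ℝ × ℝ) : dvC a f x = fderiv ℝ f x a := rfl

theorem dv_mul (a : ℝ × ℝ) (f g : PR) : dv a (f * g) = dv a f * g + f * dv a g := by
  ext x
  have := fderiv_mul ((PR.smooth f).differentiable (by simp) x) ((PR.smooth g).differentiable (by simp) x)
  show fderiv ℝ (fun y => f y * g y) x a = fderiv ℝ f x a * g x + f x * fderiv ℝ g x a
  rw [show (fun y => f y * g y) = (f : ℝ × ℝ → ℝ) * g from rfl, this]
  simp only [add_apply, smul_apply, smul_eq_mul]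
  ring

theorem dvC_mul (a : ℝ × ℝ) (f g : PC) : dvC a (f * g) = dvC a f * g + f * dvC a g := by
  ext x
  have := fderiv_mul ((PC.smooth f).differentiable (by simp) x) ((PC.smooth g).differentiable (by simp) x)
  show fderiv ℝ (fun y => f y * g y) x a = fderiv ℝ f x a * g x + f x * fderiv ℝ g x a
  rw [show (fun y => f y * g y) = (f : ℝ × ℝ → ℂ) * g from rfl, this]
  simp only [add_apply, smul_apply, smul_eq_mul]
  ring

theorem fderiv_dir {F : Type*} [NormedAddCommGroup F] [NormedSpace ℝ F] {f : ℝ × ℝ → F}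
    (hf : ContDiff ℝ ∞ f) (x a b : ℝ × ℝ) :
    fderiv ℝ (fun y => fderiv ℝ f y b) x a = fderiv ℝ (fderiv ℝ f) x a b := by
  have h1 : DifferentiableAt ℝ (fderiv ℝ f) x :=
    (hf.fderiv_right (m := ∞) (by norm_cast)).differentiable (by simp) x
  rw [fderiv_clm_apply h1 (differentiableAt_const b)]
  simp

theorem fderiv_symm {F : Type*} [NormedAddCommGroup F] [NormedSpace ℝ F] {f : ℝ × ℝ → F}
    (hf : ContDiff ℝ ∞ f) (x a b : ℝ × ℝ) :
    fderiv ℝ (fderiv ℝ f) x a b = fderiv ℝ (fderiv ℝ f) x b a :=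
  (hf.contDiffAt.isSymmSndFDerivAt (by simp; exact ENat.LEInfty.out)) a b

/-- second derivatives commute -/
theorem dv_comm (a b : ℝ × ℝ) (f : PR) : dv a (dv b f) = dv b (dv a f) := by
  ext x
  show fderiv ℝ (fun y => fderiv ℝ f y b) x a = fderiv ℝ (fun y => fderiv ℝ f y a) x b
  rw [fderiv_dir (PR.smooth f), fderiv_dir (PR.smooth f), fderiv_symm (PR.smooth f)]

theorem dvC_comm (a b : ℝ × ℝ) (f : PC) : dvC a (dvC b f) = dvC b (dvC a f) := by
  ext x
  show fderiv ℝ (fun y => fderiv ℝ f y b) x a = fderiv ℝ (fun y => fderiv ℝ f y a) x b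
  rw [fderiv_dir (PC.smooth f), fderiv_dir (PC.smooth f), fderiv_symm (PC.smooth f)]

/-- linearity in the direction -/
theorem dv_add_dir (a b : ℝ × ℝ) (f : PR) : dv (a + b) f = dv a f + dv b f := by
  ext x; simp [dv_apply]

theorem dv_smul_dir (r : ℝ) (a : ℝ × ℝ) (f : PR) : dv (r • a) f = r • dv a f := by
  ext x; simp [dv_apply]

theorem dv_one (a : ℝ × ℝ) : dv a 1 = 0 := by
  ext x
  show fderiv ℝ (fun _ : ℝ × ℝ => (1 : ℝ)) x a = 0
  simp

/-- real functions are complex functions -/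
noncomputable def toC : PR →+* PC where
  toFun f := ⟨fun x => (f x : ℂ), Complex.ofRealCLM.contDiff.comp (PR.smooth f),
    fun x n => by simp only [(PR.per f) x n]⟩
  map_one' := by ext x; simp
  map_mul' f g := by ext x; simp
  map_zero' := by ext x; simp
  map_add' f g := by ext x; simp

@[simp] theorem toC_apply (f : PR) (x : ℝ × ℝ) : toC f x = (f x : ℂ) := rfl

/-- real part -/
noncomputable def reC (f : PC) : PR :=
  ⟨fun x => (f x).re, Complex.reCLM.contDiff.comp (PC.smooth f), fun x n => by simp only [(PC.per f) x n]⟩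

@[simp] theorem reC_apply (f : PC) (x : ℝ × ℝ) : reC f x = (f x).re := rfl

theorem toC_injective : Function.Injective toC := by
  intro f g h
  ext x
  have := congrArg (fun u : PC => u x) h
  simpa using this

/-- the exponentials -/
noncomputable def ev (n : ℤ × ℤ) : PC :=
  ⟨fun x => exp (2 * Real.pi * I * (n.1 * x.1 + n.2 * x.2)), by
    refine Complex.contDiff_exp.comp ?_
    refine contDiff_const.mul ((contDiff_const.mul (Complex.ofRealCLM.contDiff.comp contDiff_fst)).add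
      (contDiff_const.mul (Complex.ofRealCLM.contDiff.comp contDiff_snd))), by
    intro x m
    simp only [lat, Prod.fst_add, Prod.snd_add, Complex.ofReal_add]
    rw [Complex.exp_eq_exp_iff_exists_int]
    exact ⟨n.1 * m.1 + n.2 * m.2, by push_cast; ring⟩⟩

theorem ev_apply (n : ℤ × ℤ) (x : ℝ × ℝ) :
    ev n x = exp (2 * Real.pi * I * (n.1 * x.1 + n.2 * x.2)) := rfl

theorem ev_mul (m n : ℤ × ℤ) : ev m * ev n = ev (m + n) := by
  ext x
  simp only [PC.mul_apply, ev_apply, ← Complex.exp_add, Prod.fst_add, Prod.snd_add]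
  congr 1; push_cast; ring

theorem ev_zero : ev 0 = 1 := by
  ext x; simp [ev_apply]

/-- Fourier coefficients -/
noncomputable def cf (f : PC) (n : ℤ × ℤ) : ℂ :=
  ∫ x in (0 : ℝ)..1, ∫ y in (0 : ℝ)..1, f (x, y) * ev (-n) (x, y)

/-- Fourier coefficients of real functions -/
noncomputable def cr (f : PR) (n : ℤ × ℤ) : ℂ := cf (toC f) n

/-- the mean value -/
noncomputable def mean (f : PR) : ℝ := (cr f 0).re

/-- the size of an integer pair -/
def nn (n : ℤ × ℤ) : ℝ := |(n.1 : ℝ)| + |(n.2 : ℝ)|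

/-- the pairing of an integer pair with a real vector -/
def dotZ (n : ℤ × ℤ) (a : ℝ × ℝ) : ℝ := n.1 * a.1 + n.2 * a.2

/-- Symbols of complex Fourier multipliers: polynomial growth. -/
def IsSymC (m : ℤ × ℤ → ℂ) : Prop := ∃ (C : ℝ) (k : ℕ), ∀ n, ‖m n‖ ≤ C * (1 + nn n) ^ k

/-- Symbols of real Fourier multipliers: polynomial growth and conjugation symmetry. -/
def IsSym (m : ℤ × ℤ → ℂ) : Prop := IsSymC m ∧ ∀ n, m (-n) = starRingEnd ℂ (m n)

/-- Submultiplicative weights of superpolynomial growth. -/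
structure Weight where
  w : ℤ × ℤ → ℝ
  one_le : ∀ n, 1 ≤ w n
  zero : w 0 = 1
  neg : ∀ n, w (-n) = w n
  submul : ∀ m n, w (m + n) ≤ w m * w n
  super : ∀ s : ℕ, ∃ C : ℝ, ∀ n, (1 + nn n) ^ s ≤ C * w n

/-- the weighted Wiener norms -/
noncomputable def Nm (w : Weight) (s : ℕ) (f : PR) : ℝ≥0∞ :=
  ∑' n, ENNReal.ofReal (w.w n * (1 + nn n) ^ s * ‖cr f n‖)

/-- `Bd w s f B`: the `s`-norm of `f` is at most the nonnegative number `B`. -/
def Bd (w : Weight) (s : ℕ) (f : PR) (B : ℝ) : Prop := 0 ≤ B ∧ Nm w s f ≤ ENNReal.ofReal B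

/-- the constant function -/
noncomputable def cst (r : ℝ) : PR := algebraMap ℝ PR r

theorem cst_apply (r : ℝ) (x : ℝ × ℝ) : cst r x = r := rfl

theorem nn_nonneg (n : ℤ × ℤ) : 0 ≤ nn n := by unfold nn; positivity

theorem nn_zero : nn 0 = 0 := by simp [nn]

theorem nn_neg (n : ℤ × ℤ) : nn (-n) = nn n := by simp [nn]

theorem nn_add (m n : ℤ × ℤ) : nn (m + n) ≤ nn m + nn n := by
  simp only [nn, Prod.fst_add, Prod.snd_add, Int.cast_add]
  have h1 := abs_add_le (m.1 : ℝ) (n.1 : ℝ)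
  have h2 := abs_add_le (m.2 : ℝ) (n.2 : ℝ)
  linarith

end P205T
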