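import Vale.Agent.Lib.P205T.Defs

/-! # P205T module FA: basic properties of the Fourier coefficients -/

open scoped ContDiff ENNReal
open Complex Set

namespace P205T

/-- the integrand is continuous -/
private theorem cf_cont (f : PC) (n : ℤ × ℤ) :
    Continuous (Function.uncurry fun x y : ℝ => f (x, y) * ev n (x, y)) := by
  have h1 : Continuous (f : ℝ × ℝ → ℂ) := (PC.smooth f).continuous
  have h2 : Continuous (ev n : ℝ × ℝ → ℂ) := (PC.smooth (ev n)).continuous
  exact h1.mul h2

private theorem cf_int_inner (f : PC) (n : ℤ × ℤ) (x : ℝ) :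
    IntervalIntegrable (fun y : ℝ => f (x, y) * ev n (x, y)) MeasureTheory.volume 0 1 := by
  have h : Continuous fun y : ℝ => f (x, y) * ev n (x, y) :=
    (cf_cont f n).comp (continuous_const.prodMk continuous_id)
  exact h.intervalIntegrable 0 1

private theorem cf_int_outer (f : PC) (n : ℤ × ℤ) :
    IntervalIntegrable (fun x : ℝ => ∫ y in (0 : ℝ)..1, f (x, y) * ev n (x, y))
      MeasureTheory.volume 0 1 :=
  (intervalIntegral.continuous_parametric_intervalIntegral_of_continuous' (cf_cont f n)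
    0 1).intervalIntegrable 0 1

theorem cf_add (f g : PC) (n : ℤ × ℤ) : cf (f + g) n = cf f n + cf g n := by
  unfold cf
  rw [← intervalIntegral.integral_add (cf_int_outer f (-n)) (cf_int_outer g (-n))]
  congr 1
  funext x
  rw [← intervalIntegral.integral_add (cf_int_inner f (-n) x) (cf_int_inner g (-n) x)]
  congr 1
  funext y
  rw [PC.add_apply, add_mul]

theorem cf_smul (r : ℂ) (f : PC) (n : ℤ × ℤ) : cf (r • f) n = r * cf f n := by
  unfold cf
  rw [← intervalIntegral.integral_const_mul]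
  congr 1
  funext x
  rw [← intervalIntegral.integral_const_mul]
  congr 1
  funext y
  rw [PC.smul_apply, mul_assoc]

theorem cf_sub (f g : PC) (n : ℤ × ℤ) : cf (f - g) n = cf f n - cf g n := by
  have h : f - g = f + (-1 : ℂ) • g := by
    ext x
    simp [sub_eq_add_neg]
  rw [h, cf_add, cf_smul]
  ring

private theorem norm_ev (n : ℤ × ℤ) (x : ℝ × ℝ) : ‖ev n x‖ = 1 := by
  rw [ev_apply, Complex.norm_exp]
  have : (2 * (Real.pi : ℂ) * I * ((n.1 : ℂ) * (x.1 : ℂ) + (n.2 : ℂ) * (x.2 : ℂ))).re = 0 := by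
    have e : (2 * (Real.pi : ℂ) * I * ((n.1 : ℂ) * (x.1 : ℂ) + (n.2 : ℂ) * (x.2 : ℂ)))
        = ((2 * Real.pi * ((n.1 : ℝ) * x.1 + (n.2 : ℝ) * x.2) : ℝ) : ℂ) * I := by
      push_cast
      ring
    rw [e, Complex.re_ofReal_mul]
    simp
  rw [this, Real.exp_zero]

theorem cf_norm_le (f : PC) {B : ℝ} (h : ∀ x, ‖f x‖ ≤ B) (n : ℤ × ℤ) : ‖cf f n‖ ≤ B := by
  unfold cf
  have h2 : ∀ x ∈ Set.uIoc (0 : ℝ) 1, ‖∫ y in (0 : ℝ)..1, f (x, y) * ev (-n) (x, y)‖ ≤ B := by
    intro x _
    have := intervalIntegral.norm_integral_le_of_norm_le_const (a := (0 : ℝ)) (b := 1) (C := B)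
      (f := fun y : ℝ => f (x, y) * ev (-n) (x, y)) (fun y _ => by
        rw [norm_mul, norm_ev, mul_one]
        exact h _)
    simpa using this
  have := intervalIntegral.norm_integral_le_of_norm_le_const (a := (0 : ℝ)) (b := 1) (C := B)
    (f := fun x : ℝ => ∫ y in (0 : ℝ)..1, f (x, y) * ev (-n) (x, y)) h2
  simpa using this

private theorem int_exp (k : ℤ) :
    ∫ x in (0 : ℝ)..1, exp (2 * Real.pi * I * (k * x)) = if k = 0 then 1 else 0 := by
  split_ifs with h
  · subst h
    simp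
  · have hc : (2 * Real.pi * I * k : ℂ) ≠ 0 := by
      have h1 : (Real.pi : ℂ) ≠ 0 := by exact_mod_cast Real.pi_ne_zero
      have h2 : (k : ℂ) ≠ 0 := by exact_mod_cast h
      simp [h1, h2]
    have e : (fun x : ℝ => exp (2 * Real.pi * I * (k * x)))
        = fun x : ℝ => exp ((2 * Real.pi * I * k) * x) := by
      funext x
      congr 1
      ring
    rw [e, integral_exp_mul_complex hc]
    have e1 : exp (2 * Real.pi * I * k * ((1 : ℝ) : ℂ)) = 1 := by
      rw [Complex.exp_eq_one_iff]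
      exact ⟨k, by push_cast; ring⟩
    rw [e1]
    simp

theorem cf_ev (m n : ℤ × ℤ) : cf (ev m) n = if m = n then 1 else 0 := by
  unfold cf
  have e : ∀ x y : ℝ, ev m (x, y) * ev (-n) (x, y)
      = exp (2 * Real.pi * I * ((m.1 - n.1 : ℤ) * x))
        * exp (2 * Real.pi * I * ((m.2 - n.2 : ℤ) * y)) := by
    intro x y
    rw [ev_apply, ev_apply, ← Complex.exp_add, ← Complex.exp_add]
    congr 1
    simp only [Prod.fst_neg, Prod.snd_neg]
    push_cast
    ring
  simp only [e]
  have e2 : ∀ x : ℝ, (∫ y in (0 : ℝ)..1, exp (2 * Real.pi * I * ((m.1 - n.1 : ℤ) * x))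
        * exp (2 * Real.pi * I * ((m.2 - n.2 : ℤ) * y)))
      = exp (2 * Real.pi * I * ((m.1 - n.1 : ℤ) * x)) * (if m.2 - n.2 = 0 then 1 else 0) := by
    intro x
    rw [intervalIntegral.integral_const_mul, int_exp]
  simp only [e2]
  rw [intervalIntegral.integral_mul_const, int_exp]
  by_cases h1 : m.1 = n.1
  · by_cases h2 : m.2 = n.2
    · have : m = n := Prod.ext h1 h2
      simp [this]
    · have : m ≠ n := fun h => h2 (by rw [h])
      simp [this, sub_eq_zero, h2]
  · have : m ≠ n := fun h => h1 (by rw [h])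
    simp [this, sub_eq_zero, h1]

theorem cf_ev_mul (f : PC) (m n : ℤ × ℤ) : cf (ev m * f) n = cf f (n - m) := by
  unfold cf
  congr 1
  funext x
  congr 1
  funext y
  have e : ev m * ev (-n) = ev (-(n - m)) := by
    rw [ev_mul]
    congr 1
    abel
  rw [← e, PC.mul_apply, PC.mul_apply]
  ring

end P205T
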