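import Vale.Agent.Lib.P205T.FA
import Vale.Agent.Lib.P205T.FA2

/-! # P205T module FB: Fourier coefficients of derivatives -/

open scoped ContDiff ENNReal
open Complex Set

namespace P205T

/-- derivative of the exponentials -/
private theorem FB_dvC_ev (a : ℝ × ℝ) (m : ℤ × ℤ) (x : ℝ × ℝ) :
    dvC a (ev m) x = 2 * Real.pi * I * (dotZ m a : ℂ) * ev m x := by
  have h1 : HasFDerivAt (fun y : ℝ × ℝ => ((y.1 : ℝ) : ℂ))
      (Complex.ofRealCLM.comp (ContinuousLinearMap.fst ℝ ℝ ℝ)) x :=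
    (Complex.ofRealCLM.comp (ContinuousLinearMap.fst ℝ ℝ ℝ)).hasFDerivAt
  have h2 : HasFDerivAt (fun y : ℝ × ℝ => ((y.2 : ℝ) : ℂ))
      (Complex.ofRealCLM.comp (ContinuousLinearMap.snd ℝ ℝ ℝ)) x :=
    (Complex.ofRealCLM.comp (ContinuousLinearMap.snd ℝ ℝ ℝ)).hasFDerivAt
  have h3 : HasFDerivAt (fun y : ℝ × ℝ => exp (2 * Real.pi * I * (m.1 * y.1 + m.2 * y.2)))
      (exp (2 * Real.pi * I * (m.1 * x.1 + m.2 * x.2)) • ((2 * Real.pi * I : ℂ) •
        ((m.1 : ℂ) • Complex.ofRealCLM.comp (ContinuousLinearMap.fst ℝ ℝ ℝ) +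
          (m.2 : ℂ) • Complex.ofRealCLM.comp (ContinuousLinearMap.snd ℝ ℝ ℝ)))) x :=
    (((h1.const_mul (m.1 : ℂ)).add (h2.const_mul (m.2 : ℂ))).const_mul
      (2 * Real.pi * I)).cexp
  have h4 : dvC a (ev m) x = fderiv ℝ (fun y : ℝ × ℝ =>
      exp (2 * Real.pi * I * (m.1 * y.1 + m.2 * y.2))) x a := rfl
  rw [h4, h3.fderiv, ev_apply]
  simp only [smul_apply, add_apply, ContinuousLinearMap.comp_apply,
    ContinuousLinearMap.coe_fst', ContinuousLinearMap.coe_snd', Complex.ofRealCLM_apply,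
    smul_eq_mul, dotZ]
  push_cast
  ring

/-- the integral of a directional derivative of a periodic function vanishes -/
private theorem FB_int (a : ℝ × ℝ) (g : PC) :
    ∫ x in (0 : ℝ)..1, ∫ y in (0 : ℝ)..1, dvC a g (x, y) = 0 := by
  have hd : ∀ z : ℝ × ℝ, HasFDerivAt (g : ℝ × ℝ → ℂ) (fderiv ℝ g z) z := fun z =>
    ((PC.smooth g).differentiable (by simp) z).hasFDerivAt
  have hc : Continuous (fderiv ℝ (g : ℝ × ℝ → ℂ)) :=
    (PC.smooth g).continuous_fderiv (by simp)
  have hcx : Continuous (fun z : ℝ × ℝ => fderiv ℝ (g : ℝ × ℝ → ℂ) z (1, 0)) :=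
    hc.clm_apply continuous_const
  have hcy : Continuous (fun z : ℝ × ℝ => fderiv ℝ (g : ℝ × ℝ → ℂ) z (0, 1)) :=
    hc.clm_apply continuous_const
  have hsplit : ∀ z : ℝ × ℝ, dvC a g z = (a.1 : ℂ) * fderiv ℝ (g : ℝ × ℝ → ℂ) z (1, 0)
      + (a.2 : ℂ) * fderiv ℝ (g : ℝ × ℝ → ℂ) z (0, 1) := by
    intro z
    have e : a = a.1 • ((1 : ℝ), (0 : ℝ)) + a.2 • ((0 : ℝ), (1 : ℝ)) := by
      ext <;> simp
    rw [dvC_apply]
    conv_lhs => rw [e]
    rw [map_add, map_smul, map_smul]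
    simp
  have hy : ∀ x : ℝ, ∫ y in (0 : ℝ)..1, fderiv ℝ (g : ℝ × ℝ → ℂ) (x, y) (0, 1) = 0 := by
    intro x
    have hder : ∀ y ∈ uIcc (0 : ℝ) 1, HasDerivAt (fun y : ℝ => g (x, y))
        (fderiv ℝ (g : ℝ × ℝ → ℂ) (x, y) (0, 1)) y := by
      intro y _
      have h1 : HasDerivAt (fun y : ℝ => (x, y)) ((0 : ℝ), (1 : ℝ)) y :=
        (hasDerivAt_const y x).prodMk (hasDerivAt_id y)
      exact (hd (x, y)).comp_hasDerivAt y h1
    rw [intervalIntegral.integral_eq_sub_of_hasDerivAt hder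
      ((hcy.comp (continuous_const.prodMk continuous_id)).intervalIntegrable _ _)]
    have h2 := PC.per g (x, 0) (0, 1)
    simp only [lat, Prod.mk_add_mk, Int.cast_zero, Int.cast_one, add_zero, zero_add] at h2
    rw [h2, sub_self]
  have hx : ∀ y : ℝ, ∫ x in (0 : ℝ)..1, fderiv ℝ (g : ℝ × ℝ → ℂ) (x, y) (1, 0) = 0 := by
    intro y
    have hder : ∀ x ∈ uIcc (0 : ℝ) 1, HasDerivAt (fun x : ℝ => g (x, y))
        (fderiv ℝ (g : ℝ × ℝ → ℂ) (x, y) (1, 0)) x := by
      intro x _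
      have h1 : HasDerivAt (fun x : ℝ => (x, y)) ((1 : ℝ), (0 : ℝ)) x :=
        (hasDerivAt_id x).prodMk (hasDerivAt_const x y)
      exact (hd (x, y)).comp_hasDerivAt x h1
    rw [intervalIntegral.integral_eq_sub_of_hasDerivAt hder
      ((hcx.comp (continuous_id.prodMk continuous_const)).intervalIntegrable _ _)]
    have h2 := PC.per g (0, y) (1, 0)
    simp only [lat, Prod.mk_add_mk, Int.cast_zero, Int.cast_one, add_zero, zero_add] at h2
    rw [h2, sub_self]
  have hswap : ∫ x in (0 : ℝ)..1, ∫ y in (0 : ℝ)..1, fderiv ℝ (g : ℝ × ℝ → ℂ) (x, y) (1, 0) =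
      ∫ y in (0 : ℝ)..1, ∫ x in (0 : ℝ)..1, fderiv ℝ (g : ℝ × ℝ → ℂ) (x, y) (1, 0) := by
    apply MeasureTheory.intervalIntegral_intervalIntegral_swap
    have h3 : Continuous (Function.uncurry
      (fun x y : ℝ => fderiv ℝ (g : ℝ × ℝ → ℂ) (x, y) (1, 0))) := hcx
    exact (h3.continuousOn.integrableOn_compact (isCompact_uIcc.prod isCompact_uIcc)).mono_set
      (Set.prod_mono uIoc_subset_uIcc uIoc_subset_uIcc)
  have h1 : ∀ x : ℝ, ∫ y in (0 : ℝ)..1, dvC a g (x, y) =
      (a.1 : ℂ) * ∫ y in (0 : ℝ)..1, fderiv ℝ (g : ℝ × ℝ → ℂ) (x, y) (1, 0) := by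
    intro x
    simp only [hsplit]
    rw [intervalIntegral.integral_add, intervalIntegral.integral_const_mul,
      intervalIntegral.integral_const_mul, hy, mul_zero, add_zero]
    · exact ((hcx.comp (continuous_const.prodMk continuous_id)).const_mul _).intervalIntegrable _ _
    · exact ((hcy.comp (continuous_const.prodMk continuous_id)).const_mul _).intervalIntegrable _ _
  simp only [h1]
  rw [intervalIntegral.integral_const_mul, hswap]
  simp only [hx]
  simp

/-- integration by parts in the first variable and in the second variable, by periodicity -/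
theorem cf_dvC (a : ℝ × ℝ) (f : PC) (n : ℤ × ℤ) :
    cf (dvC a f) n = 2 * Real.pi * I * (dotZ n a : ℂ) * cf f n := by
  have h0 := FB_int a (f * ev (-n))
  have h1 : ∀ z : ℝ × ℝ, dvC a (f * ev (-n)) z = dvC a f z * ev (-n) z
      - 2 * Real.pi * I * (dotZ n a : ℂ) * (f z * ev (-n) z) := by
    intro z
    rw [dvC_mul]
    simp only [PC.add_apply, PC.mul_apply, FB_dvC_ev]
    have : dotZ (-n) a = - dotZ n a := by
      simp only [dotZ, Prod.fst_neg, Prod.snd_neg]
      push_cast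
      ring
    rw [this]
    push_cast
    ring
  have hcf : Continuous (fun z : ℝ × ℝ => dvC a f z * ev (-n) z) :=
    (PC.smooth (dvC a f)).continuous.mul (PC.smooth (ev (-n))).continuous
  have hcg : Continuous (fun z : ℝ × ℝ => f z * ev (-n) z) :=
    (PC.smooth f).continuous.mul (PC.smooth (ev (-n))).continuous
  simp only [h1] at h0
  have h2 : ∀ x : ℝ, ∫ y in (0 : ℝ)..1, (dvC a f (x, y) * ev (-n) (x, y)
      - 2 * Real.pi * I * (dotZ n a : ℂ) * (f (x, y) * ev (-n) (x, y))) =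
      (∫ y in (0 : ℝ)..1, dvC a f (x, y) * ev (-n) (x, y)) -
      2 * Real.pi * I * (dotZ n a : ℂ) * ∫ y in (0 : ℝ)..1, f (x, y) * ev (-n) (x, y) := by
    intro x
    rw [intervalIntegral.integral_sub, intervalIntegral.integral_const_mul]
    · exact (hcf.comp (continuous_const.prodMk continuous_id)).intervalIntegrable _ _
    · exact ((hcg.comp (continuous_const.prodMk continuous_id)).const_mul _).intervalIntegrable _ _
  simp only [h2] at h0
  rw [intervalIntegral.integral_sub, intervalIntegral.integral_const_mul] at h0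
  · exact sub_eq_zero.1 h0
  · exact (intervalIntegral.continuous_parametric_intervalIntegral_of_continuous'
      (f := fun x y => dvC a f (x, y) * ev (-n) (x, y)) hcf 0 1).intervalIntegrable _ _
  · exact ((intervalIntegral.continuous_parametric_intervalIntegral_of_continuous'
      (f := fun x y => f (x, y) * ev (-n) (x, y)) hcg 0 1).const_mul _).intervalIntegrable _ _

end P205T
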