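import Vale.Agent.Lib.P205T.FB

/-! # P205T module FC: rapid decay of the Fourier coefficients -/

open scoped ContDiff ENNReal
open Complex Set

namespace P205T

theorem cf_iter_dvC (a : ℝ × ℝ) (f : PC) (n : ℤ × ℤ) (s : ℕ) :
    cf ((dvC a)^[s] f) n = (2 * Real.pi * I * (dotZ n a : ℂ)) ^ s * cf f n := by
  induction s with
  | zero => simp
  | succ s ih => rw [Function.iterate_succ_apply', cf_dvC, ih]; ring

theorem cf_decay_dir (a : ℝ × ℝ) (f : PC) (s : ℕ) :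
    ∃ B : ℝ, 0 ≤ B ∧ ∀ n, ‖cf f n‖ * |dotZ n a| ^ s ≤ B := by
  obtain ⟨B, hB, h⟩ := bounded_PC ((dvC a)^[s] f)
  refine ⟨B, hB, fun n => ?_⟩
  have h1 := cf_norm_le ((dvC a)^[s] f) h n
  rw [cf_iter_dvC, norm_mul, norm_pow] at h1
  have h2 : ‖(2 * Real.pi * I * (dotZ n a : ℂ))‖ = 2 * Real.pi * |dotZ n a| := by
    rw [norm_mul, norm_mul, norm_mul, Complex.norm_I, Complex.norm_real, Complex.norm_real]
    simp [abs_of_pos Real.pi_pos]
  rw [h2] at h1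
  have h3 : |dotZ n a| ≤ 2 * Real.pi * |dotZ n a| := by
    have := Real.pi_gt_three
    nlinarith [abs_nonneg (dotZ n a)]
  calc ‖cf f n‖ * |dotZ n a| ^ s ≤ ‖cf f n‖ * (2 * Real.pi * |dotZ n a|) ^ s := by
        gcongr
    _ = (2 * Real.pi * |dotZ n a|) ^ s * ‖cf f n‖ := by ring
    _ ≤ B := h1

theorem cf_decay (f : PC) (s : ℕ) : ∃ C : ℝ, 0 ≤ C ∧ ∀ n, ‖cf f n‖ * (1 + nn n) ^ s ≤ C := by
  obtain ⟨B0, hB0, h0⟩ := cf_decay_dir (1, 0) f 0
  obtain ⟨B1, hB1, h1⟩ := cf_decay_dir (1, 0) f s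
  obtain ⟨B2, hB2, h2⟩ := cf_decay_dir (0, 1) f s
  refine ⟨3 ^ s * (B0 + B1 + B2), by positivity, fun n => ?_⟩
  have e0 := h0 n
  have e1 := h1 n
  have e2 := h2 n
  have d1 : dotZ n (1, 0) = n.1 := by simp [dotZ]
  have d2 : dotZ n (0, 1) = n.2 := by simp [dotZ]
  rw [d1] at e1
  rw [d2] at e2
  rw [pow_zero, mul_one] at e0
  have key : (1 + nn n) ^ s ≤ 3 ^ s * (1 + |(n.1 : ℝ)| ^ s + |(n.2 : ℝ)| ^ s) := by
    have a1 := abs_nonneg (n.1 : ℝ)
    have a2 := abs_nonneg (n.2 : ℝ)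
    have p1 : 0 ≤ |(n.1 : ℝ)| ^ s := by positivity
    have p2 : 0 ≤ |(n.2 : ℝ)| ^ s := by positivity
    have hs : (0 : ℝ) ≤ 3 ^ s := by positivity
    have hnn : nn n = |(n.1 : ℝ)| + |(n.2 : ℝ)| := rfl
    by_cases c1 : |(n.1 : ℝ)| ≤ 1 ∧ |(n.2 : ℝ)| ≤ 1
    · have : (1 + nn n) ^ s ≤ 3 ^ s := by
        apply pow_le_pow_left₀ (by rw [hnn]; positivity)
        rw [hnn]; linarith [c1.1, c1.2]
      nlinarith [mul_nonneg hs p1, mul_nonneg hs p2]
    · by_cases c2 : |(n.1 : ℝ)| ≤ |(n.2 : ℝ)|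
      · have c3 : 1 < |(n.2 : ℝ)| := by
          by_contra hc
          push Not at hc
          exact c1 ⟨c2.trans hc, hc⟩
        have : (1 + nn n) ^ s ≤ (3 * |(n.2 : ℝ)|) ^ s := by
          apply pow_le_pow_left₀ (by rw [hnn]; positivity)
          rw [hnn]; linarith
        rw [mul_pow] at this
        nlinarith [mul_nonneg hs p1, mul_nonneg hs p2]
      · push Not at c2
        have c3 : 1 < |(n.1 : ℝ)| := by
          by_contra hc
          push Not at hc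
          exact c1 ⟨hc, (c2.le).trans hc⟩
        have : (1 + nn n) ^ s ≤ (3 * |(n.1 : ℝ)|) ^ s := by
          apply pow_le_pow_left₀ (by rw [hnn]; positivity)
          rw [hnn]; linarith
        rw [mul_pow] at this
        nlinarith [mul_nonneg hs p1, mul_nonneg hs p2]
  calc ‖cf f n‖ * (1 + nn n) ^ s
      ≤ ‖cf f n‖ * (3 ^ s * (1 + |(n.1 : ℝ)| ^ s + |(n.2 : ℝ)| ^ s)) := by gcongr
    _ = 3 ^ s * (‖cf f n‖ + ‖cf f n‖ * |(n.1 : ℝ)| ^ s + ‖cf f n‖ * |(n.2 : ℝ)| ^ s) := by ring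
    _ ≤ 3 ^ s * (B0 + B1 + B2) := by gcongr

theorem summable_int_sq : Summable fun n : ℤ => ((1 + |(n : ℝ)|) ^ 2)⁻¹ := by
  have h : Summable fun n : ℕ => ((1 + (n : ℝ)) ^ 2)⁻¹ := by
    have h1 : Summable fun n : ℕ => (((n : ℝ)) ^ 2)⁻¹ := by
      simp
    have h2 := (summable_nat_add_iff 1).mpr h1
    refine h2.congr (fun n => ?_)
    push_cast; rw [add_comm]
  apply Summable.of_nat_of_neg
  · refine h.congr (fun n => ?_)
    simp
  · refine h.congr (fun n => ?_)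
    simp

theorem summable_nn : Summable fun n : ℤ × ℤ => ((1 + nn n) ^ 4)⁻¹ := by
  have h := summable_int_sq.mul_of_nonneg summable_int_sq
    (fun n => by positivity) (fun n => by positivity)
  refine Summable.of_nonneg_of_le (fun n => by have := nn_nonneg n; positivity) (fun n => ?_) h
  have a1 := abs_nonneg (n.1 : ℝ)
  have a2 := abs_nonneg (n.2 : ℝ)
  have hnn : nn n = |(n.1 : ℝ)| + |(n.2 : ℝ)| := rfl
  rw [← mul_inv]
  apply inv_anti₀ (by positivity)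
  have h1 : (1 + |(n.1 : ℝ)|) ^ 2 ≤ (1 + nn n) ^ 2 := by
    apply pow_le_pow_left₀ (by positivity)
    rw [hnn]; linarith
  have h2 : (1 + |(n.2 : ℝ)|) ^ 2 ≤ (1 + nn n) ^ 2 := by
    apply pow_le_pow_left₀ (by positivity)
    rw [hnn]; linarith
  calc (1 + |(n.1 : ℝ)|) ^ 2 * (1 + |(n.2 : ℝ)|) ^ 2 ≤ (1 + nn n) ^ 2 * (1 + nn n) ^ 2 := by
        gcongr
    _ = (1 + nn n) ^ 4 := by ring

theorem summable_cf (f : PC) (s : ℕ) : Summable fun n => ‖cf f n‖ * (1 + nn n) ^ s := by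
  obtain ⟨C, hC, h⟩ := cf_decay f (s + 4)
  refine Summable.of_nonneg_of_le (fun n => by have := nn_nonneg n; positivity) (fun n => ?_)
    (summable_nn.mul_left C)
  have h0 := nn_nonneg n
  have h1 := h n
  have hp : 0 < (1 + nn n) ^ 4 := by positivity
  rw [← div_eq_mul_inv, le_div_iff₀ hp]
  calc ‖cf f n‖ * (1 + nn n) ^ s * (1 + nn n) ^ 4 = ‖cf f n‖ * (1 + nn n) ^ (s + 4) := by
        rw [pow_add]; ring
    _ ≤ C := h1

end P205T
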