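import Vale.Agent.Lib.P205T.FD

/-! # P205T module FG: Fourier coefficients of products -/

open scoped ContDiff ENNReal
open Complex Set

namespace P205T

private theorem fg_norm_ev (n : ℤ × ℤ) (x : ℝ × ℝ) : ‖ev n x‖ = 1 := by
  rw [ev_apply]
  have h : 2 * (Real.pi : ℂ) * I * (n.1 * x.1 + n.2 * x.2) =
      ((2 * Real.pi * (n.1 * x.1 + n.2 * x.2) : ℝ) : ℂ) * I := by
    push_cast
    ring
  rw [h, Complex.norm_exp_ofReal_mul_I]

theorem cf_mul (f g : PC) (n : ℤ × ℤ) :
    HasSum (fun m => cf f m * cf g (n - m)) (cf (f * g) n) := by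
  obtain ⟨B, hB, hg⟩ := bounded_PC g
  have hs : Summable fun m => ‖cf f m‖ * B := by
    have h := (summable_cf f 0).mul_right B
    simpa using h
  have h := cf_of_hasSum (fun m => cf f m • (ev m * g)) (f * g) (fun m => ‖cf f m‖ * B) hs
    (fun m x => by
      rw [PC.smul_apply, PC.mul_apply, norm_mul, norm_mul, fg_norm_ev, one_mul]
      exact mul_le_mul_of_nonneg_left (hg x) (norm_nonneg _))
    (fun x => by
      have h1 := (hasSum_cf f x).mul_right (g x)
      have e : (fun m => (cf f m • (ev m * g) : PC) x) = fun m => cf f m * ev m x * g x := by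
        funext m
        rw [PC.smul_apply, PC.mul_apply, mul_assoc]
      rw [e, PC.mul_apply]
      exact h1) n
  have e : (fun m => cf (cf f m • (ev m * g)) n) = fun m => cf f m * cf g (n - m) := by
    funext m
    rw [cf_smul, cf_ev_mul]
  rw [e] at h
  exact h

end P205T
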