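import Vale.Agent.Lib.P205T.FG

/-! # P205T module FH: conjugation and Parseval -/

open scoped ContDiff ENNReal
open Complex Set

namespace P205T

/-- the complex conjugate of a function -/
noncomputable def cjC (f : PC) : PC :=
  ⟨fun x => starRingEnd ℂ (f x), Complex.conjCLE.contDiff.comp (PC.smooth f),
    fun x n => by simp only [(PC.per f) x n]⟩

theorem cjC_apply (f : PC) (x : ℝ × ℝ) : cjC f x = starRingEnd ℂ (f x) := rfl

private theorem FH_int_conj (g : ℝ → ℂ) :
    ∫ x in (0 : ℝ)..1, starRingEnd ℂ (g x) = starRingEnd ℂ (∫ x in (0 : ℝ)..1, g x) := by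
  rw [intervalIntegral.integral_of_le zero_le_one, intervalIntegral.integral_of_le zero_le_one]
  exact integral_conj

private theorem FH_conj_ev (n : ℤ × ℤ) (x : ℝ × ℝ) :
    starRingEnd ℂ (ev n x) = ev (-n) x := by
  rw [ev_apply, ev_apply, ← Complex.exp_conj]
  congr 1
  simp only [map_mul, map_add, Complex.conj_ofReal, Complex.conj_I, map_ofNat, map_intCast,
    Prod.fst_neg, Prod.snd_neg, Int.cast_neg]
  ring

theorem cf_cjC (f : PC) (n : ℤ × ℤ) : cf (cjC f) n = starRingEnd ℂ (cf f (-n)) := by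
  unfold cf
  rw [← FH_int_conj]
  congr 1
  funext x
  rw [← FH_int_conj]
  congr 1
  funext y
  rw [map_mul, FH_conj_ev, neg_neg, cjC_apply]

/-- Parseval -/
theorem parseval (f : PC) :
    HasSum (fun n => ‖cf f n‖ ^ 2) (∫ x in (0 : ℝ)..1, ∫ y in (0 : ℝ)..1, ‖f (x, y)‖ ^ 2) := by
  have h := cf_mul f (cjC f) 0
  have h1 : (fun m => cf f m * cf (cjC f) (0 - m)) = fun m => ((‖cf f m‖ ^ 2 : ℝ) : ℂ) := by
    funext m
    rw [cf_cjC, zero_sub, neg_neg, Complex.mul_conj, Complex.normSq_eq_norm_sq]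
  have h2 : cf (f * cjC f) 0
      = ((∫ x in (0 : ℝ)..1, ∫ y in (0 : ℝ)..1, ‖f (x, y)‖ ^ 2 : ℝ) : ℂ) := by
    unfold cf
    rw [← intervalIntegral.integral_ofReal]
    congr 1
    funext x
    rw [← intervalIntegral.integral_ofReal]
    congr 1
    funext y
    rw [neg_zero, ev_zero, PC.one_apply, mul_one, PC.mul_apply, cjC_apply, Complex.mul_conj,
      Complex.normSq_eq_norm_sq]
  rw [h1, h2] at h
  exact Complex.hasSum_ofReal.mp h

end P205T
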