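import Vale.Agent.Lib.P205T.FD
import Vale.Agent.Lib.P205T.FE
import Vale.Agent.Lib.P205T.FH

/-! # P205T module FM: Fourier multipliers -/

open scoped ContDiff ENNReal
open Complex Set

namespace P205T

theorem cf_toC_neg (f : PR) (n : ℤ × ℤ) : cf (toC f) (-n) = starRingEnd ℂ (cf (toC f) n) := by
  have h : cjC (toC f) = toC f := by
    ext x; simp [cjC_apply]
  have := cf_cjC (toC f) (-n)
  rw [h, neg_neg] at this
  exact this

theorem exists_op {m : ℤ × ℤ → ℂ} (hm : IsSymC m) (f : PC) : ∃ g : PC, ∀ n, cf g n = m n * cf f n := by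
  obtain ⟨C, k, hC⟩ := hm
  obtain ⟨g, hg, -⟩ := synth (fun n => m n * cf f n) (fun s => by
    refine Summable.of_nonneg_of_le (fun n => by have := nn_nonneg n; positivity) (fun n => ?_)
      ((summable_cf f (k + s)).mul_left C)
    have h0 := nn_nonneg n
    rw [norm_mul, pow_add]
    have := mul_le_mul_of_nonneg_right (hC n)
      (by positivity : 0 ≤ ‖cf f n‖ * (1 + nn n) ^ s)
    calc _ = ‖m n‖ * (‖cf f n‖ * (1 + nn n) ^ s) := by ring
      _ ≤ _ := this
      _ = _ := by ring)
  exact ⟨g, hg⟩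

/-- complex Fourier multipliers -/
noncomputable def OpC (m : ℤ × ℤ → ℂ) : PC →ₗ[ℂ] PC :=
  open Classical in
  if h : IsSymC m then
    { toFun := fun f => Classical.choose (exists_op h f)
      map_add' := by
        intro f g
        apply cf_injective
        intro n
        rw [cf_add, Classical.choose_spec (exists_op h (f + g)) n,
          Classical.choose_spec (exists_op h f) n, Classical.choose_spec (exists_op h g) n, cf_add,
          mul_add]
      map_smul' := by
        intro r f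
        apply cf_injective
        intro n
        rw [RingHom.id_apply, cf_smul, Classical.choose_spec (exists_op h (r • f)) n,
          Classical.choose_spec (exists_op h f) n, cf_smul]
        ring }
  else 0

theorem cf_OpC {m : ℤ × ℤ → ℂ} (h : IsSymC m) (f : PC) (n : ℤ × ℤ) :
    cf (OpC m f) n = m n * cf f n := by
  unfold OpC
  rw [dif_pos h]
  exact Classical.choose_spec (exists_op h f) n

theorem toC_smul (r : ℝ) (f : PR) : toC (r • f) = (r : ℂ) • toC f := by
  ext x; simp

theorem toC_reC_of {g : PC} (h : ∀ n, cf g (-n) = starRingEnd ℂ (cf g n)) : toC (reC g) = g := by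
  have h1 : cjC g = g := by
    apply cf_injective
    intro n
    rw [cf_cjC, h n, Complex.conj_conj]
  ext x
  have h2 : starRingEnd ℂ (g x) = g x := by
    have := congrArg (fun u : PC => u x) h1
    simpa [cjC_apply] using this
  simp only [toC_apply, reC_apply]
  exact Complex.conj_eq_iff_re.mp h2

theorem toC_reC_OpC {m : ℤ × ℤ → ℂ} (h : IsSym m) (f : PR) :
    toC (reC (OpC m (toC f))) = OpC m (toC f) := by
  apply toC_reC_of
  intro n
  rw [cf_OpC h.1, cf_OpC h.1, cf_toC_neg, h.2 n, map_mul]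

/-- real Fourier multipliers -/
noncomputable def Op (m : ℤ × ℤ → ℂ) : PR →ₗ[ℝ] PR :=
  open Classical in
  if h : IsSym m then
    { toFun := fun f => reC (OpC m (toC f))
      map_add' := by
        intro f g
        apply toC_injective
        rw [toC_reC_OpC h, map_add toC (reC _), toC_reC_OpC h, toC_reC_OpC h, map_add, map_add]
      map_smul' := by
        intro r f
        apply toC_injective
        rw [RingHom.id_apply, toC_reC_OpC h, toC_smul r (reC _), toC_reC_OpC h, toC_smul, map_smul] }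
  else 0

theorem toC_Op {m : ℤ × ℤ → ℂ} (h : IsSym m) (f : PR) : toC (Op m f) = OpC m (toC f) := by
  unfold Op
  rw [dif_pos h]
  exact toC_reC_OpC h f

theorem cr_Op {m : ℤ × ℤ → ℂ} (h : IsSym m) (f : PR) (n : ℤ × ℤ) :
    cr (Op m f) n = m n * cr f n := by
  unfold cr
  rw [toC_Op h, cf_OpC h.1]

theorem cr_neg_idx (f : PR) (n : ℤ × ℤ) : cr f (-n) = starRingEnd ℂ (cr f n) := cf_toC_neg f n

theorem cr_add (f g : PR) (n : ℤ × ℤ) : cr (f + g) n = cr f n + cr g n := by
  unfold cr; rw [map_add, cf_add]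

theorem cr_sub (f g : PR) (n : ℤ × ℤ) : cr (f - g) n = cr f n - cr g n := by
  unfold cr; rw [map_sub, cf_sub]

theorem cr_smul (r : ℝ) (f : PR) (n : ℤ × ℤ) : cr (r • f) n = r * cr f n := by
  unfold cr; rw [toC_smul, cf_smul]

theorem cr_injective {f g : PR} (h : ∀ n, cr f n = cr g n) : f = g :=
  toC_injective (cf_injective h)

theorem cr_mul (f g : PR) (n : ℤ × ℤ) :
    HasSum (fun m => cr f m * cr g (n - m)) (cr (f * g) n) := by
  unfold cr; rw [map_mul]; exact cf_mul _ _ n

theorem toC_dv (a : ℝ × ℝ) (f : PR) : toC (dv a f) = dvC a (toC f) := by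
  ext x
  rw [toC_apply, dv_apply, dvC_apply]
  have h := (PR.smooth f).differentiable (by simp) x
  have : HasFDerivAt (toC f : ℝ × ℝ → ℂ) (Complex.ofRealCLM.comp (fderiv ℝ f x)) x :=
    Complex.ofRealCLM.hasFDerivAt.comp x h.hasFDerivAt
  rw [this.fderiv]; rfl

theorem cr_dv (a : ℝ × ℝ) (f : PR) (n : ℤ × ℤ) :
    cr (dv a f) n = 2 * Real.pi * I * (dotZ n a : ℂ) * cr f n := by
  unfold cr; rw [toC_dv, cf_dvC]

theorem summable_cr (f : PR) (s : ℕ) : Summable fun n => ‖cr f n‖ * (1 + nn n) ^ s :=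
  summable_cf (toC f) s

theorem hasSum_cr (f : PR) (x : ℝ × ℝ) : HasSum (fun n => cr f n * ev n x) (f x : ℂ) :=
  hasSum_cf (toC f) x

/-- synthesis of real functions -/
theorem synthR (a : ℤ × ℤ → ℂ) (hn : ∀ n, a (-n) = starRingEnd ℂ (a n))
    (h : ∀ s : ℕ, Summable fun n => ‖a n‖ * (1 + nn n) ^ s) : ∃ f : PR, ∀ n, cr f n = a n := by
  obtain ⟨g, hg, -⟩ := synth a h
  refine ⟨reC g, fun n => ?_⟩
  unfold cr
  rw [toC_reC_of (fun n => by rw [hg, hg, hn]), hg]

theorem mean_ofReal (f : PR) : (mean f : ℂ) = cr f 0 := by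
  have := cr_neg_idx f 0
  rw [neg_zero] at this
  exact Complex.conj_eq_iff_re.mp this.symm

theorem cr_cst (r : ℝ) (n : ℤ × ℤ) : cr (cst r) n = if n = 0 then (r : ℂ) else 0 := by
  have h : toC (cst r) = (r : ℂ) • ev 0 := by
    ext x; rw [ev_zero]; simp [cst_apply]
  unfold cr
  rw [h, cf_smul, cf_ev]
  by_cases hn : n = 0
  · simp [hn]
  · simp [hn, Ne.symm hn]

/-- the mean-free part -/
noncomputable def P0 (f : PR) : PR := f - cst (mean f)

theorem cr_P0 (f : PR) (n : ℤ × ℤ) : cr (P0 f) n = if n = 0 then 0 else cr f n := by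
  unfold P0
  rw [cr_sub, cr_cst]
  by_cases hn : n = 0
  · simp [hn, mean_ofReal]
  · simp [hn]

end P205T
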