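import Vale.Agent.Lib.P205T.Frame

/-! # P205T module FrA: identities for the multipliers of a frame -/

open scoped ContDiff ENNReal
open Complex Set

namespace P205T

namespace Frame

variable (F : Frame)

private theorem FrA_det : (F.a 0).1 * (F.a 1).2 - (F.a 0).2 * (F.a 1).1 ≠ 0 := by
  intro hD
  have h1 := F.M0
  have h2 := F.M1
  have h3 := F.N0
  have h4 := F.N1
  unfold dotZ at h1 h2 h3 h4
  have key : (2 * Real.pi * F.e * ((F.M.1 : ℝ) * (F.a 0).1 + F.M.2 * (F.a 0).2)) *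
      (2 * Real.pi * F.e * ((F.N.1 : ℝ) * (F.a 1).1 + F.N.2 * (F.a 1).2)) -
      (2 * Real.pi * F.e) ^ 2 * (((F.M.1 : ℝ) * (F.a 1).1 + F.M.2 * (F.a 1).2) *
      ((F.N.1 : ℝ) * (F.a 0).1 + F.N.2 * (F.a 0).2)) =
      (2 * Real.pi * F.e) ^ 2 * ((F.M.1 : ℝ) * F.N.2 - F.M.2 * F.N.1) *
      ((F.a 0).1 * (F.a 1).2 - (F.a 0).2 * (F.a 1).1) := by ring
  rw [h1, h2, h3, h4, hD] at key
  norm_num at key

private theorem FrA_c1 (n : ℤ × ℤ) : (n.1 : ℝ) * ((F.a 0).1 * (F.a 1).2 - (F.a 0).2 * (F.a 1).1) =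
    dotZ n (F.a 0) * (F.a 1).2 - dotZ n (F.a 1) * (F.a 0).2 := by
  unfold dotZ; ring

private theorem FrA_c2 (n : ℤ × ℤ) : (n.2 : ℝ) * ((F.a 0).1 * (F.a 1).2 - (F.a 0).2 * (F.a 1).1) =
    dotZ n (F.a 1) * (F.a 0).1 - dotZ n (F.a 0) * (F.a 1).1 := by
  unfold dotZ; ring

private theorem FrA_nn_ge {n : ℤ × ℤ} (hn : n ≠ 0) : 1 ≤ nn n := by
  by_cases h1 : n.1 = 0
  · have h2 : n.2 ≠ 0 := fun h2 => hn (Prod.ext h1 h2)
    have h3 : (1 : ℝ) ≤ |(n.2 : ℝ)| := by exact_mod_cast Int.one_le_abs h2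
    have h4 := abs_nonneg (n.1 : ℝ)
    unfold nn
    linarith
  · have h3 : (1 : ℝ) ≤ |(n.1 : ℝ)| := by exact_mod_cast Int.one_le_abs h1
    have h4 := abs_nonneg (n.2 : ℝ)
    unfold nn
    linarith

private theorem FrA_lower : ∃ C : ℝ, 0 ≤ C ∧ ∀ n : ℤ × ℤ, nn n ≤ C * (|F.l 0 n| + |F.l 1 n|) := by
  have hD := F.FrA_det
  set D := (F.a 0).1 * (F.a 1).2 - (F.a 0).2 * (F.a 1).1 with hDdef
  set A := |(F.a 0).1| + |(F.a 0).2| + |(F.a 1).1| + |(F.a 1).2| with hA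
  have hD0 : 0 < |D| := abs_pos.2 hD
  have hpi := Real.pi_gt_three
  have hA0 : 0 ≤ A := by positivity
  have hd : ∀ i n, |F.l i n| = 2 * Real.pi * |dotZ n (F.a i)| := by
    intro i n
    unfold l
    rw [abs_mul, abs_of_pos (by positivity)]
  refine ⟨2 * A / |D|, by positivity, fun n => ?_⟩
  have h1 : |(n.1 : ℝ)| * |D| ≤ A * (|dotZ n (F.a 0)| + |dotZ n (F.a 1)|) := by
    rw [← abs_mul, F.FrA_c1 n]
    refine (abs_sub _ _).trans ?_
    rw [abs_mul, abs_mul]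
    have e1 : |(F.a 1).2| ≤ A := by
      have := abs_nonneg (F.a 0).1
      have := abs_nonneg (F.a 0).2
      have := abs_nonneg (F.a 1).1
      linarith
    have e2 : |(F.a 0).2| ≤ A := by
      have := abs_nonneg (F.a 0).1
      have := abs_nonneg (F.a 1).2
      have := abs_nonneg (F.a 1).1
      linarith
    have m1 := mul_le_mul_of_nonneg_left e1 (abs_nonneg (dotZ n (F.a 0)))
    have m2 := mul_le_mul_of_nonneg_left e2 (abs_nonneg (dotZ n (F.a 1)))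
    nlinarith
  have h2 : |(n.2 : ℝ)| * |D| ≤ A * (|dotZ n (F.a 0)| + |dotZ n (F.a 1)|) := by
    rw [← abs_mul, F.FrA_c2 n]
    refine (abs_sub _ _).trans ?_
    rw [abs_mul, abs_mul]
    have e1 : |(F.a 0).1| ≤ A := by
      have := abs_nonneg (F.a 1).2
      have := abs_nonneg (F.a 0).2
      have := abs_nonneg (F.a 1).1
      linarith
    have e2 : |(F.a 1).1| ≤ A := by
      have := abs_nonneg (F.a 0).1
      have := abs_nonneg (F.a 1).2
      have := abs_nonneg (F.a 0).2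
      linarith
    have m1 := mul_le_mul_of_nonneg_left e1 (abs_nonneg (dotZ n (F.a 1)))
    have m2 := mul_le_mul_of_nonneg_left e2 (abs_nonneg (dotZ n (F.a 0)))
    nlinarith
  have h3 : |dotZ n (F.a 0)| + |dotZ n (F.a 1)| ≤ |F.l 0 n| + |F.l 1 n| := by
    rw [hd, hd]
    have := abs_nonneg (dotZ n (F.a 0))
    have := abs_nonneg (dotZ n (F.a 1))
    nlinarith
  have h4 := mul_le_mul_of_nonneg_left h3 hA0
  have h5 : nn n * |D| ≤ 2 * A * (|F.l 0 n| + |F.l 1 n|) := by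
    unfold nn
    nlinarith
  calc nn n = nn n * |D| / |D| := by field_simp
    _ ≤ 2 * A * (|F.l 0 n| + |F.l 1 n|) / |D| := by gcongr
    _ = 2 * A / |D| * (|F.l 0 n| + |F.l 1 n|) := by ring

private theorem FrA_lsq_nonneg (n : ℤ × ℤ) : 0 ≤ F.lsq n := by unfold lsq; positivity

private theorem FrA_lower2 : ∃ C : ℝ, 0 ≤ C ∧ ∀ n : ℤ × ℤ, n ≠ 0 → 1 ≤ C * F.lsq n := by
  obtain ⟨C, hC0, hC⟩ := F.FrA_lower
  refine ⟨2 * C ^ 2, by positivity, fun n hn => ?_⟩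
  have h1 := (FrA_nn_ge hn).trans (hC n)
  have h2 : 1 ≤ (C * (|F.l 0 n| + |F.l 1 n|)) ^ 2 := one_le_pow₀ h1
  have h3 : (|F.l 0 n| + |F.l 1 n|) ^ 2 ≤ 2 * F.lsq n := by
    unfold lsq
    have e0 := sq_abs (F.l 0 n)
    have e1 := sq_abs (F.l 1 n)
    nlinarith [sq_nonneg (|F.l 0 n| - |F.l 1 n|)]
  calc (1 : ℝ) ≤ (C * (|F.l 0 n| + |F.l 1 n|)) ^ 2 := h2
    _ = C ^ 2 * (|F.l 0 n| + |F.l 1 n|) ^ 2 := by ring
    _ ≤ C ^ 2 * (2 * F.lsq n) := by gcongr
    _ = 2 * C ^ 2 * F.lsq n := by ring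

theorem lsq_pos {n : ℤ × ℤ} (hn : n ≠ 0) : 0 < F.lsq n := by
  obtain ⟨C, hC0, hC⟩ := F.FrA_lower2
  have h1 := hC n hn
  rcases (F.FrA_lsq_nonneg n).lt_or_eq with h | h
  · exact h
  · rw [← h, mul_zero] at h1
    linarith

private theorem FrA_l_neg (i : Fin 2) (n : ℤ × ℤ) : F.l i (-n) = -F.l i n := by
  unfold l dotZ
  simp only [Prod.fst_neg, Prod.snd_neg, Int.cast_neg]
  ring

private theorem FrA_lsq_neg (n : ℤ × ℤ) : F.lsq (-n) = F.lsq n := by
  unfold lsq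
  rw [F.FrA_l_neg, F.FrA_l_neg]
  ring

theorem isSym_G0 : IsSym F.symG0 := by
  obtain ⟨C, hC0, hC⟩ := F.FrA_lower2
  refine ⟨⟨C, 0, fun n => ?_⟩, fun n => ?_⟩
  · rw [pow_zero, mul_one]
    by_cases hn : n = 0
    · simp [symG0, hn, hC0]
    · simp only [symG0, if_neg hn]
      rw [Complex.norm_real, norm_neg, Real.norm_eq_abs, abs_inv,
        abs_of_pos (F.lsq_pos hn)]
      have hpos := F.lsq_pos hn
      rw [inv_le_iff_one_le_mul₀ hpos]
      exact hC n hn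
  · by_cases hn : n = 0
    · simp [symG0, hn]
    · have hn' : -n ≠ 0 := neg_ne_zero.2 hn
      simp only [symG0, if_neg hn, if_neg hn', F.FrA_lsq_neg, Complex.conj_ofReal]

private theorem FrA_T_le (i j : Fin 2) (n : ℤ × ℤ) : |F.l i n * F.l j n| ≤ F.lsq n := by
  have h : ∀ i : Fin 2, F.l i n ^ 2 ≤ F.lsq n := by
    intro i
    unfold lsq
    fin_cases i
    · have := sq_nonneg (F.l 1 n)
      show F.l 0 n ^ 2 ≤ _
      linarith
    · have := sq_nonneg (F.l 0 n)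
      show F.l 1 n ^ 2 ≤ _
      linarith
  have h1 := h i
  have h2 := h j
  rw [abs_le]
  constructor
  · nlinarith [sq_nonneg (F.l i n + F.l j n)]
  · nlinarith [sq_nonneg (F.l i n - F.l j n)]

theorem isSym_T (i j : Fin 2) : IsSym (F.symT i j) := by
  refine ⟨⟨1, 0, fun n => ?_⟩, fun n => ?_⟩
  · rw [pow_zero, mul_one]
    by_cases hn : n = 0
    · simp [symT, hn]
    · simp only [symT, if_neg hn]
      have hpos := F.lsq_pos hn
      rw [Complex.norm_real, Real.norm_eq_abs, abs_div, abs_of_pos hpos, div_le_one hpos]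
      exact F.FrA_T_le i j n
  · by_cases hn : n = 0
    · simp [symT, hn]
    · have hn' : -n ≠ 0 := neg_ne_zero.2 hn
      simp only [symT, if_neg hn, if_neg hn', F.FrA_lsq_neg, F.FrA_l_neg, Complex.conj_ofReal]
      rw [neg_mul_neg]

theorem isSym_G1 : IsSym F.symG1 := by
  refine ⟨⟨1, 0, fun n => ?_⟩, fun n => ?_⟩
  · rw [pow_zero, mul_one]
    unfold symG1
    have h0 := F.FrA_lsq_nonneg n
    rw [Complex.norm_real, norm_neg, Real.norm_eq_abs, abs_inv, abs_of_pos (by linarith)]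
    exact inv_le_one_of_one_le₀ (by linarith)
  · unfold symG1
    rw [F.FrA_lsq_neg, Complex.conj_ofReal]

theorem isSym_Cut (K : ℝ) : IsSym (symCut K) := by
  refine ⟨⟨1, 0, fun n => ?_⟩, fun n => ?_⟩
  · rw [pow_zero, mul_one]
    unfold symCut
    split_ifs
    · simp
    · simp
  · unfold symCut
    rw [nn_neg]
    split_ifs
    · simp
    · simp

theorem cr_d (i : Fin 2) (f : PR) (n : ℤ × ℤ) : cr (F.d i f) n = I * (F.l i n : ℂ) * cr f n := by
  unfold d l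
  rw [cr_dv]
  push_cast
  ring

theorem d_d_G0 (i j : Fin 2) (f : PR) : F.d i (F.d j (F.G0 f)) = F.T i j f := by
  apply cr_injective
  intro n
  unfold G0 T
  rw [F.cr_d, F.cr_d, cr_Op F.isSym_G0, cr_Op (F.isSym_T i j)]
  by_cases hn : n = 0
  · simp [symG0, symT, hn]
  · simp only [symG0, symT, if_neg hn]
    have hpos := F.lsq_pos hn
    have hI : I * I = -1 := Complex.I_mul_I
    push_cast
    calc I * (F.l i n : ℂ) * (I * (F.l j n : ℂ) * (-(F.lsq n : ℂ)⁻¹ * cr f n))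
        = (I * I) * (-((F.l i n : ℂ) * (F.l j n : ℂ) * (F.lsq n : ℂ)⁻¹ * cr f n)) := by ring
      _ = (F.l i n : ℂ) * (F.l j n : ℂ) / (F.lsq n : ℂ) * cr f n := by rw [hI]; ring

theorem T_trace (f : PR) : F.T 0 0 f + F.T 1 1 f = P0 f := by
  apply cr_injective
  intro n
  unfold T
  rw [cr_add, cr_Op (F.isSym_T 0 0), cr_Op (F.isSym_T 1 1), cr_P0]
  by_cases hn : n = 0
  · simp [symT, hn]
  · simp only [symT, if_neg hn]
    have hpos := F.lsq_pos hn
    rw [← add_mul, ← Complex.ofReal_add]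
    have : F.l 0 n * F.l 0 n / F.lsq n + F.l 1 n * F.l 1 n / F.lsq n = 1 := by
      rw [← add_div, div_eq_one_iff_eq hpos.ne']
      unfold lsq
      ring
    rw [this, Complex.ofReal_one, one_mul]

private theorem FrA_helm (u : PR) (n : ℤ × ℤ) :
    cr (F.d 0 (F.d 0 u) + F.d 1 (F.d 1 u) - u) n = -((1 + F.lsq n : ℝ) : ℂ) * cr u n := by
  rw [cr_sub, cr_add, F.cr_d, F.cr_d, F.cr_d, F.cr_d]
  have hI : I * I = -1 := Complex.I_mul_I
  unfold lsq
  push_cast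
  calc I * (F.l 0 n : ℂ) * (I * (F.l 0 n : ℂ) * cr u n) +
      I * (F.l 1 n : ℂ) * (I * (F.l 1 n : ℂ) * cr u n) - cr u n
      = (I * I) * ((F.l 0 n : ℂ) ^ 2 + (F.l 1 n : ℂ) ^ 2) * cr u n - cr u n := by ring
    _ = _ := by rw [hI]; ring

theorem G1_eq (f : PR) : F.d 0 (F.d 0 (F.G1 f)) + F.d 1 (F.d 1 (F.G1 f)) - F.G1 f = f := by
  apply cr_injective
  intro n
  rw [F.FrA_helm]
  unfold G1
  rw [cr_Op F.isSym_G1]
  unfold symG1
  have h0 := F.FrA_lsq_nonneg n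
  rw [← mul_assoc, ← Complex.ofReal_neg, ← Complex.ofReal_mul]
  have : -(1 + F.lsq n) * -(1 + F.lsq n)⁻¹ = 1 := by
    rw [neg_mul_neg, mul_inv_cancel₀ (by linarith)]
  rw [this, Complex.ofReal_one, one_mul]

theorem helm_inj {u v : PR} (h : F.d 0 (F.d 0 u) + F.d 1 (F.d 1 u) - u =
    F.d 0 (F.d 0 v) + F.d 1 (F.d 1 v) - v) : u = v := by
  apply cr_injective
  intro n
  have h1 := congrArg (fun w => cr w n) h
  simp only [F.FrA_helm] at h1
  have h0 := F.FrA_lsq_nonneg n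
  have h2 : -((1 + F.lsq n : ℝ) : ℂ) ≠ 0 := by
    rw [neg_ne_zero, Complex.ofReal_ne_zero]
    linarith
  exact mul_left_cancel₀ h2 h1

theorem d_comm (i j : Fin 2) (f : PR) : F.d i (F.d j f) = F.d j (F.d i f) := dv_comm _ _ f

theorem d_mul (i : Fin 2) (f g : PR) : F.d i (f * g) = F.d i f * g + f * F.d i g := dv_mul _ f g

theorem d_one (i : Fin 2) : F.d i 1 = 0 := dv_one _

end Frame

end P205T
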