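import Vale.Agent.Lib.P205T.FrA

/-! # P205T module FrB: bounds for the multipliers of a frame -/

open scoped ContDiff ENNReal
open Complex Set

namespace P205T

namespace Frame

variable {F : Frame} {G : CMet} {C0 c1 : ℝ} {m : ℤ × ℤ} {w : Weight} {s : ℕ} {f : PR} {B : ℝ}

theorem FrB_abs_dotZ (n : ℤ × ℤ) (a : ℝ × ℝ) : |dotZ n a| ≤ nn n * ‖a‖ := by
  have h1 : |a.1| ≤ ‖a‖ := norm_fst_le a
  have h2 : |a.2| ≤ ‖a‖ := norm_snd_le a
  unfold dotZ nn
  calc |(n.1 : ℝ) * a.1 + n.2 * a.2| ≤ |(n.1 : ℝ) * a.1| + |(n.2 : ℝ) * a.2| := abs_add_le _ _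
    _ = |(n.1 : ℝ)| * |a.1| + |(n.2 : ℝ)| * |a.2| := by rw [abs_mul, abs_mul]
    _ ≤ |(n.1 : ℝ)| * ‖a‖ + |(n.2 : ℝ)| * ‖a‖ :=
      add_le_add (mul_le_mul_of_nonneg_left h1 (abs_nonneg _))
        (mul_le_mul_of_nonneg_left h2 (abs_nonneg _))
    _ = (|(n.1 : ℝ)| + |(n.2 : ℝ)|) * ‖a‖ := by ring

theorem FrB_l_neg (F : Frame) (i : Fin 2) (n : ℤ × ℤ) : F.l i (-n) = -F.l i n := by
  unfold l dotZ
  simp only [Prod.fst_neg, Prod.snd_neg, Int.cast_neg]
  ring

theorem FrB_l_sq_le (F : Frame) (i : Fin 2) (n : ℤ × ℤ) : F.l i n ^ 2 ≤ F.lsq n := by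
  unfold lsq
  fin_cases i
  · have := sq_nonneg (F.l 1 n)
    simp only [Fin.zero_eta]
    linarith
  · have := sq_nonneg (F.l 0 n)
    simp only [Fin.mk_one]
    linarith

theorem FrB_nn_ge {n : ℤ × ℤ} (hn : n ≠ 0) : 1 ≤ nn n := by
  unfold nn
  have h1 : n.1 ≠ 0 ∨ n.2 ≠ 0 := by
    by_contra hcon
    push Not at hcon
    exact hn (Prod.ext hcon.1 hcon.2)
  rcases h1 with h1 | h1
  · have h2 : (1 : ℝ) ≤ |(n.1 : ℝ)| := by
      rw [← Int.cast_abs]
      exact_mod_cast Int.one_le_abs h1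
    have := abs_nonneg (n.2 : ℝ)
    linarith
  · have h2 : (1 : ℝ) ≤ |(n.2 : ℝ)| := by
      rw [← Int.cast_abs]
      exact_mod_cast Int.one_le_abs h1
    have := abs_nonneg (n.1 : ℝ)
    linarith

theorem Bd_d (hF : F.Good G C0 c1 m) (i : Fin 2) (h : Bd w (s + 1) f B) :
    Bd w s (F.d i f) (2 * Real.pi * C0 * B) := by
  refine (h.dv (F.a i)).mono ?_
  have h1 := hF.a_le i
  have hB := h.nonneg
  have hpi := Real.pi_pos
  apply mul_le_mul_of_nonneg_right _ hB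
  apply mul_le_mul_of_nonneg_left h1 (by positivity)

theorem norm_symT_le (F : Frame) (i j : Fin 2) (n : ℤ × ℤ) : ‖F.symT i j n‖ ≤ 1 := by
  unfold symT
  split_ifs with hn
  · rw [norm_zero]; exact zero_le_one
  · rw [Complex.norm_real, Real.norm_eq_abs, abs_div, abs_mul]
    have h0 := F.lsq_pos hn
    rw [abs_of_pos h0, div_le_one h0]
    have h1 := F.FrB_l_sq_le i n
    have h2 := F.FrB_l_sq_le j n
    have h3 : |F.l i n| * |F.l j n| ≤ (|F.l i n| ^ 2 + |F.l j n| ^ 2) / 2 := by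
      have := sq_nonneg (|F.l i n| - |F.l j n|)
      nlinarith
    rw [sq_abs, sq_abs] at h3
    linarith

theorem Bd_T (F : Frame) (i j : Fin 2) (h : Bd w s f B) : Bd w s (F.T i j f) B := by
  have h1 := Bd.Op (isSym_T F i j) (s := s) (s' := s) zero_le_one (fun n => by
    have h2 := nn_nonneg n
    exact mul_le_mul_of_nonneg_right (F.norm_symT_le i j n) (by positivity)) h
  rw [one_mul] at h1
  exact h1

/-- the symbol of `d i ∘ G0` -/
theorem FrB_symdG0_le (hF : F.Good G C0 c1 m) (i : Fin 2) (n : ℤ × ℤ) :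
    ‖I * (F.l i n : ℂ) * F.symG0 n‖ ≤ C0 := by
  have hC0 := hF.C0_ge
  unfold symG0
  split_ifs with hn
  · rw [mul_zero, norm_zero]; linarith
  · rw [norm_mul, norm_mul, Complex.norm_I, one_mul, Complex.norm_real, Complex.norm_real,
      Real.norm_eq_abs, Real.norm_eq_abs, abs_neg, abs_inv]
    have h0 := F.lsq_pos hn
    rw [abs_of_pos h0, ← div_eq_mul_inv, div_le_iff₀ h0]
    have h1 := F.FrB_l_sq_le i n
    have h2 := hF.lsq_ge n
    have h3 := FrB_nn_ge hn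
    have h4 : 1 ≤ nn n ^ 2 := one_le_pow₀ h3
    have h5 : 1 ≤ C0 * F.lsq n := le_trans h4 h2
    -- |l|² ≤ lsq ≤ C0² lsq² since 1 ≤ C0 lsq ≤ C0² lsq
    apply abs_le_of_sq_le_sq _ (by positivity)
    have h6 : F.lsq n ≤ (C0 * F.lsq n) * F.lsq n := by
      have := mul_le_mul_of_nonneg_right h5 h0.le
      linarith
    have h7 : (C0 * F.lsq n) * F.lsq n ≤ (C0 * F.lsq n) ^ 2 := by
      have h8 : F.lsq n ≤ C0 * F.lsq n := by
        have := mul_le_mul_of_nonneg_right hC0 h0.le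
        linarith
      have h9 : 0 ≤ C0 * F.lsq n := by linarith
      have := mul_le_mul_of_nonneg_left h8 h9
      rw [sq]
      exact this
    linarith

theorem FrB_isSym_dsym {g : ℤ × ℤ → ℂ} (hg : IsSym g) {C : ℝ} (i : Fin 2)
    (hb : ∀ n, ‖I * (F.l i n : ℂ) * g n‖ ≤ C) : IsSym fun n => I * (F.l i n : ℂ) * g n := by
  refine ⟨⟨C, 0, fun n => ?_⟩, fun n => ?_⟩
  · rw [pow_zero, mul_one]
    exact hb n
  · simp only [FrB_l_neg, hg.2 n, map_mul, Complex.conj_I, Complex.conj_ofReal, Complex.ofReal_neg]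
    ring

theorem FrB_d_Op {g : ℤ × ℤ → ℂ} (hg : IsSym g) {C : ℝ} (i : Fin 2)
    (hb : ∀ n, ‖I * (F.l i n : ℂ) * g n‖ ≤ C) (h : Bd w s f B) :
    Bd w s (F.d i (Op g f)) (C * B) := by
  have hs := FrB_isSym_dsym hg i hb
  have e : F.d i (Op g f) = Op (fun n => I * (F.l i n : ℂ) * g n) f := by
    apply cr_injective
    intro n
    rw [cr_d, cr_Op hg, cr_Op hs, mul_assoc (I * (F.l i n : ℂ))]
  rw [e]
  have hC : 0 ≤ C := le_trans (norm_nonneg _) (hb 0)
  refine Bd.Op hs hC (fun n => ?_) h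
  have h2 := nn_nonneg n
  exact mul_le_mul_of_nonneg_right (hb n) (by positivity)

theorem Bd_dG0 (hF : F.Good G C0 c1 m) (i : Fin 2) (h : Bd w s f B) :
    Bd w s (F.d i (F.G0 f)) (C0 * B) :=
  FrB_d_Op (isSym_G0 F) i (fun n => FrB_symdG0_le hF i n) h

theorem Bd_G1 (hF : F.Good G C0 c1 m) (h : Bd w s f B) : Bd w (s + 2) (F.G1 f) (2 * C0 * B) := by
  have hC0 := hF.C0_ge
  refine Bd.Op (isSym_G1 F) (by linarith) (fun n => ?_) h
  have h0 := nn_nonneg n
  have h1 := hF.lsq_ge n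
  have h2 : 0 ≤ F.lsq n := by
    unfold lsq
    positivity
  unfold symG1
  rw [Complex.norm_real, Real.norm_eq_abs, abs_neg, abs_inv, abs_of_pos (by linarith),
    inv_mul_le_iff₀ (by linarith)]
  have h3 : (1 + nn n) ^ 2 ≤ (1 + F.lsq n) * (2 * C0) := by
    have h4 : (1 + nn n) ^ 2 ≤ 2 * (1 + nn n ^ 2) := by
      have := sq_nonneg (1 - nn n)
      nlinarith
    have h5 : 2 * (1 + nn n ^ 2) ≤ 2 * (C0 + C0 * F.lsq n) := by linarith
    have h6 : 2 * (C0 + C0 * F.lsq n) = (1 + F.lsq n) * (2 * C0) := by ring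
    linarith
  have h7 : (0 : ℝ) ≤ (1 + nn n) ^ s := by positivity
  have h8 := mul_le_mul_of_nonneg_left h3 h7
  calc (1 + nn n) ^ (s + 2) = (1 + nn n) ^ s * (1 + nn n) ^ 2 := by rw [pow_add]
    _ ≤ (1 + nn n) ^ s * ((1 + F.lsq n) * (2 * C0)) := h8
    _ = (1 + F.lsq n) * (2 * C0 * (1 + nn n) ^ s) := by ring

theorem FrB_norm_symCut_le (K : ℝ) (n : ℤ × ℤ) : ‖symCut K n‖ ≤ 1 := by
  unfold symCut
  split_ifs
  · rw [norm_one]
  · rw [norm_zero]; exact zero_le_one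

theorem Bd_dCut (hF : F.Good G C0 c1 m) (i : Fin 2) {K : ℝ} (hK : 0 ≤ K) (h : Bd w s f B) :
    Bd w s (F.d i (Cut K f)) (2 * Real.pi * C0 * K * B) := by
  have hC0 := hF.C0_ge
  have hpi := Real.pi_pos
  refine FrB_d_Op (isSym_Cut K) i (fun n => ?_) h
  unfold symCut
  split_ifs with hn
  · rw [mul_one, norm_mul, Complex.norm_I, one_mul, Complex.norm_real, Real.norm_eq_abs]
    unfold l
    rw [abs_mul, abs_of_pos (by positivity)]
    have h1 := FrB_abs_dotZ n (F.a i)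
    have h2 := hF.a_le i
    have h3 := nn_nonneg n
    have h4 : nn n * ‖F.a i‖ ≤ K * C0 := mul_le_mul hn h2 (norm_nonneg _) hK
    have h5 : |dotZ n (F.a i)| ≤ K * C0 := le_trans h1 h4
    have h6 := mul_le_mul_of_nonneg_left h5 (by positivity : 0 ≤ 2 * Real.pi)
    calc 2 * Real.pi * |dotZ n (F.a i)| ≤ 2 * Real.pi * (K * C0) := h6
      _ = 2 * Real.pi * C0 * K := by ring
  · rw [mul_zero, norm_zero]
    positivity

theorem Bd_Cut {K : ℝ} (h : Bd w s f B) : Bd w s (Cut K f) B := by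
  have h1 := Bd.Op (isSym_Cut K) (s := s) (s' := s) zero_le_one (fun n => by
    have h2 := nn_nonneg n
    exact mul_le_mul_of_nonneg_right (FrB_norm_symCut_le K n) (by positivity)) h
  rw [one_mul] at h1
  exact h1

theorem Bd_tail {K : ℝ} (hK : 0 ≤ K) {t : ℕ} (h : Bd w (s + t) f B) :
    Bd w s (f - Cut K f) (B / (1 + K) ^ t) := by
  have hs0 := isSym_Cut K
  have hb : ∀ n, ‖1 - symCut K n‖ ≤ 1 := by
    intro n
    unfold symCut
    split_ifs
    · rw [sub_self, norm_zero]; exact zero_le_one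
    · rw [sub_zero, norm_one]
  have hs : IsSym fun n => 1 - symCut K n := by
    refine ⟨⟨1, 0, fun n => ?_⟩, fun n => ?_⟩
    · rw [pow_zero, mul_one]
      exact hb n
    · show 1 - symCut K (-n) = starRingEnd ℂ (1 - symCut K n)
      rw [hs0.2 n, map_sub, map_one]
  have e : f - Cut K f = Op (fun n => 1 - symCut K n) f := by
    apply cr_injective
    intro n
    rw [cr_sub, cr_Op hs]
    unfold Cut
    rw [cr_Op hs0]
    ring
  rw [e]
  have h1K : 0 < (1 + K) ^ t := by positivity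
  have h1 := Bd.Op hs (s := s + t) (s' := s) (C := ((1 + K) ^ t)⁻¹) (by positivity) (fun n => ?_) h
  · rw [div_eq_inv_mul]
    exact h1
  · have h2 := nn_nonneg n
    by_cases hn : nn n ≤ K
    · have h3 : (1 : ℂ) - symCut K n = 0 := by
        unfold symCut
        rw [if_pos hn, sub_self]
      rw [h3, norm_zero, zero_mul]
      positivity
    · have h3 : (1 : ℂ) - symCut K n = 1 := by
        unfold symCut
        rw [if_neg hn, sub_zero]
      rw [h3, norm_one, one_mul, pow_add, inv_mul_eq_div, le_div_iff₀ h1K]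
      have h4 : (1 + K) ^ t ≤ (1 + nn n) ^ t :=
        pow_le_pow_left₀ (by linarith) (by linarith) t
      exact mul_le_mul_of_nonneg_left h4 (by positivity)

end Frame

end P205T
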