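import Vale.Agent.Lib.P205T.Frame

/-! # P205T module FrC: existence of good frames -/

open scoped ContDiff ENNReal
open Complex Set

namespace P205T

namespace FrC

/-- bounds on the coordinates `(x, y)` and `(0, z)` of the two dual covectors -/
structure Near (α β δ K B e x y z : ℝ) : Prop where
  e_pos : 0 < e
  e_le : e ≤ 1
  α_pos : 0 < α
  δ_pos : 0 < δ
  K_pos : 0 < K
  B_pos : 0 < B
  xl : α / 2 ≤ x
  xu : x ≤ 3 * α / 2
  zl : δ / 2 ≤ z
  zu : z ≤ 3 * δ / 2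
  xa : |x - α| ≤ 4 * e
  za : |z - δ| ≤ 4 * e
  yb : |y| ≤ B
  lo : e ≤ α * y - β * x
  hi : α * y - β * x ≤ K * e

theorem Near.x_pos {α β δ K B e x y z : ℝ} (h : Near α β δ K B e x y z) : 0 < x := by
  have := h.α_pos; have := h.xl; linarith

theorem Near.z_pos {α β δ K B e x y z : ℝ} (h : Near α β δ K B e x y z) : 0 < z := by
  have := h.δ_pos; have := h.zl; linarith

theorem g00 {α β δ K B e x y z : ℝ} (h : Near α β δ K B e x y z) :
    |α ^ 2 / x ^ 2 - 1| ≤ 40 / α * e := by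
  have hx := h.x_pos
  have hα := h.α_pos
  have h1 : α ^ 2 / x ^ 2 - 1 = (α - x) * ((α + x) / x ^ 2) := by
    field_simp
    ring
  rw [h1, abs_mul]
  have h2 : |α - x| ≤ 4 * e := by rw [abs_sub_comm]; exact h.xa
  have h3 : |(α + x) / x ^ 2| ≤ 10 / α := by
    rw [abs_of_pos (by positivity), div_le_div_iff₀ (by positivity) hα]
    have := h.xl
    have := h.xu
    nlinarith
  calc |α - x| * |(α + x) / x ^ 2| ≤ (4 * e) * (10 / α) :=
        mul_le_mul h2 h3 (abs_nonneg _) (by have := h.e_pos; positivity)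
    _ = 40 / α * e := by ring

theorem g11 {α β δ K B e x y z : ℝ} (h : Near α β δ K B e x y z) :
    |((α * y - β * x) ^ 2 / x ^ 2 + δ ^ 2) / z ^ 2 - 1| ≤
      (16 * K ^ 2 / (α ^ 2 * δ ^ 2) + 40 / δ) * e := by
  have hx := h.x_pos
  have hz := h.z_pos
  have hα := h.α_pos
  have hδ := h.δ_pos
  have he := h.e_pos
  have hK := h.K_pos
  have h1 : ((α * y - β * x) ^ 2 / x ^ 2 + δ ^ 2) / z ^ 2 - 1 =
      (α * y - β * x) ^ 2 / (x ^ 2 * z ^ 2) + (δ - z) * ((δ + z) / z ^ 2) := by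
    field_simp
    ring
  have h2 : |δ - z| ≤ 4 * e := by rw [abs_sub_comm]; exact h.za
  have h3 : |(δ + z) / z ^ 2| ≤ 10 / δ := by
    rw [abs_of_pos (by positivity), div_le_div_iff₀ (by positivity) hδ]
    have := h.zl
    have := h.zu
    nlinarith
  have h4 : |(α * y - β * x) ^ 2 / (x ^ 2 * z ^ 2)| ≤ 16 * K ^ 2 / (α ^ 2 * δ ^ 2) * e := by
    rw [abs_of_nonneg (by positivity)]
    have h5 : (α * y - β * x) ^ 2 ≤ K ^ 2 * e := by
      have h6 : (α * y - β * x) ^ 2 ≤ (K * e) ^ 2 := by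
        apply pow_le_pow_left₀ _ h.hi
        linarith [h.lo]
      have h7 : (K * e) ^ 2 ≤ K ^ 2 * e := by
        have := h.e_le
        rw [mul_pow]
        apply mul_le_mul_of_nonneg_left _ (by positivity)
        nlinarith
      linarith
    have h8 : α ^ 2 * δ ^ 2 / 16 ≤ x ^ 2 * z ^ 2 := by
      have h9 : (α / 2) ^ 2 ≤ x ^ 2 := pow_le_pow_left₀ (by positivity) h.xl 2
      have h10 : (δ / 2) ^ 2 ≤ z ^ 2 := pow_le_pow_left₀ (by positivity) h.zl 2
      calc α ^ 2 * δ ^ 2 / 16 = (α / 2) ^ 2 * (δ / 2) ^ 2 := by ring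
        _ ≤ _ := mul_le_mul h9 h10 (by positivity) (by positivity)
    calc (α * y - β * x) ^ 2 / (x ^ 2 * z ^ 2) ≤ (K ^ 2 * e) / (α ^ 2 * δ ^ 2 / 16) :=
          div_le_div₀ (by positivity) h5 (by positivity) h8
      _ = _ := by field_simp
  rw [h1]
  refine (abs_add_le _ _).trans ?_
  rw [add_mul]
  refine add_le_add h4 ?_
  rw [abs_mul]
  calc |δ - z| * |(δ + z) / z ^ 2| ≤ (4 * e) * (10 / δ) :=
        mul_le_mul h2 h3 (abs_nonneg _) (by positivity)
    _ = 40 / δ * e := by ring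

theorem g01lo {α β δ K B e x y z : ℝ} (h : Near α β δ K B e x y z) :
    8 / (27 * α * δ) * e ≤ α * (α * y - β * x) / (x ^ 2 * z) := by
  have hx := h.x_pos
  have hz := h.z_pos
  have hα := h.α_pos
  have hδ := h.δ_pos
  have he := h.e_pos
  have h1 : x ^ 2 * z ≤ (3 * α / 2) ^ 2 * (3 * δ / 2) :=
    mul_le_mul (pow_le_pow_left₀ hx.le h.xu 2) h.zu hz.le (by positivity)
  calc 8 / (27 * α * δ) * e = α * e / ((3 * α / 2) ^ 2 * (3 * δ / 2)) := by
        field_simp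
        ring
    _ ≤ α * (α * y - β * x) / (x ^ 2 * z) := by
        apply div_le_div₀ _ _ (by positivity) h1
        · have := h.lo
          have : 0 ≤ α * y - β * x := by linarith
          positivity
        · exact mul_le_mul_of_nonneg_left h.lo hα.le

theorem g01hi {α β δ K B e x y z : ℝ} (h : Near α β δ K B e x y z) :
    α * (α * y - β * x) / (x ^ 2 * z) ≤ 8 * K / (α * δ) * e := by
  have hx := h.x_pos
  have hz := h.z_pos
  have hα := h.α_pos
  have hδ := h.δ_pos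
  have he := h.e_pos
  have hK := h.K_pos
  have h1 : (α / 2) ^ 2 * (δ / 2) ≤ x ^ 2 * z :=
    mul_le_mul (pow_le_pow_left₀ (by positivity) h.xl 2) h.zl (by positivity) (by positivity)
  calc α * (α * y - β * x) / (x ^ 2 * z) ≤ α * (K * e) / ((α / 2) ^ 2 * (δ / 2)) := by
        apply div_le_div₀ (by positivity) _ (by positivity) h1
        exact mul_le_mul_of_nonneg_left h.hi hα.le
    _ = _ := by
        field_simp
        ring

theorem a0 {α β δ K B e x y z : ℝ} (h : Near α β δ K B e x y z) : |1 / x| ≤ 2 / α := by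
  have hx := h.x_pos
  have hα := h.α_pos
  rw [abs_of_pos (by positivity), div_le_div_iff₀ hx hα]
  linarith [h.xl]

theorem a1z {α β δ K B e x y z : ℝ} (h : Near α β δ K B e x y z) : |1 / z| ≤ 2 / δ := by
  have hz := h.z_pos
  have hδ := h.δ_pos
  rw [abs_of_pos (by positivity), div_le_div_iff₀ hz hδ]
  linarith [h.zl]

theorem a1y {α β δ K B e x y z : ℝ} (h : Near α β δ K B e x y z) :
    |-y / (x * z)| ≤ B * (2 / α) * (2 / δ) := by
  have h1 : -y / (x * z) = -(y * (1 / x) * (1 / z)) := by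
    have := h.x_pos; have := h.z_pos
    field_simp
  rw [h1, abs_neg, abs_mul, abs_mul]
  have := h.B_pos
  have hα := h.α_pos
  have hδ := h.δ_pos
  exact mul_le_mul (mul_le_mul h.yb (a0 h) (abs_nonneg _) (by positivity)) (a1z h) (abs_nonneg _)
    (by positivity)

theorem lsq_lower {α β δ K B e x y z : ℝ} (h : Near α β δ K B e x y z) (n1 n2 : ℝ) :
    (|n1| + |n2|) ^ 2 ≤ 2 * (3 * α / 2 + B + 3 * δ / 2) ^ 2 *
      ((2 * Real.pi * (n1 / x)) ^ 2 + (2 * Real.pi * (-y / (x * z) * n1 + n2 / z)) ^ 2) := by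
  have hx := h.x_pos
  have hz := h.z_pos
  have hα := h.α_pos
  have hδ := h.δ_pos
  have hB := h.B_pos
  have hpi := Real.pi_gt_three
  obtain ⟨l0, hl0⟩ : ∃ l0, l0 = 2 * Real.pi * (n1 / x) := ⟨_, rfl⟩
  obtain ⟨l1, hl1⟩ : ∃ l1, l1 = 2 * Real.pi * (-y / (x * z) * n1 + n2 / z) := ⟨_, rfl⟩
  rw [← hl0, ← hl1]
  have e1 : n1 = (x * l0) / (2 * Real.pi) := by rw [hl0]; field_simp
  have e2 : n2 = (z * l1 + y * l0) / (2 * Real.pi) := by
    rw [hl0, hl1]; field_simp; ring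
  have b1 : |n1| ≤ |x * l0| := by
    rw [e1, abs_div, abs_of_pos (show (0 : ℝ) < 2 * Real.pi by positivity)]
    apply div_le_self (abs_nonneg _)
    linarith
  have b2 : |n2| ≤ |z * l1 + y * l0| := by
    rw [e2, abs_div, abs_of_pos (show (0 : ℝ) < 2 * Real.pi by positivity)]
    apply div_le_self (abs_nonneg _)
    linarith
  have b3 : |z * l1 + y * l0| ≤ z * |l1| + B * |l0| := by
    refine (abs_add_le _ _).trans ?_
    rw [abs_mul, abs_mul, abs_of_pos hz]
    have := mul_le_mul_of_nonneg_right h.yb (abs_nonneg l0)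
    linarith
  have b4 : |x * l0| = x * |l0| := by rw [abs_mul, abs_of_pos hx]
  have b5 : |n1| + |n2| ≤ (3 * α / 2 + B + 3 * δ / 2) * (|l0| + |l1|) := by
    have := mul_le_mul_of_nonneg_right h.xu (abs_nonneg l0)
    have := mul_le_mul_of_nonneg_right h.zu (abs_nonneg l1)
    have h1 : 0 ≤ (3 * α / 2) * |l1| := by positivity
    have h2 : 0 ≤ B * |l1| := by positivity
    have h3 : 0 ≤ (3 * δ / 2) * |l0| := by positivity
    nlinarith
  have b6 : (|l0| + |l1|) ^ 2 ≤ 2 * (l0 ^ 2 + l1 ^ 2) := by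
    rw [← sq_abs l0, ← sq_abs l1]
    nlinarith [sq_nonneg (|l0| - |l1|)]
  calc (|n1| + |n2|) ^ 2 ≤ ((3 * α / 2 + B + 3 * δ / 2) * (|l0| + |l1|)) ^ 2 :=
        pow_le_pow_left₀ (by positivity) b5 2
    _ = (3 * α / 2 + B + 3 * δ / 2) ^ 2 * (|l0| + |l1|) ^ 2 := by ring
    _ ≤ (3 * α / 2 + B + 3 * δ / 2) ^ 2 * (2 * (l0 ^ 2 + l1 ^ 2)) :=
        mul_le_mul_of_nonneg_left b6 (by positivity)
    _ = _ := by ring

theorem l0_hi {α β δ K B e x y z : ℝ} (h : Near α β δ K B e x y z) :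
    2 * Real.pi * (1 / x) ≤ 16 / α := by
  have h1 := (le_abs_self _).trans (a0 h)
  have h2 : (0 : ℝ) ≤ 1 / x := by have := h.x_pos; positivity
  have hpi := Real.pi_le_four
  have hpi' := Real.pi_pos
  have hα := h.α_pos
  calc 2 * Real.pi * (1 / x) ≤ (2 * 4) * (2 / α) :=
        mul_le_mul (by linarith) h1 h2 (by norm_num)
    _ = 16 / α := by ring

theorem yx {α β δ K B e x y z : ℝ} (h : Near α β δ K B e x y z) :
    |y * (1 / x)| ≤ B * (2 / α) := by
  rw [abs_mul]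
  have := h.B_pos
  have hα := h.α_pos
  exact mul_le_mul h.yb (a0 h) (abs_nonneg _) (by positivity)

theorem l1_lo {α β δ K B e x y z m : ℝ} (h : Near α β δ K B e x y z)
    (hm : B * (2 / α) + 1 ≤ m) :
    2 * Real.pi * (1 / z) ≤ 2 * Real.pi * (-y / (x * z) * 1 + m / z) := by
  have hz := h.z_pos
  have hx := h.x_pos
  have h1 := (le_abs_self _).trans (yx h)
  have h2 : -y / (x * z) * 1 + m / z = (m - y * (1 / x)) * (1 / z) := by
    field_simp
    ring
  rw [h2]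
  apply mul_le_mul_of_nonneg_left _ (by positivity)
  have h3 : (1 : ℝ) ≤ m - y * (1 / x) := by linarith
  have h4 : (0 : ℝ) ≤ 1 / z := by positivity
  nlinarith

theorem l1_hi {α β δ K B e x y z m : ℝ} (h : Near α β δ K B e x y z)
    (hm : B * (2 / α) + 1 ≤ m) :
    2 * Real.pi * (-y / (x * z) * 1 + m / z) ≤ 16 * (m + B * (2 / α)) / δ := by
  have hz := h.z_pos
  have hx := h.x_pos
  have hα := h.α_pos
  have hδ := h.δ_pos
  have hB := h.B_pos
  have h1 := (neg_abs_le _).trans' (neg_le_neg (yx h))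
  have h2 : -y / (x * z) * 1 + m / z = (m - y * (1 / x)) * (1 / z) := by
    field_simp
    ring
  rw [h2]
  have h5 := (le_abs_self _).trans (yx h)
  have h3 : (0 : ℝ) ≤ m - y * (1 / x) := by linarith
  have h4 : (0 : ℝ) ≤ 1 / z := by positivity
  have h6 := (le_abs_self _).trans (a1z h)
  have hpi := Real.pi_le_four
  have hpi' := Real.pi_pos
  calc 2 * Real.pi * ((m - y * (1 / x)) * (1 / z)) ≤ (2 * 4) * ((m + B * (2 / α)) * (2 / δ)) := by
        apply mul_le_mul (by linarith) _ (by positivity) (by norm_num)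
        exact mul_le_mul (by linarith) h6 h4 (by linarith)
    _ = _ := by ring

theorem m_lo {α β δ K B e x y z m : ℝ} (h : Near α β δ K B e x y z)
    (hm : B * (2 / α) + 1 ≤ m) :
    8 / (27 * α * δ) ≤
      (2 * Real.pi * (1 / x)) * (2 * Real.pi * (-y / (x * z) * 1 + m / z)) := by
  have hz := h.z_pos
  have hx := h.x_pos
  have hα := h.α_pos
  have hδ := h.δ_pos
  have hpi := Real.pi_gt_three
  have h1 : (2 * Real.pi * (1 / x)) * (2 * Real.pi * (1 / z)) ≤
      (2 * Real.pi * (1 / x)) * (2 * Real.pi * (-y / (x * z) * 1 + m / z)) :=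
    mul_le_mul_of_nonneg_left (l1_lo h hm) (by positivity)
  refine le_trans ?_ h1
  have h2 : (2 * Real.pi * (1 / x)) * (2 * Real.pi * (1 / z)) = (4 * Real.pi ^ 2) / (x * z) := by
    field_simp
    ring
  rw [h2, div_le_div_iff₀ (by positivity) (by positivity)]
  have h3 : x * z ≤ (3 * α / 2) * (3 * δ / 2) := mul_le_mul h.xu h.zu hz.le (by positivity)
  have h4 : (9 : ℝ) ≤ Real.pi ^ 2 := by nlinarith
  have h5 : 0 < α * δ := by positivity
  nlinarith

/-- the constants -/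
theorem exists_near (α β δ : ℝ) (hα : 0 < α) (hδ : 0 < δ) : ∃ K B e0 : ℝ, 0 < K ∧ 0 < B ∧ 0 < e0 ∧
    ∀ e, 0 < e → e ≤ e0 → ∃ m1 m2 m3 : ℤ,
      Near α β δ K B e (2 * Real.pi * e * m1) (2 * Real.pi * e * m2) (2 * Real.pi * e * m3) := by
  obtain ⟨κ, hκ⟩ : ∃ κ, κ = (4 * α + 4 * |β| + 1) / α := ⟨_, rfl⟩
  have hκ0 : 0 < κ := by rw [hκ]; positivity
  have hακ : α * κ = 4 * α + 4 * |β| + 1 := by rw [hκ]; field_simp
  refine ⟨8 * α + 8 * |β| + 1, |β| + κ + 4, min 1 (min (α / 8) (δ / 8)), by positivity,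
    by positivity, lt_min one_pos (lt_min (by positivity) (by positivity)), ?_⟩
  intro e he hee
  have he1 : e ≤ 1 := hee.trans (min_le_left _ _)
  have he2 : e ≤ α / 8 := hee.trans ((min_le_right _ _).trans (min_le_left _ _))
  have he3 : e ≤ δ / 8 := hee.trans ((min_le_right _ _).trans (min_le_right _ _))
  have hpi := Real.pi_le_four
  have hpi' := Real.pi_pos
  have hr : ∀ t : ℝ, |2 * Real.pi * e * (round (t / (2 * Real.pi * e)) : ℤ) - t| ≤ 4 * e := by
    intro t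
    have h1 := abs_sub_round (t / (2 * Real.pi * e))
    have h2 : 2 * Real.pi * e * (round (t / (2 * Real.pi * e)) : ℤ) - t =
        -((2 * Real.pi * e) * (t / (2 * Real.pi * e) - (round (t / (2 * Real.pi * e)) : ℤ))) := by
      have : (2 * Real.pi * e) * (t / (2 * Real.pi * e)) = t := by field_simp
      rw [mul_sub, this]
      ring
    rw [h2, abs_neg, abs_mul, abs_of_pos (by positivity : 0 < 2 * Real.pi * e)]
    calc 2 * Real.pi * e * |t / (2 * Real.pi * e) - (round (t / (2 * Real.pi * e)) : ℤ)|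
        ≤ 2 * Real.pi * e * (1 / 2) := mul_le_mul_of_nonneg_left h1 (by positivity)
      _ = Real.pi * e := by ring
      _ ≤ 4 * e := mul_le_mul_of_nonneg_right hpi he.le
  refine ⟨round (α / (2 * Real.pi * e)), round ((β + e * κ) / (2 * Real.pi * e)),
    round (δ / (2 * Real.pi * e)), ?_⟩
  have hx := hr α
  have hy := hr (β + e * κ)
  have hz := hr δ
  generalize 2 * Real.pi * e * ((round (α / (2 * Real.pi * e)) : ℤ) : ℝ) = x at hx ⊢
  generalize 2 * Real.pi * e * ((round ((β + e * κ) / (2 * Real.pi * e)) : ℤ) : ℝ) = y at hy ⊢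
  generalize 2 * Real.pi * e * ((round (δ / (2 * Real.pi * e)) : ℤ) : ℝ) = z at hz ⊢
  have hx' := abs_le.1 hx
  have hy' := abs_le.1 hy
  have hz' := abs_le.1 hz
  have hb1 : |β * (x - α)| ≤ |β| * (4 * e) := by
    rw [abs_mul]; exact mul_le_mul_of_nonneg_left hx (abs_nonneg _)
  have hb2 := abs_le.1 hb1
  have h5 : α * y - β * x = α * (y - (β + e * κ)) + e * (4 * α + 4 * |β| + 1) - β * (x - α) := by
    rw [← hακ]; ring
  have hya : α * (-(4 * e)) ≤ α * (y - (β + e * κ)) := mul_le_mul_of_nonneg_left hy'.1 hα.le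
  have hyb : α * (y - (β + e * κ)) ≤ α * (4 * e) := mul_le_mul_of_nonneg_left hy'.2 hα.le
  refine ⟨he, he1, hα, hδ, by positivity, by positivity, by linarith, by linarith, by linarith,
    by linarith, hx, hz, ?_, ?_, ?_⟩
  · have h6 : |y| ≤ |y - (β + e * κ)| + |β + e * κ| := by
      have := abs_add_le (y - (β + e * κ)) (β + e * κ)
      simpa using this
    have h7 : |β + e * κ| ≤ |β| + κ := by
      refine (abs_add_le _ _).trans ?_
      rw [abs_of_pos (by positivity : 0 < e * κ)]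
      nlinarith
    linarith
  · rw [h5]
    nlinarith
  · rw [h5]
    nlinarith

/-- the frame -/
noncomputable def fr (e : ℝ) (m1 m2 m3 : ℤ) (he : 0 < e) (h1 : 2 * Real.pi * e * (m1 : ℝ) ≠ 0)
    (h3 : 2 * Real.pi * e * (m3 : ℝ) ≠ 0) : Frame where
  e := e
  M := (m1, m2)
  N := (0, m3)
  a := ![(1 / (2 * Real.pi * e * m1), 0),
    (-(2 * Real.pi * e * m2) / ((2 * Real.pi * e * m1) * (2 * Real.pi * e * m3)),
      1 / (2 * Real.pi * e * m3))]
  e_pos := he
  M0 := by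
    have hm1 : m1 ≠ 0 := fun h => h1 (by rw [h, Int.cast_zero, mul_zero])
    simp only [dotZ, Matrix.cons_val_zero]
    field_simp
    simpa using hm1
  M1 := by
    have hm1 : (m1 : ℝ) ≠ 0 := fun h => h1 (by rw [h, mul_zero])
    have hm3 : (m3 : ℝ) ≠ 0 := fun h => h3 (by rw [h, mul_zero])
    have := Real.pi_pos.ne'
    simp only [dotZ, Matrix.cons_val_one, Matrix.cons_val_fin_one]
    field_simp
    ring
  N0 := by
    simp [dotZ]
  N1 := by
    have hm3 : (m3 : ℝ) ≠ 0 := fun h => h3 (by rw [h, mul_zero])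
    have := Real.pi_pos.ne'
    simp only [dotZ, Matrix.cons_val_one, Matrix.cons_val_fin_one, Int.cast_zero, zero_mul, zero_add]
    field_simp

end FrC

/-- Cholesky `G = e₁ e₁ᵀ + e₂ e₂ᵀ`, `M = round ((e₁ / e + k₀ e₂) / 2π)`, `N = round (e₂ / (2π e))`;
see `notes/P205/TORUS_PROOF.md`, II.1. -/
theorem exists_frames (G : CMet) : ∃ (C0 c1 e0 : ℝ) (m : ℤ × ℤ), 0 < e0 ∧
    ∀ e, 0 < e → e ≤ e0 → ∃ F : Frame, F.e = e ∧ F.Good G C0 c1 m := by
  have hp := G.p_pos
  have hD := G.det_pos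
  obtain ⟨α, hα⟩ : ∃ α, α = Real.sqrt G.p := ⟨_, rfl⟩
  have hα0 : 0 < α := by rw [hα]; positivity
  have hαp : α ^ 2 = G.p := by rw [hα]; exact Real.sq_sqrt hp.le
  obtain ⟨β, hβ⟩ : ∃ β, β = G.q / α := ⟨_, rfl⟩
  have hβq : α * β = G.q := by rw [hβ]; field_simp
  obtain ⟨δ, hδ⟩ : ∃ δ, δ = Real.sqrt ((G.p * G.r - G.q ^ 2) / G.p) := ⟨_, rfl⟩
  have hδ0 : 0 < δ := by rw [hδ]; positivity
  have hδr : β ^ 2 + δ ^ 2 = G.r := by
    have h1 : δ ^ 2 = (G.p * G.r - G.q ^ 2) / G.p := by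
      rw [hδ]; exact Real.sq_sqrt (by positivity)
    rw [h1, ← hαp, ← hβq]
    field_simp
    ring
  obtain ⟨K, B, e0, hK, hB, he0, hall⟩ := FrC.exists_near α β δ hα0 hδ0
  obtain ⟨m2, hm2⟩ : ∃ m2 : ℤ, B * (2 / α) + 1 ≤ (m2 : ℝ) :=
    ⟨⌈B * (2 / α) + 1⌉, Int.le_ceil _⟩
  obtain ⟨C0, hC0⟩ : ∃ C0 : ℝ, C0 = 1 + 40 / α + (16 * K ^ 2 / (α ^ 2 * δ ^ 2) + 40 / δ) +
      8 * K / (α * δ) + 2 / α + 2 / δ + B * (2 / α) * (2 / δ) +
      2 * (3 * α / 2 + B + 3 * δ / 2) ^ 2 + ((16 / α) ^ 2 + (16 * (m2 + B * (2 / α)) / δ) ^ 2) :=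
    ⟨_, rfl⟩
  have t1 : 0 ≤ 40 / α := by positivity
  have t2 : 0 ≤ 16 * K ^ 2 / (α ^ 2 * δ ^ 2) + 40 / δ := by positivity
  have t3 : 0 ≤ 8 * K / (α * δ) := by positivity
  have t4 : 0 ≤ 2 / α := by positivity
  have t5 : 0 ≤ 2 / δ := by positivity
  have t6 : 0 ≤ B * (2 / α) * (2 / δ) := by positivity
  have t7 : 0 ≤ 2 * (3 * α / 2 + B + 3 * δ / 2) ^ 2 := by positivity
  have t8 : 0 ≤ (16 / α) ^ 2 + (16 * (m2 + B * (2 / α)) / δ) ^ 2 := by positivity
  refine ⟨C0, 8 / (27 * α * δ), e0, (1, m2), he0, fun e he hee => ?_⟩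
  obtain ⟨n1, n2, n3, hn⟩ := hall e he hee
  refine ⟨FrC.fr e n1 n2 n3 he hn.x_pos.ne' hn.z_pos.ne', rfl, ?_⟩
  have hx0 := hn.x_pos
  have hz0 := hn.z_pos
  have hF0 : (FrC.fr e n1 n2 n3 he hn.x_pos.ne' hn.z_pos.ne').a 0 =
      (1 / (2 * Real.pi * e * n1), 0) := rfl
  have hF1 : (FrC.fr e n1 n2 n3 he hn.x_pos.ne' hn.z_pos.ne').a 1 =
      (-(2 * Real.pi * e * n2) / ((2 * Real.pi * e * n1) * (2 * Real.pi * e * n3)),
        1 / (2 * Real.pi * e * n3)) := rfl
  have hFe : (FrC.fr e n1 n2 n3 he hn.x_pos.ne' hn.z_pos.ne').e = e := rfl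
  generalize FrC.fr e n1 n2 n3 he hn.x_pos.ne' hn.z_pos.ne' = F at hF0 hF1 hFe ⊢
  clear hall
  generalize 2 * Real.pi * e * (n1 : ℝ) = x at hn hx0 hF0 hF1
  generalize 2 * Real.pi * e * (n2 : ℝ) = y at hn hF0 hF1
  generalize 2 * Real.pi * e * (n3 : ℝ) = z at hn hz0 hF0 hF1
  have he1 : e ≤ 1 := hn.e_le
  have hl0 : ∀ n : ℤ × ℤ, F.l 0 n = 2 * Real.pi * ((n.1 : ℝ) / x) := by
    intro n
    rw [Frame.l, hF0, dotZ]
    ring
  have hl1 : ∀ n : ℤ × ℤ, F.l 1 n = 2 * Real.pi * (-y / (x * z) * (n.1 : ℝ) + (n.2 : ℝ) / z) := by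
    intro n
    rw [Frame.l, hF1, dotZ]
    ring
  have hg00 : F.gam G 0 0 = α ^ 2 / x ^ 2 := by
    rw [Frame.gam, CMet.ip, hF0, ← hαp]
    field_simp
    ring
  have hg11 : F.gam G 1 1 = ((α * y - β * x) ^ 2 / x ^ 2 + δ ^ 2) / z ^ 2 := by
    rw [Frame.gam, CMet.ip, hF1, ← hαp, ← hβq, ← hδr]
    field_simp
    ring
  have hg01 : -F.gam G 0 1 = α * (α * y - β * x) / (x ^ 2 * z) := by
    rw [Frame.gam, CMet.ip, hF0, hF1, ← hαp, ← hβq]
    field_simp
    ring
  have hmul : ∀ {c d : ℝ}, c ≤ C0 → d ≤ c * e → d ≤ C0 * e := fun hc hd =>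
    hd.trans (mul_le_mul_of_nonneg_right hc he.le)
  constructor
  · rw [hFe]; exact he1
  · linarith
  · positivity
  · intro i
    fin_cases i
    · show ‖F.a 0‖ ≤ C0
      rw [hF0, Prod.norm_def]
      apply max_le
      · rw [Real.norm_eq_abs]
        have := FrC.a0 hn
        linarith
      · simp only [norm_zero]
        linarith
    · show ‖F.a 1‖ ≤ C0
      rw [hF1, Prod.norm_def]
      apply max_le
      · rw [Real.norm_eq_abs]
        have := FrC.a1y hn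
        linarith
      · rw [Real.norm_eq_abs]
        have := FrC.a1z hn
        linarith
  · intro n
    have h1 := FrC.lsq_lower hn (n.1 : ℝ) (n.2 : ℝ)
    rw [Frame.lsq, hl0, hl1, nn]
    refine h1.trans (mul_le_mul_of_nonneg_right (by linarith) (by positivity))
  · rw [hg00, hFe]
    exact hmul (by linarith) (FrC.g00 hn)
  · rw [hg11, hFe]
    exact hmul (by linarith) (FrC.g11 hn)
  · rw [hg01, hFe]
    exact FrC.g01lo hn
  · rw [hg01, hFe]
    exact hmul (by linarith) (FrC.g01hi hn)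
  · rw [hl0, hl1]
    have := FrC.m_lo hn hm2
    simpa using this
  · rw [Frame.lsq, hl0, hl1]
    have h1 := FrC.l0_hi hn
    have h2 := FrC.l1_hi hn hm2
    have h3 := FrC.l1_lo hn hm2
    have h4 : 0 ≤ 2 * Real.pi * (1 / z) := by positivity
    have h5 : 0 ≤ 2 * Real.pi * (1 / x) := by positivity
    have h6 := pow_le_pow_left₀ h5 h1 2
    have h7 := pow_le_pow_left₀ (h4.trans h3) h2 2
    simp only [Int.cast_one]
    linarith

end P205T
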