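import Vale.Agent.Lib.P205T.GDefs

/-! # P205T module GA: the gauge calculus, part 1 -/

open scoped ContDiff ENNReal
open Complex Set

namespace P205T

variable {ι : Type} {D : Fam ι} {s s' : ℕ} {g g' : ι → ℝ} {φ ψ : ι → (Fin D.k → PR) → ℝ → PR}

private theorem GA_dst_nonneg {i : ι} {x y : Fin D.k → PR} {μ ν c : ℝ}
    (h : D.dst i x μ y ν c) : 0 ≤ c :=
  le_trans (mul_nonneg (div_nonneg (D.r_pos i).le (D.kap_pos i).le) (abs_nonneg _)) h.2

theorem Gau.mono (h : Gau D s g φ) {K : ℝ} (hK : 0 ≤ K) (hg : ∀ i, g i ≤ K * g' i) :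
    Gau D s g' φ := by
  obtain ⟨C, hC, h⟩ := h
  refine ⟨C * K, mul_nonneg hC hK, fun i x μ hx => ?_⟩
  have h1 : C * g i ≤ C * K * g' i := by
    rw [mul_assoc]
    exact mul_le_mul_of_nonneg_left (hg i) hC
  refine ⟨((h i x μ hx).1).mono (mul_le_mul_of_nonneg_right h1 (D.r_pos i).le),
    fun y ν c hy hc => ?_⟩
  exact ((h i x μ hx).2 y ν c hy hc).mono (mul_le_mul_of_nonneg_right h1 (GA_dst_nonneg hc))

theorem Gau.level (h : Gau D s' g φ) (hs : s ≤ s') : Gau D s g φ := by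
  obtain ⟨C, hC, h⟩ := h
  exact ⟨C, hC, fun i x μ hx => ⟨((h i x μ hx).1).level hs,
    fun y ν c hy hc => ((h i x μ hx).2 y ν c hy hc).level hs⟩⟩

theorem Gau.congr (h : Gau D s g φ) (hφ : ∀ i x μ, D.mem i x μ → φ i x μ = ψ i x μ) :
    Gau D s g ψ := by
  obtain ⟨C, hC, h⟩ := h
  refine ⟨C, hC, fun i x μ hx => ⟨?_, fun y ν c hy hc => ?_⟩⟩
  · rw [← hφ i x μ hx]
    exact (h i x μ hx).1
  · rw [← hφ i x μ hx, ← hφ i y ν hy]
    exact (h i x μ hx).2 y ν c hy hc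

theorem Gau.neg (h : Gau D s g φ) : Gau D s g (fun i x μ => -φ i x μ) := by
  obtain ⟨C, hC, h⟩ := h
  refine ⟨C, hC, fun i x μ hx => ⟨((h i x μ hx).1).neg, fun y ν c hy hc => ?_⟩⟩
  have h1 := ((h i x μ hx).2 y ν c hy hc).neg
  have e : -φ i x μ - -φ i y ν = -(φ i x μ - φ i y ν) := by ring
  show Bd D.w s (-φ i x μ - -φ i y ν) _
  rw [e]
  exact h1

theorem Gau.add (h : Gau D s g φ) (h' : Gau D s g ψ) :
    Gau D s g (fun i x μ => φ i x μ + ψ i x μ) := by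
  obtain ⟨C, hC, h⟩ := h
  obtain ⟨C', hC', h'⟩ := h'
  refine ⟨C + C', add_nonneg hC hC', fun i x μ hx => ⟨?_, fun y ν c hy hc => ?_⟩⟩
  · exact (((h i x μ hx).1).add ((h' i x μ hx).1)).mono (le_of_eq (by ring))
  · have h1 := ((h i x μ hx).2 y ν c hy hc).add ((h' i x μ hx).2 y ν c hy hc)
    have e : φ i x μ + ψ i x μ - (φ i y ν + ψ i y ν) =
        (φ i x μ - φ i y ν) + (ψ i x μ - ψ i y ν) := by ring
    show Bd D.w s (φ i x μ + ψ i x μ - (φ i y ν + ψ i y ν)) _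
    rw [e]
    exact h1.mono (le_of_eq (by ring))

theorem Gau.sub (h : Gau D s g φ) (h' : Gau D s g ψ) :
    Gau D s g (fun i x μ => φ i x μ - ψ i x μ) := by
  have h1 := h.add h'.neg
  refine h1.congr fun i x μ _ => ?_
  show φ i x μ + -ψ i x μ = φ i x μ - ψ i x μ
  ring

theorem Gau.mul (h : Gau D s g φ) (h' : Gau D s g' ψ) :
    Gau D s (fun i => g i * g' i * D.r i) (fun i x μ => φ i x μ * ψ i x μ) := by
  obtain ⟨C, hC, h⟩ := h
  obtain ⟨C', hC', h'⟩ := h'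
  refine ⟨2 * (C * C'), by positivity, fun i x μ hx => ⟨?_, fun y ν c hy hc => ?_⟩⟩
  · have h1 := ((h i x μ hx).1).mul ((h' i x μ hx).1)
    refine h1.mono ?_
    have h2 := mul_nonneg ((h i x μ hx).1).nonneg ((h' i x μ hx).1).nonneg
    have e : 2 * (C * C') * (g i * g' i * D.r i) * D.r i =
        2 * (C * g i * D.r i * (C' * g' i * D.r i)) := by ring
    show C * g i * D.r i * (C' * g' i * D.r i) ≤ 2 * (C * C') * (g i * g' i * D.r i) * D.r i
    rw [e]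
    linarith
  · have h1 := ((h i x μ hx).2 y ν c hy hc).mul ((h' i x μ hx).1)
    have h2 := ((h i y ν hy).1).mul ((h' i x μ hx).2 y ν c hy hc)
    have e : φ i x μ * ψ i x μ - φ i y ν * ψ i y ν =
        (φ i x μ - φ i y ν) * ψ i x μ + φ i y ν * (ψ i x μ - ψ i y ν) := by ring
    show Bd D.w s (φ i x μ * ψ i x μ - φ i y ν * ψ i y ν) _
    rw [e]
    exact (h1.add h2).mono (le_of_eq (by ring))

theorem Gau.smul (h : Gau D s g φ) (t : ι → ℝ) :
    Gau D s (fun i => |t i| * g i) (fun i x μ => t i • φ i x μ) := by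
  obtain ⟨C, hC, h⟩ := h
  refine ⟨C, hC, fun i x μ hx => ⟨?_, fun y ν c hy hc => ?_⟩⟩
  · exact (((h i x μ hx).1).smul (t i)).mono (le_of_eq (by ring))
  · have h1 := ((h i x μ hx).2 y ν c hy hc).smul (t i)
    show Bd D.w s (t i • φ i x μ - t i • φ i y ν) _
    rw [← smul_sub]
    exact h1.mono (le_of_eq (by ring))

end P205T
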