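import Vale.Agent.Lib.P205T.GDefs

/-! # P205T module GA2: the gauge calculus, part 2 -/

open scoped ContDiff ENNReal
open Complex Set

namespace P205T

variable {ι : Type} {D : Fam ι} {s s' : ℕ} {g g' : ι → ℝ} {φ ψ : ι → (Fin D.k → PR) → ℝ → PR}

/-- functions independent of the point -/
theorem Gau.const (c : ι → PR) (σ : ι → ℝ) {C : ℝ} (hC : 0 ≤ C) (h : ∀ i, Bd D.w s (c i) (C * σ i)) :
    Gau D s (fun i => σ i / D.r i) (fun i _ _ => c i) := by
  refine ⟨C, hC, fun i x μ _ => ⟨?_, fun y ν c' _ hd => ?_⟩⟩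
  · have hr := (D.r_pos i).ne'
    have e : C * (σ i / D.r i) * D.r i = C * σ i := by field_simp
    rw [e]
    exact h i
  · have h1 := D.r_pos i
    have h2 : 0 ≤ C * σ i := (h i).nonneg
    have h3 : 0 ≤ c' := hd.1.1
    have e : C * (σ i / D.r i) * c' = C * σ i * (c' / D.r i) := by ring
    rw [sub_self, e]
    exact Bd.zero.mono (mul_nonneg h2 (div_nonneg h3 h1.le))

/-- functions depending on the parameter only -/
theorem Gau.coef (c : ι → ℝ → PR) (σ : ι → ℝ) {C : ℝ} (hC : 0 ≤ C)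
    (h : ∀ i μ, 0 ≤ μ → μ ≤ D.kap i → Bd D.w s (c i μ) (C * σ i) ∧
      ∀ ν, 0 ≤ ν → ν ≤ D.kap i → Bd D.w s (c i μ - c i ν) (C * σ i / D.kap i * |μ - ν|)) :
    Gau D s (fun i => σ i / D.r i) (fun i _ μ => c i μ) := by
  refine ⟨C, hC, fun i x μ hx => ⟨?_, fun y ν c' hy hd => ?_⟩⟩
  · have hr := (D.r_pos i).ne'
    have e : C * (σ i / D.r i) * D.r i = C * σ i := by field_simp
    rw [e]
    exact (h i μ hx.2.1 hx.2.2).1
  · have h1 := D.r_pos i
    have h4 := D.kap_pos i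
    have h2 : 0 ≤ C * σ i := (h i μ hx.2.1 hx.2.2).1.nonneg
    have h5 : D.r i / D.kap i * |μ - ν| ≤ c' := hd.2
    have e1 : C * (σ i / D.r i) * c' = C * σ i * (c' / D.r i) := by ring
    have e2 : C * σ i / D.kap i * |μ - ν| = C * σ i * (|μ - ν| / D.kap i) := by ring
    have h6 : |μ - ν| / D.kap i ≤ c' / D.r i := by
      rw [le_div_iff₀ h1]
      calc |μ - ν| / D.kap i * D.r i = D.r i / D.kap i * |μ - ν| := by ring
        _ ≤ c' := h5
    refine ((h i μ hx.2.1 hx.2.2).2 ν hy.2.1 hy.2.2).mono ?_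
    rw [e1, e2]
    exact mul_le_mul_of_nonneg_left h6 h2

/-- the coordinates -/
theorem Gau.proj (j : Fin D.k) (hs : s ≤ D.s0) : Gau D s (fun _ => 1) (fun _ x _ => x j) := by
  refine ⟨1, zero_le_one, fun i x μ hx => ⟨?_, fun y ν c' _ hd => ?_⟩⟩
  · rw [one_mul, one_mul]
    exact (hx.1.2 j).level hs
  · rw [one_mul, one_mul]
    exact (hd.1.2 j).level hs

theorem Gau.dv (h : Gau D (s + 1) g φ) (a : ι → ℝ × ℝ) {K : ℝ} (ha : ∀ i, ‖a i‖ ≤ K) :
    Gau D s g (fun i x μ => P205T.dv (a i) (φ i x μ)) := by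
  obtain ⟨C, hC, h⟩ := h
  have hpi := Real.pi_pos
  have key : ∀ (i : ι) (t : ℝ), 0 ≤ C * g i * t →
      2 * Real.pi * ‖a i‖ * (C * g i * t) ≤ 2 * Real.pi * max K 0 * C * g i * t := by
    intro i t ht
    have h1 : ‖a i‖ ≤ max K 0 := (ha i).trans (le_max_left _ _)
    calc 2 * Real.pi * ‖a i‖ * (C * g i * t) ≤ 2 * Real.pi * max K 0 * (C * g i * t) := by
          gcongr
      _ = 2 * Real.pi * max K 0 * C * g i * t := by ring
  refine ⟨2 * Real.pi * max K 0 * C, by positivity, fun i x μ hx => ⟨?_, fun y ν c' hy hd => ?_⟩⟩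
  · have h1 := (h i x μ hx).1
    exact (h1.dv (a i)).mono (key i _ h1.nonneg)
  · have h1 := (h i x μ hx).2 y ν c' hy hd
    rw [← map_sub]
    exact (h1.dv (a i)).mono (key i _ h1.nonneg)

theorem Gau.Op (h : Gau D s g φ) (m : ι → ℤ × ℤ → ℂ) (hm : ∀ i, IsSym (m i)) (K : ι → ℝ)
    (hK : ∀ i, 0 ≤ K i) (hmK : ∀ i n, ‖m i n‖ * (1 + nn n) ^ s' ≤ K i * (1 + nn n) ^ s) :
    Gau D s' (fun i => K i * g i) (fun i x μ => P205T.Op (m i) (φ i x μ)) := by
  obtain ⟨C, hC, h⟩ := h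
  refine ⟨C, hC, fun i x μ hx => ⟨?_, fun y ν c' hy hd => ?_⟩⟩
  · have h1 := Bd.Op (hm i) (hK i) (hmK i) (h i x μ hx).1
    have e : C * (K i * g i) * D.r i = K i * (C * g i * D.r i) := by ring
    rw [e]
    exact h1
  · have h1 := Bd.Op (hm i) (hK i) (hmK i) ((h i x μ hx).2 y ν c' hy hd)
    have e : C * (K i * g i) * c' = K i * (C * g i * c') := by ring
    rw [e, ← map_sub]
    exact h1

theorem Gau.P0 (h : Gau D s g φ) : Gau D s g (fun i x μ => P205T.P0 (φ i x μ)) := by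
  obtain ⟨C, hC, h⟩ := h
  refine ⟨C, hC, fun i x μ hx => ⟨(h i x μ hx).1.P0, fun y ν c' hy hd => ?_⟩⟩
  have e : P205T.P0 (φ i x μ) - P205T.P0 (φ i y ν) = P205T.P0 (φ i x μ - φ i y ν) := by
    apply cr_injective
    intro n
    rw [cr_sub, cr_P0, cr_P0, cr_P0, cr_sub]
    split_ifs <;> simp
  show Bd D.w s (P205T.P0 (φ i x μ) - P205T.P0 (φ i y ν)) (C * g i * c')
  rw [e]
  exact ((h i x μ hx).2 y ν c' hy hd).P0

end P205T
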