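import Vale.Agent.Lib.P205T.FrB
import Vale.Agent.Lib.P205T.GA
import Vale.Agent.Lib.P205T.GA2

/-! # P205T module FrG: gauge calculus for the multipliers of a frame -/

open scoped ContDiff ENNReal
open Complex Set

namespace P205T

variable {ι : Type} {D : Fam ι} {s : ℕ} {g : ι → ℝ} {φ : ι → (Fin D.k → PR) → ℝ → PR}
  {F : ι → Frame} {G : CMet} {C0 c1 : ℝ} {m : ℤ × ℤ}

/-- a family of linear operators with bounds -/
theorem FrG_lin {s' : ℕ} (L : ι → PR →ₗ[ℝ] PR) (A : ℝ) (hA : 0 ≤ A) (K : ι → ℝ)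
    (hL : ∀ i f B, Bd D.w s' f B → Bd D.w s (L i f) (A * K i * B))
    (h : Gau D s' g φ) : Gau D s (fun i => K i * g i) (fun i x μ => L i (φ i x μ)) := by
  obtain ⟨C, hC, h⟩ := h
  refine ⟨A * C, mul_nonneg hA hC, ?_⟩
  intro i x μ hx
  obtain ⟨h1, h2⟩ := h i x μ hx
  refine ⟨?_, ?_⟩
  · have h3 := hL i _ _ h1
    have e : A * C * (K i * g i) * D.r i = A * K i * (C * g i * D.r i) := by ring
    show Bd D.w s (L i (φ i x μ)) (A * C * (K i * g i) * D.r i)
    rw [e]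
    exact h3
  · intro y ν c hy hd
    have h3 := hL i _ _ (h2 y ν c hy hd)
    have e : A * C * (K i * g i) * c = A * K i * (C * g i * c) := by ring
    show Bd D.w s (L i (φ i x μ) - L i (φ i y ν)) (A * C * (K i * g i) * c)
    rw [e, ← map_sub]
    exact h3

/-- a family of linear operators with uniform bounds -/
theorem FrG_lin1 {s' : ℕ} (L : ι → PR →ₗ[ℝ] PR) (A : ℝ) (hA : 0 ≤ A)
    (hL : ∀ i f B, Bd D.w s' f B → Bd D.w s (L i f) (A * B))
    (h : Gau D s' g φ) : Gau D s g (fun i x μ => L i (φ i x μ)) := by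
  have h1 := FrG_lin (D := D) (s := s) (g := g) L A hA (fun _ => 1)
    (fun i f B hf => by rw [mul_one]; exact hL i f B hf) h
  simpa only [one_mul] using h1

theorem Gau.frd (hF : ∀ i, (F i).Good G C0 c1 m) (j : Fin 2) (h : Gau D (s + 1) g φ) :
    Gau D s g (fun i x μ => (F i).d j (φ i x μ)) := by
  rcases isEmpty_or_nonempty ι with hι | ⟨⟨i0⟩⟩
  · exact ⟨0, le_rfl, fun i => (hι.false i).elim⟩
  have hC0 : 0 ≤ C0 := le_trans zero_le_one (hF i0).C0_ge
  have hpi := Real.pi_pos.le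
  exact FrG_lin1 (fun i => (F i).d j) (2 * Real.pi * C0) (by positivity)
    (fun i f B hf => Frame.Bd_d (hF i) j hf) h

theorem Gau.frT (j k : Fin 2) (h : Gau D s g φ) :
    Gau D s g (fun i x μ => (F i).T j k (φ i x μ)) := by
  exact FrG_lin1 (fun i => (F i).T j k) 1 zero_le_one
    (fun i f B hf => by rw [one_mul]; exact Frame.Bd_T (F i) j k hf) h

theorem Gau.frdG0 (hF : ∀ i, (F i).Good G C0 c1 m) (j : Fin 2) (h : Gau D s g φ) :
    Gau D s g (fun i x μ => (F i).d j ((F i).G0 (φ i x μ))) := by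
  rcases isEmpty_or_nonempty ι with hι | ⟨⟨i0⟩⟩
  · exact ⟨0, le_rfl, fun i => (hι.false i).elim⟩
  have hC0 : 0 ≤ C0 := le_trans zero_le_one (hF i0).C0_ge
  exact FrG_lin1 (fun i => ((F i).d j).comp (F i).G0) C0 hC0
    (fun i f B hf => Frame.Bd_dG0 (hF i) j hf) h

theorem Gau.frG1 (hF : ∀ i, (F i).Good G C0 c1 m) (h : Gau D s g φ) :
    Gau D (s + 2) g (fun i x μ => (F i).G1 (φ i x μ)) := by
  rcases isEmpty_or_nonempty ι with hι | ⟨⟨i0⟩⟩
  · exact ⟨0, le_rfl, fun i => (hι.false i).elim⟩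
  have hC0 : 0 ≤ C0 := le_trans zero_le_one (hF i0).C0_ge
  exact FrG_lin1 (fun i => (F i).G1) (2 * C0) (by positivity)
    (fun i f B hf => Frame.Bd_G1 (hF i) hf) h

theorem Gau.frdCut (hF : ∀ i, (F i).Good G C0 c1 m) (j : Fin 2) (K : ι → ℝ) (hK : ∀ i, 0 ≤ K i)
    (h : Gau D s g φ) :
    Gau D s (fun i => K i * g i) (fun i x μ => (F i).d j (Cut (K i) (φ i x μ))) := by
  rcases isEmpty_or_nonempty ι with hι | ⟨⟨i0⟩⟩
  · exact ⟨0, le_rfl, fun i => (hι.false i).elim⟩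
  have hC0 : 0 ≤ C0 := le_trans zero_le_one (hF i0).C0_ge
  have hpi := Real.pi_pos.le
  exact FrG_lin (fun i => ((F i).d j).comp (Cut (K i))) (2 * Real.pi * C0) (by positivity) K
    (fun i f B hf => Frame.Bd_dCut (hF i) j (hK i) hf) h

end P205T
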