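import Vale.Agent.Lib.P205T.NE

/-! # P205T module Frame: frames and their Fourier multipliers: definitions -/

open scoped ContDiff ENNReal
open Complex Set

namespace P205T

/-- constant metrics on the plane -/
structure CMet where
  p : ℝ
  q : ℝ
  r : ℝ
  p_pos : 0 < p
  det_pos : 0 < p * r - q ^ 2

/-- the inner product of a constant metric -/
def CMet.ip (G : CMet) (u v : ℝ × ℝ) : ℝ :=
  G.p * (u.1 * v.1) + G.q * (u.1 * v.2 + u.2 * v.1) + G.r * (u.2 * v.2)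

/-- A frame `a 0, a 1`, dual to the covectors `2 π e M`, `2 π e N` with integer vectors `M, N`. -/
structure Frame where
  e : ℝ
  M : ℤ × ℤ
  N : ℤ × ℤ
  a : Fin 2 → ℝ × ℝ
  e_pos : 0 < e
  M0 : 2 * Real.pi * e * dotZ M (a 0) = 1
  M1 : dotZ M (a 1) = 0
  N0 : dotZ N (a 0) = 0
  N1 : 2 * Real.pi * e * dotZ N (a 1) = 1

namespace Frame

variable (F : Frame)

/-- the symbols of the frame derivatives (divided by `I`) -/
noncomputable def l (i : Fin 2) (n : ℤ × ℤ) : ℝ := 2 * Real.pi * dotZ n (F.a i)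

/-- minus the symbol of the Laplacian of the frame -/
noncomputable def lsq (n : ℤ × ℤ) : ℝ := F.l 0 n ^ 2 + F.l 1 n ^ 2

/-- frame derivatives -/
noncomputable def d (i : Fin 2) : PR →ₗ[ℝ] PR := dv (F.a i)

/-- symbol of `G0` -/
noncomputable def symG0 (n : ℤ × ℤ) : ℂ := if n = 0 then 0 else ((-(F.lsq n)⁻¹ : ℝ) : ℂ)

/-- symbol of `T i j` -/
noncomputable def symT (i j : Fin 2) (n : ℤ × ℤ) : ℂ :=
  if n = 0 then 0 else ((F.l i n * F.l j n / F.lsq n : ℝ) : ℂ)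

/-- symbol of `G1` -/
noncomputable def symG1 (n : ℤ × ℤ) : ℂ := ((-(1 + F.lsq n)⁻¹ : ℝ) : ℂ)

/-- inverse of the frame Laplacian on mean-free functions -/
noncomputable def G0 : PR →ₗ[ℝ] PR := Op F.symG0

/-- `T i j = d i ∘ d j ∘ G0` -/
noncomputable def T (i j : Fin 2) : PR →ₗ[ℝ] PR := Op (F.symT i j)

/-- inverse of the frame Laplacian minus one -/
noncomputable def G1 : PR →ₗ[ℝ] PR := Op F.symG1

/-- the frame components of a constant metric -/
def gam (G : CMet) (i j : Fin 2) : ℝ := G.ip (F.a i) (F.a j)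

/-- Uniform properties of good frames. -/
structure Good (G : CMet) (C0 c1 : ℝ) (m : ℤ × ℤ) : Prop where
  e_le : F.e ≤ 1
  C0_ge : 1 ≤ C0
  c1_pos : 0 < c1
  a_le : ∀ i, ‖F.a i‖ ≤ C0
  lsq_ge : ∀ n, nn n ^ 2 ≤ C0 * F.lsq n
  gam00 : |F.gam G 0 0 - 1| ≤ C0 * F.e
  gam11 : |F.gam G 1 1 - 1| ≤ C0 * F.e
  gam01_lo : c1 * F.e ≤ -F.gam G 0 1
  gam01_hi : -F.gam G 0 1 ≤ C0 * F.e
  m_lo : c1 ≤ F.l 0 m * F.l 1 m
  m_hi : F.lsq m ≤ C0

end Frame

/-- symbol of the frequency cutoff -/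
noncomputable def symCut (K : ℝ) (n : ℤ × ℤ) : ℂ :=
  open Classical in if nn n ≤ K then 1 else 0

/-- frequency cutoff -/
noncomputable def Cut (K : ℝ) : PR →ₗ[ℝ] PR := Op (symCut K)

end P205T
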