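import Vale.Agent.Lib.P205T.NF

/-! # P205T module GDefs: the gauge calculus: definitions -/

open scoped ContDiff ENNReal
open Complex Set

namespace P205T

/-- A family of domains `{(x, μ) | ‖x‖ ≤ r, 0 ≤ μ ≤ kap}` in `PR ^ k × ℝ`. -/
structure Fam (ι : Type) where
  w : Weight
  s0 : ℕ
  k : ℕ
  r : ι → ℝ
  kap : ι → ℝ
  r_pos : ∀ i, 0 < r i
  kap_pos : ∀ i, 0 < kap i

/-- membership in the domain -/
def Fam.mem {ι : Type} (D : Fam ι) (i : ι) (x : Fin D.k → PR) (μ : ℝ) : Prop :=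
  BdX D.w D.s0 x (D.r i) ∧ 0 ≤ μ ∧ μ ≤ D.kap i

/-- `c` bounds the distance of two points of the domain -/
def Fam.dst {ι : Type} (D : Fam ι) (i : ι) (x : Fin D.k → PR) (μ : ℝ) (y : Fin D.k → PR) (ν : ℝ)
    (c : ℝ) : Prop :=
  BdX D.w D.s0 (x - y) c ∧ D.r i / D.kap i * |μ - ν| ≤ c

/-- The map `φ` has gauge `g` at level `s`: size `O (g * r)` and Lipschitz constant `O (g)`. -/
def Gau {ι : Type} (D : Fam ι) (s : ℕ) (g : ι → ℝ) (φ : ι → (Fin D.k → PR) → ℝ → PR) : Prop :=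
  ∃ C : ℝ, 0 ≤ C ∧ ∀ i x μ, D.mem i x μ → Bd D.w s (φ i x μ) (C * g i * D.r i) ∧
    ∀ y ν c, D.mem i y ν → D.dst i x μ y ν c → Bd D.w s (φ i x μ - φ i y ν) (C * g i * c)

end P205T
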