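import Vale.Agent.Lib.P205T.FrA

/-! # P205T module Imm: twisted derivatives and the immersion -/

open scoped ContDiff ENNReal
open Complex Set

namespace P205T

/-- four functions -/
abbrev V4 := Fin 4 → PR

/-- the frame components of the first phase derivative -/
noncomputable def Frame.Ph (F : Frame) (p : PR) (i : Fin 2) : PR :=
  F.e⁻¹ • ((if i = 0 then 1 else 0) + F.d i p)

/-- the frame components of the second phase derivative -/
noncomputable def Frame.Ps (F : Frame) (q : PR) (i : Fin 2) : PR :=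
  F.e⁻¹ • ((if i = 1 then 1 else 0) + F.d i q)

/-- twisted derivative -/
noncomputable def Frame.D (F : Frame) (p q : PR) (i : Fin 2) (V : V4) : V4 :=
  ![F.d i (V 0) - F.Ph p i * V 1, F.d i (V 1) + F.Ph p i * V 0,
    F.d i (V 2) - F.Ps q i * V 3, F.d i (V 3) + F.Ps q i * V 2]

/-- the `PR`-valued inner product -/
noncomputable def ip4 (V W : V4) : PR := V 0 * W 0 + V 1 * W 1 + V 2 * W 2 + V 3 * W 3

/-- first phase -/
noncomputable def Frame.th1 (F : Frame) (p : PR) (x : ℝ × ℝ) : ℝ :=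
  2 * Real.pi * dotZ F.M x + F.e⁻¹ * p x

/-- second phase -/
noncomputable def Frame.th2 (F : Frame) (q : PR) (x : ℝ × ℝ) : ℝ :=
  2 * Real.pi * dotZ F.N x + F.e⁻¹ * q x

/-- the map into four-dimensional Euclidean space with phases `th1`, `th2` and amplitudes `V` -/
noncomputable def Frame.imm (F : Frame) (p q : PR) (V : V4) (x : ℝ × ℝ) :
    EuclideanSpace ℝ (Fin 4) :=
  !₂[Real.cos (F.th1 p x) * V 0 x - Real.sin (F.th1 p x) * V 1 x,
    Real.sin (F.th1 p x) * V 0 x + Real.cos (F.th1 p x) * V 1 x,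
    Real.cos (F.th2 q x) * V 2 x - Real.sin (F.th2 q x) * V 3 x,
    Real.sin (F.th2 q x) * V 2 x + Real.cos (F.th2 q x) * V 3 x]

private theorem Imm_phase_hasFDerivAt (M : ℤ × ℤ) (c : ℝ) (p : PR) (x : ℝ × ℝ) :
    HasFDerivAt (fun y : ℝ × ℝ => 2 * Real.pi * dotZ M y + c * p y)
      ((2 * Real.pi) • ((M.1 : ℝ) • ContinuousLinearMap.fst ℝ ℝ ℝ +
        (M.2 : ℝ) • ContinuousLinearMap.snd ℝ ℝ ℝ) + c • fderiv ℝ p x) x := by
  have h1 : HasFDerivAt (fun y : ℝ × ℝ => (M.1 : ℝ) * y.1)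
      ((M.1 : ℝ) • ContinuousLinearMap.fst ℝ ℝ ℝ) x :=
    (ContinuousLinearMap.fst ℝ ℝ ℝ).hasFDerivAt.const_mul (M.1 : ℝ)
  have h2 : HasFDerivAt (fun y : ℝ × ℝ => (M.2 : ℝ) * y.2)
      ((M.2 : ℝ) • ContinuousLinearMap.snd ℝ ℝ ℝ) x :=
    (ContinuousLinearMap.snd ℝ ℝ ℝ).hasFDerivAt.const_mul (M.2 : ℝ)
  have h3 : HasFDerivAt (p : ℝ × ℝ → ℝ) (fderiv ℝ p x) x :=
    ((PR.smooth p).differentiable (by simp) x).hasFDerivAt
  exact ((h1.add h2).const_mul (2 * Real.pi)).add (h3.const_mul c)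

private theorem Imm_phase_smooth (M : ℤ × ℤ) (c : ℝ) (p : PR) :
    ContDiff ℝ ∞ (fun y : ℝ × ℝ => 2 * Real.pi * dotZ M y + c * p y) := by
  have h1 : ContDiff ℝ ∞ (fun y : ℝ × ℝ => dotZ M y) := by
    unfold dotZ
    exact (contDiff_const.mul contDiff_fst).add (contDiff_const.mul contDiff_snd)
  exact (contDiff_const.mul h1).add (contDiff_const.mul (PR.smooth p))

private theorem Imm_phase_per (M : ℤ × ℤ) (c : ℝ) (p : PR) (x : ℝ × ℝ) (n : ℤ × ℤ) :
    2 * Real.pi * dotZ M (x + lat n) + c * p (x + lat n) =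
      (2 * Real.pi * dotZ M x + c * p x) + ((M.1 * n.1 + M.2 * n.2 : ℤ) : ℝ) * (2 * Real.pi) := by
  rw [PR.per p x n]
  unfold dotZ lat
  simp only [Prod.fst_add, Prod.snd_add]
  push_cast
  ring

private theorem Imm_cos_smooth {θ A B : ℝ × ℝ → ℝ} (hθ : ContDiff ℝ ∞ θ) (hA : ContDiff ℝ ∞ A)
    (hB : ContDiff ℝ ∞ B) :
    ContDiff ℝ ∞ (fun y => Real.cos (θ y) * A y - Real.sin (θ y) * B y) :=
  (hθ.cos.mul hA).sub (hθ.sin.mul hB)

private theorem Imm_sin_smooth {θ A B : ℝ × ℝ → ℝ} (hθ : ContDiff ℝ ∞ θ) (hA : ContDiff ℝ ∞ A)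
    (hB : ContDiff ℝ ∞ B) :
    ContDiff ℝ ∞ (fun y => Real.sin (θ y) * A y + Real.cos (θ y) * B y) :=
  (hθ.sin.mul hA).add (hθ.cos.mul hB)

private theorem Imm_cos_fderiv {θ A B : ℝ × ℝ → ℝ} (hθ : ContDiff ℝ ∞ θ) (hA : ContDiff ℝ ∞ A)
    (hB : ContDiff ℝ ∞ B) (x a : ℝ × ℝ) :
    fderiv ℝ (fun y => Real.cos (θ y) * A y - Real.sin (θ y) * B y) x a =
      Real.cos (θ x) * (fderiv ℝ A x a - fderiv ℝ θ x a * B x) -
        Real.sin (θ x) * (fderiv ℝ B x a + fderiv ℝ θ x a * A x) := by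
  have h1 := (hθ.differentiable (by simp) x).hasFDerivAt
  have h2 := (hA.differentiable (by simp) x).hasFDerivAt
  have h3 := (hB.differentiable (by simp) x).hasFDerivAt
  have h4 : HasFDerivAt (fun y => Real.cos (θ y) * A y - Real.sin (θ y) * B y) _ x :=
    (h1.cos.mul h2).sub (h1.sin.mul h3)
  rw [h4.fderiv]
  simp only [sub_apply, add_apply, smul_apply, smul_eq_mul]
  ring

private theorem Imm_sin_fderiv {θ A B : ℝ × ℝ → ℝ} (hθ : ContDiff ℝ ∞ θ) (hA : ContDiff ℝ ∞ A)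
    (hB : ContDiff ℝ ∞ B) (x a : ℝ × ℝ) :
    fderiv ℝ (fun y => Real.sin (θ y) * A y + Real.cos (θ y) * B y) x a =
      Real.sin (θ x) * (fderiv ℝ A x a - fderiv ℝ θ x a * B x) +
        Real.cos (θ x) * (fderiv ℝ B x a + fderiv ℝ θ x a * A x) := by
  have h1 := (hθ.differentiable (by simp) x).hasFDerivAt
  have h2 := (hA.differentiable (by simp) x).hasFDerivAt
  have h3 := (hB.differentiable (by simp) x).hasFDerivAt
  have h4 : HasFDerivAt (fun y => Real.sin (θ y) * A y + Real.cos (θ y) * B y) _ x :=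
    (h1.sin.mul h2).add (h1.cos.mul h3)
  rw [h4.fderiv]
  simp only [add_apply, smul_apply, smul_eq_mul]
  ring

private theorem Imm_th1_smooth (F : Frame) (p : PR) : ContDiff ℝ ∞ (F.th1 p) :=
  Imm_phase_smooth F.M F.e⁻¹ p

private theorem Imm_th2_smooth (F : Frame) (p : PR) : ContDiff ℝ ∞ (F.th2 p) :=
  Imm_phase_smooth F.N F.e⁻¹ p

private theorem Imm_th1_fderiv (F : Frame) (p : PR) (x : ℝ × ℝ) (i : Fin 2) :
    fderiv ℝ (F.th1 p) x (F.a i) = F.Ph p i x := by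
  have h : HasFDerivAt (F.th1 p) _ x := Imm_phase_hasFDerivAt F.M F.e⁻¹ p x
  rw [h.fderiv]
  have he := F.e_pos
  simp only [add_apply, smul_apply, smul_eq_mul, ContinuousLinearMap.coe_fst',
    ContinuousLinearMap.coe_snd', Frame.Ph, PR.smul_apply, PR.add_apply]
  have e1 : (F.d i p) x = fderiv ℝ p x (F.a i) := rfl
  rw [e1]
  fin_cases i
  · have h0 := F.M0
    unfold dotZ at h0
    simp only [Fin.zero_eta, Fin.isValue, ↓reduceIte, PR.one_apply]
    field_simp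
    linear_combination h0
  · have h0 := F.M1
    unfold dotZ at h0
    simp only [Fin.mk_one, Fin.isValue, one_ne_zero, ↓reduceIte, PR.zero_apply]
    rw [h0]
    ring

private theorem Imm_th2_fderiv (F : Frame) (p : PR) (x : ℝ × ℝ) (i : Fin 2) :
    fderiv ℝ (F.th2 p) x (F.a i) = F.Ps p i x := by
  have h : HasFDerivAt (F.th2 p) _ x := Imm_phase_hasFDerivAt F.N F.e⁻¹ p x
  rw [h.fderiv]
  have he := F.e_pos
  simp only [add_apply, smul_apply, smul_eq_mul, ContinuousLinearMap.coe_fst',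
    ContinuousLinearMap.coe_snd', Frame.Ps, PR.smul_apply, PR.add_apply]
  have e1 : (F.d i p) x = fderiv ℝ p x (F.a i) := rfl
  rw [e1]
  fin_cases i
  · have h0 := F.N0
    unfold dotZ at h0
    simp only [Fin.zero_eta, Fin.isValue, zero_ne_one, ↓reduceIte, PR.zero_apply]
    rw [h0]
    ring
  · have h0 := F.N1
    unfold dotZ at h0
    simp only [Fin.mk_one, Fin.isValue, ↓reduceIte, PR.one_apply]
    field_simp
    linear_combination h0

theorem imm_smooth (F : Frame) (p q : PR) (V : V4) : ContDiff ℝ ∞ (F.imm p q V) := by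
  rw [contDiff_euclidean]
  intro i
  fin_cases i
  · exact Imm_cos_smooth (Imm_th1_smooth F p) (PR.smooth (V 0)) (PR.smooth (V 1))
  · exact Imm_sin_smooth (Imm_th1_smooth F p) (PR.smooth (V 0)) (PR.smooth (V 1))
  · exact Imm_cos_smooth (Imm_th2_smooth F q) (PR.smooth (V 2)) (PR.smooth (V 3))
  · exact Imm_sin_smooth (Imm_th2_smooth F q) (PR.smooth (V 2)) (PR.smooth (V 3))

theorem imm_per (F : Frame) (p q : PR) (V : V4) : IsPer (F.imm p q V) := by
  intro x n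
  have h1 : F.th1 p (x + lat n) = F.th1 p x + ((F.M.1 * n.1 + F.M.2 * n.2 : ℤ) : ℝ) *
      (2 * Real.pi) := Imm_phase_per F.M F.e⁻¹ p x n
  have h2 : F.th2 q (x + lat n) = F.th2 q x + ((F.N.1 * n.1 + F.N.2 * n.2 : ℤ) : ℝ) *
      (2 * Real.pi) := Imm_phase_per F.N F.e⁻¹ q x n
  unfold Frame.imm
  rw [h1, h2, Real.cos_add_int_mul_two_pi, Real.sin_add_int_mul_two_pi,
    Real.cos_add_int_mul_two_pi, Real.sin_add_int_mul_two_pi,
    PR.per (V 0) x n, PR.per (V 1) x n, PR.per (V 2) x n, PR.per (V 3) x n]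

private theorem Imm_comp (F : Frame) (p q : PR) (V : V4) (x a : ℝ × ℝ) (k : Fin 4) :
    (fderiv ℝ (F.imm p q V) x a) k = fderiv ℝ (fun y => F.imm p q V y k) x a := by
  have h := ((imm_smooth F p q V).differentiable (by simp) x).hasFDerivAt
  have h2 : HasFDerivAt (fun y => F.imm p q V y k)
      ((EuclideanSpace.proj k : EuclideanSpace ℝ (Fin 4) →L[ℝ] ℝ).comp
        (fderiv ℝ (F.imm p q V) x)) x :=
    ((EuclideanSpace.proj k : EuclideanSpace ℝ (Fin 4) →L[ℝ] ℝ).hasFDerivAt).comp x h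
  rw [h2.fderiv]
  rfl

open scoped RealInnerProductSpace in
theorem imm_metric (F : Frame) (p q : PR) (V : V4) (x : ℝ × ℝ) (i j : Fin 2) :
    ⟪fderiv ℝ (F.imm p q V) x (F.a i), fderiv ℝ (F.imm p q V) x (F.a j)⟫ =
      ip4 (F.D p q i V) (F.D p q j V) x := by
  have c0 : ∀ i, (fderiv ℝ (F.imm p q V) x (F.a i)) 0 =
      Real.cos (F.th1 p x) * F.D p q i V 0 x - Real.sin (F.th1 p x) * F.D p q i V 1 x := by
    intro i
    rw [Imm_comp]
    refine (Imm_cos_fderiv (Imm_th1_smooth F p) (PR.smooth (V 0)) (PR.smooth (V 1)) x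
      (F.a i)).trans ?_
    rw [Imm_th1_fderiv]
    rfl
  have c1 : ∀ i, (fderiv ℝ (F.imm p q V) x (F.a i)) 1 =
      Real.sin (F.th1 p x) * F.D p q i V 0 x + Real.cos (F.th1 p x) * F.D p q i V 1 x := by
    intro i
    rw [Imm_comp]
    refine (Imm_sin_fderiv (Imm_th1_smooth F p) (PR.smooth (V 0)) (PR.smooth (V 1)) x
      (F.a i)).trans ?_
    rw [Imm_th1_fderiv]
    rfl
  have c2 : ∀ i, (fderiv ℝ (F.imm p q V) x (F.a i)) 2 =
      Real.cos (F.th2 q x) * F.D p q i V 2 x - Real.sin (F.th2 q x) * F.D p q i V 3 x := by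
    intro i
    rw [Imm_comp]
    refine (Imm_cos_fderiv (Imm_th2_smooth F q) (PR.smooth (V 2)) (PR.smooth (V 3)) x
      (F.a i)).trans ?_
    rw [Imm_th2_fderiv]
    rfl
  have c3 : ∀ i, (fderiv ℝ (F.imm p q V) x (F.a i)) 3 =
      Real.sin (F.th2 q x) * F.D p q i V 2 x + Real.cos (F.th2 q x) * F.D p q i V 3 x := by
    intro i
    rw [Imm_comp]
    refine (Imm_sin_fderiv (Imm_th2_smooth F q) (PR.smooth (V 2)) (PR.smooth (V 3)) x
      (F.a i)).trans ?_
    rw [Imm_th2_fderiv]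
    rfl
  rw [PiLp.inner_apply, Fin.sum_univ_four, c0, c1, c2, c3, c0, c1, c2, c3]
  simp only [ip4, PR.add_apply, PR.mul_apply, RCLike.inner_apply, conj_trivial]
  have s1 := Real.sin_sq_add_cos_sq (F.th1 p x)
  have s2 := Real.sin_sq_add_cos_sq (F.th2 q x)
  linear_combination (F.D p q i V 0 x * F.D p q j V 0 x + F.D p q i V 1 x * F.D p q j V 1 x) * s1 +
    (F.D p q i V 2 x * F.D p q j V 2 x + F.D p q i V 3 x * F.D p q j V 3 x) * s2

end P205T
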