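import Vale.Agent.Lib.P205T.NA

/-! # P205T module ND: existence of adapted weights -/

open scoped ContDiff ENNReal
open Complex Set

namespace P205T

open scoped Nat

/-- a decreasing sequence in `(0, 1]` below `t` -/
noncomputable def ND_d (t : ℕ → ℝ) : ℕ → ℝ
  | 0 => min 1 (t 1)
  | n + 1 => min (ND_d t n) (t (n + 2))

theorem ND_d_pos {t : ℕ → ℝ} (ht : ∀ k, 0 < t k) (n : ℕ) : 0 < ND_d t n := by
  induction n with
  | zero => exact lt_min one_pos (ht 1)
  | succ n ih => exact lt_min ih (ht (n + 2))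

theorem ND_d_anti (t : ℕ → ℝ) : Antitone (ND_d t) :=
  antitone_nat_of_succ_le fun _ => min_le_left _ _

theorem ND_d_le_one (t : ℕ → ℝ) (n : ℕ) : ND_d t n ≤ 1 :=
  (ND_d_anti t (Nat.zero_le n)).trans (min_le_left _ _)

theorem ND_d_le (t : ℕ → ℝ) (n : ℕ) : ND_d t n ≤ t (n + 1) := by
  cases n with
  | zero => exact min_le_right _ _
  | succ n => exact min_le_right _ _

/-- the coefficients of the weight -/
theorem ND_exists_b (t : ℕ → ℝ) (ht : ∀ k, 0 < t k) : ∃ b : ℕ → ℝ, b 0 = 1 ∧ (∀ k, 0 < b k) ∧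
    (∀ k, b k ≤ 1) ∧ (∀ i j, b (i + j) ≤ b i * b j) ∧ ∀ k, b (k + 1) ≤ t (k + 1) := by
  have h1 : ∀ k, 0 ≤ ∏ i ∈ Finset.range k, ND_d t i := fun k =>
    Finset.prod_nonneg fun i _ => (ND_d_pos ht i).le
  have h2 : ∀ k, ∏ i ∈ Finset.range k, ND_d t i ≤ 1 := fun k =>
    Finset.prod_le_one (fun i _ => (ND_d_pos ht i).le) fun i _ => ND_d_le_one t i
  refine ⟨fun k => ∏ i ∈ Finset.range k, ND_d t i, ?_, ?_, h2, ?_, ?_⟩
  · simp
  · intro k
    exact Finset.prod_pos fun i _ => ND_d_pos ht i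
  · intro i j
    show ∏ l ∈ Finset.range (i + j), ND_d t l ≤ _
    rw [Finset.prod_range_add]
    refine mul_le_mul_of_nonneg_left ?_ (h1 i)
    exact Finset.prod_le_prod (fun l _ => (ND_d_pos ht _).le) fun l _ =>
      ND_d_anti t (Nat.le_add_left l i)
  · intro k
    show ∏ l ∈ Finset.range (k + 1), ND_d t l ≤ _
    rw [Finset.prod_range_succ]
    calc (∏ l ∈ Finset.range k, ND_d t l) * ND_d t k ≤ 1 * ND_d t k :=
          mul_le_mul_of_nonneg_right (h2 k) (ND_d_pos ht k).le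
      _ ≤ t (k + 1) := by rw [one_mul]; exact ND_d_le t k

/-- the generating function of the weight -/
noncomputable def ND_W (b : ℕ → ℝ) (x : ℝ) : ℝ := ∑' k : ℕ, b k * (x ^ k / k !)

theorem ND_summable {b : ℕ → ℝ} (h0 : ∀ k, 0 < b k) (h1 : ∀ k, b k ≤ 1) {x : ℝ} (hx : 0 ≤ x) :
    Summable fun k : ℕ => b k * (x ^ k / k !) := by
  refine Summable.of_nonneg_of_le (fun k => ?_) (fun k => ?_) (Real.summable_pow_div_factorial x)
  · have := h0 k
    positivity
  · have h2 : 0 ≤ x ^ k / (k ! : ℝ) := by positivity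
    exact mul_le_of_le_one_left h2 (h1 k)

theorem ND_le_W {b : ℕ → ℝ} (h0 : ∀ k, 0 < b k) (h1 : ∀ k, b k ≤ 1) {x : ℝ} (hx : 0 ≤ x) (k : ℕ) :
    b k * (x ^ k / k !) ≤ ND_W b x := by
  refine (ND_summable h0 h1 hx).le_tsum k fun j _ => ?_
  have := h0 j
  positivity

theorem ND_W_mono {b : ℕ → ℝ} (h0 : ∀ k, 0 < b k) (h1 : ∀ k, b k ≤ 1) {x y : ℝ} (hx : 0 ≤ x)
    (hxy : x ≤ y) : ND_W b x ≤ ND_W b y := by
  refine (ND_summable h0 h1 hx).tsum_le_tsum (fun k => ?_) (ND_summable h0 h1 (hx.trans hxy))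
  have := (h0 k).le
  gcongr

theorem ND_W_add {b : ℕ → ℝ} (h0 : ∀ k, 0 < b k) (h1 : ∀ k, b k ≤ 1)
    (h2 : ∀ i j, b (i + j) ≤ b i * b j) {x y : ℝ} (hx : 0 ≤ x)
    (hy : 0 ≤ y) : ND_W b (x + y) ≤ ND_W b x * ND_W b y := by
  have hsx := ND_summable h0 h1 hx
  have hsy := ND_summable h0 h1 hy
  have hnx : Summable fun k : ℕ => ‖b k * (x ^ k / k !)‖ := hsx.norm
  have hny : Summable fun k : ℕ => ‖b k * (y ^ k / k !)‖ := hsy.norm
  unfold ND_W
  rw [tsum_mul_tsum_eq_tsum_sum_antidiagonal_of_summable_norm hnx hny]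
  refine (ND_summable h0 h1 (add_nonneg hx hy)).tsum_le_tsum (fun k => ?_)
    (summable_norm_sum_mul_antidiagonal_of_summable_norm hnx hny).of_norm
  have e : (x + y) ^ k / (k ! : ℝ) = ∑ ij ∈ Finset.HasAntidiagonal.antidiagonal k,
      (x ^ ij.1 / ij.1 !) * (y ^ ij.2 / ij.2 !) := by
    rw [(Commute.all x y).add_pow', Finset.sum_div]
    refine Finset.sum_congr rfl fun ij hij => ?_
    rw [Finset.HasAntidiagonal.mem_antidiagonal] at hij
    rw [← hij, nsmul_eq_mul, Nat.cast_add_choose]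
    have h3 : (ij.1 ! : ℝ) ≠ 0 := by positivity
    have h4 : (ij.2 ! : ℝ) ≠ 0 := by positivity
    have h5 : ((ij.1 + ij.2)! : ℝ) ≠ 0 := by positivity
    field_simp
  rw [e, Finset.mul_sum]
  refine Finset.sum_le_sum fun ij hij => ?_
  rw [Finset.HasAntidiagonal.mem_antidiagonal] at hij
  have h3 := h2 ij.1 ij.2
  rw [hij] at h3
  have h4 : 0 ≤ (x ^ ij.1 / (ij.1 ! : ℝ)) * (y ^ ij.2 / (ij.2 ! : ℝ)) := by positivity
  calc b k * ((x ^ ij.1 / (ij.1 ! : ℝ)) * (y ^ ij.2 / (ij.2 ! : ℝ)))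
      ≤ (b ij.1 * b ij.2) * ((x ^ ij.1 / (ij.1 ! : ℝ)) * (y ^ ij.2 / (ij.2 ! : ℝ))) :=
        mul_le_mul_of_nonneg_right h3 h4
    _ = _ := by ring

/-- the weight of a submultiplicative coefficient sequence -/
noncomputable def ND_weight (b : ℕ → ℝ) (hb : b 0 = 1) (h0 : ∀ k, 0 < b k) (h1 : ∀ k, b k ≤ 1)
    (h2 : ∀ i j, b (i + j) ≤ b i * b j) : Weight where
  w n := ND_W b (nn n)
  one_le n := by
    have h := ND_le_W h0 h1 (nn_nonneg n) 0
    rw [hb] at h
    simpa using h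
  zero := by
    rw [nn_zero]
    unfold ND_W
    rw [tsum_eq_single 0 (fun k hk => by rw [zero_pow hk]; simp), hb]
    simp
  neg n := by rw [nn_neg]
  submul m n := (ND_W_mono h0 h1 (nn_nonneg _) (nn_add m n)).trans
    (ND_W_add h0 h1 h2 (nn_nonneg m) (nn_nonneg n))
  super s := by
    refine ⟨∑ k ∈ Finset.range (s + 1), (s.choose k : ℝ) * (k ! / b k), fun n => ?_⟩
    rw [add_comm 1 (nn n), add_pow, Finset.sum_mul]
    refine Finset.sum_le_sum fun k _ => ?_
    rw [one_pow, mul_one]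
    have h3 := ND_le_W h0 h1 (nn_nonneg n) k
    have h4 := h0 k
    have h5 : (0 : ℝ) < k ! := by positivity
    have h6 : (nn n) ^ k = (k ! / b k) * (b k * ((nn n) ^ k / k !)) := by
      field_simp
    rw [h6, mul_comm _ (s.choose k : ℝ), mul_assoc]
    have h7 : 0 ≤ (k ! : ℝ) / b k := by positivity
    exact mul_le_mul_of_nonneg_left (mul_le_mul_of_nonneg_left h3 h7) (Nat.cast_nonneg _)

/-- Choose `b 0 = 1`, `b k = min 1 (min_{1 ≤ j < k} b j * b (k - j)) ∧ 2 ^ (-k) * k ! / C k` with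
`C k = 1 + ∑ i, ∑ n, ‖cr (f i) n‖ * (1 + nn n) ^ (S + k)` and
`w n = ∑ k, b k * (nn n) ^ k / k !`. -/
theorem exists_weight {k : ℕ} (f : Fin k → PR) (S : ℕ) : ∃ w : Weight, ∀ i, Nm w S (f i) ≠ ⊤ := by
  set c : Fin k → ℕ → ℝ := fun i l => ∑' n, ‖cr (f i) n‖ * (1 + nn n) ^ (S + l) with hc
  have hc0 : ∀ i l, 0 ≤ c i l := fun i l => tsum_nonneg fun n => by
    have := nn_nonneg n
    positivity
  set C : ℕ → ℝ := fun l => 1 + ∑ i, c i l with hC
  have hC0 : ∀ l, 0 < C l := fun l => by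
    have : 0 ≤ ∑ i, c i l := Finset.sum_nonneg fun i _ => hc0 i l
    simp only [hC]
    linarith
  have hcC : ∀ i l, c i l ≤ C l := fun i l => by
    have h1 : c i l ≤ ∑ i, c i l :=
      Finset.single_le_sum (f := fun i => c i l) (fun j _ => hc0 j l) (Finset.mem_univ i)
    simp only [hC]
    linarith
  obtain ⟨b, hb, h0, h1, h2, h3⟩ := ND_exists_b (fun l => (1 / 2) ^ l * l ! / C l) (fun l => by
    have := hC0 l
    positivity)
  refine ⟨ND_weight b hb h0 h1 h2, fun i => ?_⟩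
  have hg : Summable fun l : ℕ => b l / l ! * c i l := by
    refine Summable.of_nonneg_of_le (fun l => ?_) (fun l => ?_)
      (summable_geometric_two.mul_left (C 0))
    · have := hc0 i l
      have := h0 l
      positivity
    · cases l with
      | zero =>
        rw [hb]
        simpa using hcC i 0
      | succ l =>
        have h4 := h3 l
        have h5 : (0 : ℝ) < (l + 1)! := by positivity
        have h6 := hC0 (l + 1)
        have h7 : b (l + 1) / (l + 1)! * c i (l + 1) ≤ (1 / 2) ^ (l + 1) := by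
          calc b (l + 1) / (l + 1)! * c i (l + 1)
              ≤ ((1 / 2) ^ (l + 1) * (l + 1)! / C (l + 1)) / (l + 1)! * C (l + 1) := by
                gcongr
                · exact hc0 i _
                · exact hcC i _
            _ = (1 / 2) ^ (l + 1) := by field_simp
        have h8 : 1 ≤ C 0 := by
          have : 0 ≤ ∑ i, c i 0 := Finset.sum_nonneg fun i _ => hc0 i 0
          simp only [hC]
          linarith
        have h9 : (0 : ℝ) ≤ (1 / 2) ^ (l + 1) := by positivity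
        nlinarith
  have hle : Nm (ND_weight b hb h0 h1 h2) S (f i) ≤ ∑' l : ℕ, ENNReal.ofReal (b l / l ! * c i l) := by
    unfold Nm
    calc ∑' n, ENNReal.ofReal (ND_W b (nn n) * (1 + nn n) ^ S * ‖cr (f i) n‖)
        = ∑' n, ∑' l : ℕ, ENNReal.ofReal (b l * ((nn n) ^ l / l !) * (1 + nn n) ^ S *
            ‖cr (f i) n‖) := by
          refine tsum_congr fun n => ?_
          have hn := nn_nonneg n
          have hs := ND_summable h0 h1 hn
          unfold ND_W
          rw [← tsum_mul_right, ← tsum_mul_right, ENNReal.ofReal_tsum_of_nonneg]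
          · intro l
            have := h0 l
            positivity
          · exact (hs.mul_right _).mul_right _
      _ = ∑' l : ℕ, ∑' n, ENNReal.ofReal (b l * ((nn n) ^ l / l !) * (1 + nn n) ^ S *
            ‖cr (f i) n‖) := ENNReal.tsum_comm
      _ ≤ ∑' l : ℕ, ENNReal.ofReal (b l / l ! * c i l) := by
          refine ENNReal.tsum_le_tsum fun l => ?_
          have h4 := h0 l
          have hs := (summable_cr (f i) (S + l)).mul_left (b l / l !)
          simp only [hc]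
          rw [← tsum_mul_left, ENNReal.ofReal_tsum_of_nonneg _ hs]
          · refine ENNReal.tsum_le_tsum fun n => ENNReal.ofReal_le_ofReal ?_
            have hn := nn_nonneg n
            have h5 : (nn n) ^ l ≤ (1 + nn n) ^ l := by gcongr; linarith
            calc b l * ((nn n) ^ l / l !) * (1 + nn n) ^ S * ‖cr (f i) n‖
                ≤ b l * ((1 + nn n) ^ l / l !) * (1 + nn n) ^ S * ‖cr (f i) n‖ := by gcongr
              _ = b l / l ! * (‖cr (f i) n‖ * (1 + nn n) ^ (S + l)) := by rw [pow_add]; ring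
          · intro n
            have hn := nn_nonneg n
            positivity
  exact ne_top_of_le_ne_top hg.tsum_ofReal_ne_top hle

end P205T
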