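import Vale.Agent.Lib.P205T.Stage2
import Vale.Agent.Lib.P205T.FrC
import Vale.Agent.Lib.P205T.ND

/-! # P205T module ThmC: metrics conformal to constant metrics -/

open scoped ContDiff ENNReal
open Complex Set

namespace P205T

/-- every vector is a combination of the frame vectors -/
private theorem thmC_basis (F : Frame) (u : ℝ × ℝ) : ∃ c d : ℝ, u = c • F.a 0 + d • F.a 1 := by
  have h1 := F.M0
  have h2 := F.M1
  have h3 := F.N0
  have h4 := F.N1
  unfold dotZ at h1 h2 h3 h4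
  set α : ℝ := 2 * Real.pi * F.e with hα
  have hAB : (!![α * F.M.1, α * F.M.2; α * F.N.1, α * F.N.2] : Matrix (Fin 2) (Fin 2) ℝ) *
      !![(F.a 0).1, (F.a 1).1; (F.a 0).2, (F.a 1).2] = 1 := by
    rw [Matrix.mul_fin_two, Matrix.one_fin_two]
    have e1 : α * (F.M.1 : ℝ) * (F.a 0).1 + α * F.M.2 * (F.a 0).2 = 1 := by
      rw [← h1]; ring
    have e2 : α * (F.M.1 : ℝ) * (F.a 1).1 + α * F.M.2 * (F.a 1).2 = 0 := by
      have : α * ((F.M.1 : ℝ) * (F.a 1).1 + F.M.2 * (F.a 1).2) = 0 := by rw [h2, mul_zero]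
      linarith
    have e3 : α * (F.N.1 : ℝ) * (F.a 0).1 + α * F.N.2 * (F.a 0).2 = 0 := by
      have : α * ((F.N.1 : ℝ) * (F.a 0).1 + F.N.2 * (F.a 0).2) = 0 := by rw [h3, mul_zero]
      linarith
    have e4 : α * (F.N.1 : ℝ) * (F.a 1).1 + α * F.N.2 * (F.a 1).2 = 1 := by
      rw [← h4]; ring
    rw [e1, e2, e3, e4]
  have hBA := mul_eq_one_comm.mp hAB
  rw [Matrix.mul_fin_two, Matrix.one_fin_two] at hBA
  have f1 := congrFun (congrFun hBA 0) 0
  have f2 := congrFun (congrFun hBA 0) 1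
  have f3 := congrFun (congrFun hBA 1) 0
  have f4 := congrFun (congrFun hBA 1) 1
  simp only [Matrix.of_apply, Matrix.cons_val', Matrix.cons_val_zero, Matrix.cons_val_one,
    Matrix.cons_val_fin_one] at f1 f2 f3 f4
  refine ⟨α * (F.M.1 * u.1 + F.M.2 * u.2), α * (F.N.1 * u.1 + F.N.2 * u.2), Prod.ext ?_ ?_⟩
  · show u.1 = α * (F.M.1 * u.1 + F.M.2 * u.2) * (F.a 0).1 +
      α * (F.N.1 * u.1 + F.N.2 * u.2) * (F.a 1).1
    linear_combination (-u.1) * f1 + (-u.2) * f2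
  · show u.2 = α * (F.M.1 * u.1 + F.M.2 * u.2) * (F.a 0).2 +
      α * (F.N.1 * u.1 + F.N.2 * u.2) * (F.a 1).2
    linear_combination (-u.1) * f3 + (-u.2) * f4

open scoped RealInnerProductSpace in
private theorem thmC_bilin (F : Frame) (G : CMet) (k : ℝ)
    (L : ℝ × ℝ →L[ℝ] EuclideanSpace ℝ (Fin 4))
    (hL : ∀ i j : Fin 2, ⟪L (F.a i), L (F.a j)⟫ = k * G.ip (F.a i) (F.a j)) (u v : ℝ × ℝ) :
    ⟪L u, L v⟫ = k * G.ip u v := by
  obtain ⟨c, d, rfl⟩ := thmC_basis F u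
  obtain ⟨c', d', rfl⟩ := thmC_basis F v
  rw [map_add, map_add, map_smul, map_smul, map_smul, map_smul, inner_add_left, inner_add_right,
    inner_add_right, real_inner_smul_left, real_inner_smul_left, real_inner_smul_left,
    real_inner_smul_left, real_inner_smul_right, real_inner_smul_right, real_inner_smul_right,
    real_inner_smul_right, hL 0 0, hL 0 1, hL 1 0, hL 1 1]
  simp only [CMet.ip, Prod.fst_add, Prod.snd_add, Prod.smul_fst, Prod.smul_snd, smul_eq_mul]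
  ring

open scoped RealInnerProductSpace in
/-- Theorem C: metrics conformal to constant metrics (weight from `exists_weight` for
`![rho, 1 / rho]`, `exists_frames`, `stage1`, `stage2`, intermediate value theorem, `imm_metric`;
every vector is a combination of `F.a 0`, `F.a 1`). -/
theorem thmC (G : CMet) (rho : PR) (hpos : ∀ x, 0 < rho x) :
    ∃ Fm : ℝ × ℝ → EuclideanSpace ℝ (Fin 4), ContDiff ℝ ∞ Fm ∧ IsPer Fm ∧
      ∀ x u v, ⟪fderiv ℝ Fm x u, fderiv ℝ Fm x v⟫ = rho x ^ 2 * G.ip u v := by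
  set rhoi : PR := ⟨fun x => (rho x)⁻¹, (PR.smooth rho).inv fun x => (hpos x).ne',
    fun x n => by simp only [PR.per rho x n]⟩ with hrhoi'
  have hr : rho * rhoi = 1 := by
    ext x
    show rho x * (rho x)⁻¹ = 1
    exact mul_inv_cancel₀ (hpos x).ne'
  obtain ⟨w, hw⟩ := exists_weight ![rho, rhoi] 14
  have hrho : Nm w 14 rho ≠ ⊤ := hw 0
  have hrhoi : Nm w 14 rhoi ≠ ⊤ := hw 1
  obtain ⟨C0, c1, e0, m, he0, hfr⟩ := exists_frames G
  obtain ⟨F0, -, hF0⟩ := hfr e0 he0 le_rfl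
  obtain ⟨C3, C, c, e1, h3, hC, hc, he1, H⟩ :=
    stage1 G rho rhoi hr C0 c1 m w hF0.C0_ge hF0.c1_pos hrho hrhoi
  obtain ⟨e2, he2, H2⟩ := stage2 G rho rhoi hr C0 c1 m w hrho hrhoi C3 C c e1 h3 hC hc he1 H
  obtain ⟨F, hFe, hF⟩ := hfr (min e0 e2) (lt_min he0 he2) (min_le_left _ _)
  obtain ⟨p, q, V, t, htc, ht0, htk, hmet⟩ := H2 F hF (hFe.le.trans (min_le_right _ _))
  have hk : (0 : ℝ) ≤ F.kap C3 := Real.sqrt_nonneg _
  obtain ⟨μ, hμ, hμ0⟩ := intermediate_value_Icc' hk htc ⟨htk.le, ht0.le⟩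
  refine ⟨F.imm (p μ) (q μ) (V μ), imm_smooth F _ _ _, imm_per F _ _ _, fun x u v => ?_⟩
  refine thmC_bilin F G (rho x ^ 2) (fderiv ℝ (F.imm (p μ) (q μ) (V μ)) x) (fun i j => ?_) u v
  rw [imm_metric, hmet μ hμ i j, hμ0, zero_mul, zero_smul, add_zero]
  show F.gam G i j * ((rho ^ 2 : PR) : ℝ × ℝ → ℝ) x = rho x ^ 2 * G.ip (F.a i) (F.a j)
  rw [mul_comm]
  rfl

end P205T
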