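import Vale.Agent.Lib.P205T.UK
import Vale.Agent.Lib.P205T.ThmC

/-! # P205T module Main: isometric immersions of tori -/

open scoped ContDiff ENNReal
open Complex Set

namespace P205T

/-- every smooth periodic metric on the plane is induced by a smooth periodic map into
four-dimensional Euclidean space -/
theorem torus_immersion (g : PMet) : ∃ Fm : ℝ × ℝ → EuclideanSpace ℝ (Fin 4),
    ContDiff ℝ ∞ Fm ∧ IsPer Fm ∧ ∀ x v, ‖fderiv ℝ Fm x v‖ ^ 2 = g.q x v := by
  obtain ⟨Y, Z, G, rho, hY, hZ, hZY, hYZ, hper, hpos, hg⟩ := uniformization g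
  obtain ⟨F, hF, hFp, hFm⟩ := thmC G rho hpos
  refine ⟨F ∘ Y, hF.comp hY, fun x n => ?_, fun x v => ?_⟩
  · simp only [Function.comp_apply]
    rw [hper, hFp]
  · rw [fderiv_comp x (hF.differentiable (by simp) _) (hY.differentiable (by simp) _), hg x v,
      ← hFm]
    simp only [ContinuousLinearMap.comp_apply]
    rw [real_inner_self_eq_norm_sq]

end P205T
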