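import Vale.Agent.Lib.P205T.FM

/-! # P205T module NA: the weighted Wiener norms -/

open scoped ContDiff ENNReal
open Complex Set

namespace P205T

variable (w : Weight) (s : ℕ)

private theorem na_w_pos (w : Weight) (n : ℤ × ℤ) : 0 < w.w n := lt_of_lt_of_le one_pos (w.one_le n)

private theorem na_coef_nonneg (w : Weight) (s : ℕ) (n : ℤ × ℤ) : 0 ≤ w.w n * (1 + nn n) ^ s := by
  have h1 := na_w_pos w n
  have h2 := nn_nonneg n
  positivity

private theorem na_coef_pos (w : Weight) (s : ℕ) (n : ℤ × ℤ) : 0 < w.w n * (1 + nn n) ^ s := by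
  have h1 := na_w_pos w n
  have h2 := nn_nonneg n
  positivity

private theorem na_one_le_coef (w : Weight) (s : ℕ) (n : ℤ × ℤ) : 1 ≤ w.w n * (1 + nn n) ^ s := by
  have h1 := w.one_le n
  have h2 : 1 ≤ (1 + nn n) ^ s := one_le_pow₀ (by linarith [nn_nonneg n])
  nlinarith

private theorem na_cr_zero (n : ℤ × ℤ) : cr 0 n = 0 := by
  have h := cr_smul 0 0 n
  rw [zero_smul] at h
  rw [h]
  simp

private theorem na_cr_neg (f : PR) (n : ℤ × ℤ) : cr (-f) n = - cr f n := by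
  have h := cr_smul (-1) f n
  rw [neg_one_smul] at h
  rw [h]
  simp

theorem Nm_zero : Nm w s 0 = 0 := by
  unfold Nm
  rw [ENNReal.tsum_eq_zero]
  intro n
  rw [na_cr_zero, norm_zero, mul_zero, ENNReal.ofReal_zero]

theorem Nm_add_le (f g : PR) : Nm w s (f + g) ≤ Nm w s f + Nm w s g := by
  unfold Nm
  rw [← ENNReal.tsum_add]
  refine ENNReal.tsum_le_tsum fun n => ?_
  have h0 := na_coef_nonneg w s n
  rw [← ENNReal.ofReal_add (mul_nonneg h0 (norm_nonneg _)) (mul_nonneg h0 (norm_nonneg _))]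
  refine ENNReal.ofReal_le_ofReal ?_
  rw [cr_add, ← mul_add]
  exact mul_le_mul_of_nonneg_left (norm_add_le _ _) h0

theorem Nm_neg (f : PR) : Nm w s (-f) = Nm w s f := by
  unfold Nm
  refine tsum_congr fun n => ?_
  rw [na_cr_neg, norm_neg]

theorem Nm_smul (r : ℝ) (f : PR) : Nm w s (r • f) = ENNReal.ofReal |r| * Nm w s f := by
  unfold Nm
  rw [← ENNReal.tsum_mul_left]
  refine tsum_congr fun n => ?_
  rw [cr_smul, norm_mul, Complex.norm_real, Real.norm_eq_abs, ← ENNReal.ofReal_mul (abs_nonneg r)]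
  congr 1
  ring

theorem Nm_mono {s s' : ℕ} (h : s ≤ s') (f : PR) : Nm w s f ≤ Nm w s' f := by
  unfold Nm
  refine ENNReal.tsum_le_tsum fun n => ENNReal.ofReal_le_ofReal ?_
  refine mul_le_mul_of_nonneg_right ?_ (norm_nonneg _)
  refine mul_le_mul_of_nonneg_left ?_ (na_w_pos w n).le
  exact pow_le_pow_right₀ (by linarith [nn_nonneg n]) h

theorem Nm_cst (r : ℝ) : Nm w s (cst r) = ENNReal.ofReal |r| := by
  unfold Nm
  rw [tsum_eq_single 0]
  · rw [cr_cst, if_pos rfl, Complex.norm_real, Real.norm_eq_abs, w.zero, nn_zero]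
    simp
  · intro n hn
    rw [cr_cst, if_neg hn, norm_zero, mul_zero, ENNReal.ofReal_zero]

theorem eq_zero_of_Nm {f : PR} (h : Nm w s f = 0) : f = 0 := by
  unfold Nm at h
  rw [ENNReal.tsum_eq_zero] at h
  refine cr_injective fun n => ?_
  rw [na_cr_zero]
  have h1 := ENNReal.ofReal_eq_zero.mp (h n)
  have h2 := na_coef_pos w s n
  have h3 : ‖cr f n‖ ≤ 0 := by
    by_contra hc
    push Not at hc
    have := mul_pos h2 hc
    linarith
  exact norm_le_zero_iff.mp h3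

theorem Nm_Op_le {m : ℤ × ℤ → ℂ} (hm : IsSym m) {s s' : ℕ} {C : ℝ} (hC : 0 ≤ C)
    (h : ∀ n, ‖m n‖ * (1 + nn n) ^ s' ≤ C * (1 + nn n) ^ s) (f : PR) :
    Nm w s' (Op m f) ≤ ENNReal.ofReal C * Nm w s f := by
  unfold Nm
  rw [← ENNReal.tsum_mul_left]
  refine ENNReal.tsum_le_tsum fun n => ?_
  rw [← ENNReal.ofReal_mul hC]
  refine ENNReal.ofReal_le_ofReal ?_
  rw [cr_Op hm, norm_mul]
  have h1 := mul_le_mul_of_nonneg_left (h n) (mul_nonneg (na_w_pos w n).le (norm_nonneg (cr f n)))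
  calc w.w n * (1 + nn n) ^ s' * (‖m n‖ * ‖cr f n‖)
      = w.w n * ‖cr f n‖ * (‖m n‖ * (1 + nn n) ^ s') := by ring
    _ ≤ w.w n * ‖cr f n‖ * (C * (1 + nn n) ^ s) := h1
    _ = C * (w.w n * (1 + nn n) ^ s * ‖cr f n‖) := by ring

private theorem na_dotZ_le (n : ℤ × ℤ) (a : ℝ × ℝ) : |dotZ n a| ≤ nn n * ‖a‖ := by
  unfold dotZ nn
  have h1 : |a.1| ≤ ‖a‖ := norm_fst_le a
  have h2 : |a.2| ≤ ‖a‖ := norm_snd_le a
  calc |(n.1 : ℝ) * a.1 + n.2 * a.2| ≤ |(n.1 : ℝ) * a.1| + |(n.2 : ℝ) * a.2| := abs_add_le _ _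
    _ = |(n.1 : ℝ)| * |a.1| + |(n.2 : ℝ)| * |a.2| := by rw [abs_mul, abs_mul]
    _ ≤ |(n.1 : ℝ)| * ‖a‖ + |(n.2 : ℝ)| * ‖a‖ :=
      add_le_add (mul_le_mul_of_nonneg_left h1 (abs_nonneg _))
        (mul_le_mul_of_nonneg_left h2 (abs_nonneg _))
    _ = _ := by ring

theorem Nm_dv_le (a : ℝ × ℝ) (f : PR) :
    Nm w s (dv a f) ≤ ENNReal.ofReal (2 * Real.pi * ‖a‖) * Nm w (s + 1) f := by
  unfold Nm
  rw [← ENNReal.tsum_mul_left]
  refine ENNReal.tsum_le_tsum fun n => ?_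
  have hpi := Real.pi_pos
  rw [← ENNReal.ofReal_mul (by positivity)]
  refine ENNReal.ofReal_le_ofReal ?_
  have h1 : ‖cr (dv a f) n‖ = 2 * Real.pi * |dotZ n a| * ‖cr f n‖ := by
    rw [cr_dv, norm_mul, norm_mul, norm_mul, norm_mul, Complex.norm_I, Complex.norm_real,
      Complex.norm_real, Real.norm_eq_abs, Real.norm_eq_abs, abs_of_pos hpi]
    simp
  rw [h1]
  have h2 : |dotZ n a| ≤ (1 + nn n) * ‖a‖ := by
    have := na_dotZ_le n a
    have := norm_nonneg a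
    nlinarith
  have h3 := na_coef_nonneg w s n
  have h4 : w.w n * (1 + nn n) ^ s * (2 * Real.pi * ‖cr f n‖) * |dotZ n a| ≤
      w.w n * (1 + nn n) ^ s * (2 * Real.pi * ‖cr f n‖) * ((1 + nn n) * ‖a‖) :=
    mul_le_mul_of_nonneg_left h2 (mul_nonneg h3 (by positivity))
  calc w.w n * (1 + nn n) ^ s * (2 * Real.pi * |dotZ n a| * ‖cr f n‖)
      = w.w n * (1 + nn n) ^ s * (2 * Real.pi * ‖cr f n‖) * |dotZ n a| := by ring
    _ ≤ _ := h4
    _ = 2 * Real.pi * ‖a‖ * (w.w n * (1 + nn n) ^ (s + 1) * ‖cr f n‖) := by ring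

theorem Nm_P0_le (f : PR) : Nm w s (P0 f) ≤ Nm w s f := by
  unfold Nm
  refine ENNReal.tsum_le_tsum fun n => ENNReal.ofReal_le_ofReal ?_
  rw [cr_P0]
  refine mul_le_mul_of_nonneg_left ?_ (na_coef_nonneg w s n)
  split_ifs
  · rw [norm_zero]
    exact norm_nonneg _
  · exact le_rfl

private theorem na_sum_le {f : PR} {B : ℝ} (h : Nm w s f ≤ ENNReal.ofReal B) (hB : 0 ≤ B) :
    ∑' n, ‖cr f n‖ ≤ B := by
  have hsum : Summable fun n => ‖cr f n‖ := by
    have := summable_cr f 0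
    simpa using this
  have h1 : ENNReal.ofReal (∑' n, ‖cr f n‖) ≤ ENNReal.ofReal B := by
    rw [ENNReal.ofReal_tsum_of_nonneg (fun n => norm_nonneg _) hsum]
    refine le_trans ?_ h
    unfold Nm
    refine ENNReal.tsum_le_tsum fun n => ENNReal.ofReal_le_ofReal ?_
    have := na_one_le_coef w s n
    exact le_mul_of_one_le_left (norm_nonneg _) this
  exact (ENNReal.ofReal_le_ofReal_iff hB).mp h1

theorem abs_mean_le {f : PR} {B : ℝ} (h : Nm w s f ≤ ENNReal.ofReal B) (hB : 0 ≤ B) :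
    |mean f| ≤ B := by
  have hsum : Summable fun n => ‖cr f n‖ := by
    have := summable_cr f 0
    simpa using this
  have h1 : |mean f| ≤ ‖cr f 0‖ := Complex.abs_re_le_norm _
  have h2 : ‖cr f 0‖ ≤ ∑' n, ‖cr f n‖ := hsum.le_tsum 0 (fun n _ => norm_nonneg _)
  exact h1.trans (h2.trans (na_sum_le w s h hB))

theorem abs_apply_le {f : PR} {B : ℝ} (h : Nm w s f ≤ ENNReal.ofReal B) (hB : 0 ≤ B)
    (x : ℝ × ℝ) : |f x| ≤ B := by
  have hsum : Summable fun n => ‖cr f n‖ := by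
    have := summable_cr f 0
    simpa using this
  have hnorm : ∀ n, ‖cr f n * ev n x‖ = ‖cr f n‖ := fun n => by
    rw [norm_mul, fe_ev_norm, mul_one]
  have h1 : ‖∑' n, cr f n * ev n x‖ ≤ ∑' n, ‖cr f n * ev n x‖ :=
    norm_tsum_le_tsum_norm (by simpa only [hnorm] using hsum)
  rw [(hasSum_cr f x).tsum_eq] at h1
  simp only [hnorm] at h1
  rw [Complex.norm_real, Real.norm_eq_abs] at h1
  exact h1.trans (na_sum_le w s h hB)

end P205T
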