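import Vale.Agent.Lib.P205T.NA

/-! # P205T module NB: the weighted Wiener norms are submultiplicative -/

open scoped ContDiff ENNReal
open Complex Set

namespace P205T

theorem NB_nn_add (m n : ℤ × ℤ) : 1 + nn (m + n) ≤ (1 + nn m) * (1 + nn n) := by
  have h := nn_add m n
  have h1 := mul_nonneg (nn_nonneg m) (nn_nonneg n)
  nlinarith

theorem NB_W_nonneg (w : Weight) (s : ℕ) (n : ℤ × ℤ) : 0 ≤ w.w n * (1 + nn n) ^ s :=
  mul_nonneg (le_trans zero_le_one (w.one_le n)) (pow_nonneg (by have := nn_nonneg n; linarith) s)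

theorem NB_W_mul (w : Weight) (s : ℕ) (m n : ℤ × ℤ) : w.w (m + n) * (1 + nn (m + n)) ^ s ≤
    (w.w m * (1 + nn m) ^ s) * (w.w n * (1 + nn n) ^ s) := by
  have h0 : 0 ≤ 1 + nn (m + n) := by have := nn_nonneg (m + n); linarith
  have h1 : (1 + nn (m + n)) ^ s ≤ (1 + nn m) ^ s * (1 + nn n) ^ s := by
    rw [← mul_pow]
    exact pow_le_pow_left₀ h0 (NB_nn_add m n) s
  have h2 : 0 ≤ w.w m * w.w n :=
    mul_nonneg (le_trans zero_le_one (w.one_le m)) (le_trans zero_le_one (w.one_le n))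
  calc w.w (m + n) * (1 + nn (m + n)) ^ s
      ≤ (w.w m * w.w n) * ((1 + nn m) ^ s * (1 + nn n) ^ s) :=
        mul_le_mul (w.submul m n) h1 (pow_nonneg h0 s) h2
    _ = _ := by ring

/-- the terms of the norm -/
noncomputable def NB_t (w : Weight) (s : ℕ) (f : PR) (n : ℤ × ℤ) : ℝ≥0∞ :=
  ENNReal.ofReal (w.w n * (1 + nn n) ^ s * ‖cr f n‖)

theorem NB_enorm_le (f g : PR) (n : ℤ × ℤ) :
    ENNReal.ofReal ‖cr (f * g) n‖ ≤ ∑' m, ENNReal.ofReal (‖cr f m‖ * ‖cr g (n - m)‖) := by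
  have h := (cr_mul f g n).enorm_le_of_bounded (ENNReal.summable.hasSum
    (f := fun m => ENNReal.ofReal (‖cr f m‖ * ‖cr g (n - m)‖))) (fun m => by
      rw [← norm_mul, ofReal_norm])
  rwa [← ofReal_norm] at h

theorem NB_term_le (w : Weight) (s : ℕ) (f g : PR) (n : ℤ × ℤ) :
    NB_t w s (f * g) n ≤ ∑' m, NB_t w s f m * NB_t w s g (n - m) := by
  rw [NB_t, ENNReal.ofReal_mul (NB_W_nonneg w s n)]
  refine (mul_le_mul' le_rfl (NB_enorm_le f g n)).trans ?_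
  rw [← ENNReal.tsum_mul_left]
  refine ENNReal.tsum_le_tsum fun m => ?_
  rw [NB_t, NB_t, ← ENNReal.ofReal_mul (NB_W_nonneg w s n),
    ← ENNReal.ofReal_mul (mul_nonneg (NB_W_nonneg w s m) (norm_nonneg _))]
  refine ENNReal.ofReal_le_ofReal ?_
  have h := NB_W_mul w s m (n - m)
  rw [add_sub_cancel] at h
  calc w.w n * (1 + nn n) ^ s * (‖cr f m‖ * ‖cr g (n - m)‖)
      ≤ ((w.w m * (1 + nn m) ^ s) * (w.w (n - m) * (1 + nn (n - m)) ^ s)) *
        (‖cr f m‖ * ‖cr g (n - m)‖) :=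
        mul_le_mul_of_nonneg_right h (mul_nonneg (norm_nonneg _) (norm_nonneg _))
    _ = _ := by ring

/-- from `cr_mul`, `Weight.submul` and `1 + nn (m + n) ≤ (1 + nn m) * (1 + nn n)`; Tonelli for
`ENNReal` sums -/
theorem Nm_mul_le (w : Weight) (s : ℕ) (f g : PR) : Nm w s (f * g) ≤ Nm w s f * Nm w s g := by
  have h1 : Nm w s (f * g) ≤ ∑' n, ∑' m, NB_t w s f m * NB_t w s g (n - m) :=
    ENNReal.tsum_le_tsum fun n => NB_term_le w s f g n
  have h2 : ∀ m : ℤ × ℤ, ∑' n, NB_t w s f m * NB_t w s g (n - m) = NB_t w s f m * Nm w s g := by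
    intro m
    rw [ENNReal.tsum_mul_left]
    congr 1
    exact (Equiv.subRight m).tsum_eq (fun n => NB_t w s g n)
  rw [ENNReal.tsum_comm] at h1
  refine h1.trans (le_of_eq ?_)
  calc ∑' m, ∑' n, NB_t w s f m * NB_t w s g (n - m) = ∑' m, NB_t w s f m * Nm w s g :=
        tsum_congr h2
    _ = Nm w s f * Nm w s g := by rw [ENNReal.tsum_mul_right]; rfl

end P205T
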