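import Vale.Agent.Lib.P205T.NA

/-! # P205T module NC: completeness of the weighted Wiener algebras -/

open scoped ContDiff ENNReal
open Complex Set

namespace P205T

/-- The coefficients converge in weighted `ℓ¹`; the limit coefficients are rapidly decreasing because
the weight is superpolynomial (`Weight.super`), so `synthR` gives the limit function. -/
theorem Nm_complete (w : Weight) (s : ℕ) (f : ℕ → PR) (h0 : Nm w s (f 0) ≠ ⊤) (u : ℕ → ℝ)
    (hu0 : ∀ k, 0 ≤ u k) (hu : Summable u)
    (h : ∀ k, Nm w s (f (k + 1) - f k) ≤ ENNReal.ofReal (u k)) :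
    ∃ g : PR, ∀ k, Nm w s (g - f k) ≤ ENNReal.ofReal (∑' j, u (j + k)) := by
  -- the weights
  have hW1 : ∀ n, 1 ≤ w.w n * (1 + nn n) ^ s := fun n => by
    have h1 := w.one_le n
    have h2 : (1 : ℝ) ≤ (1 + nn n) ^ s := one_le_pow₀ (by linarith [nn_nonneg n])
    nlinarith
  -- pointwise bounds
  have hterm : ∀ k n, w.w n * (1 + nn n) ^ s * ‖cr (f (k + 1)) n - cr (f k) n‖ ≤ u k := by
    intro k n
    have h1 : ENNReal.ofReal (w.w n * (1 + nn n) ^ s * ‖cr (f (k + 1) - f k) n‖)
        ≤ ENNReal.ofReal (u k) :=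
      le_trans (ENNReal.le_tsum (f := fun n =>
        ENNReal.ofReal (w.w n * (1 + nn n) ^ s * ‖cr (f (k + 1) - f k) n‖)) n) (h k)
    rw [cr_sub] at h1
    exact (ENNReal.ofReal_le_ofReal_iff (hu0 k)).1 h1
  have hdist : ∀ n k, dist (cr (f k) n) (cr (f (k + 1)) n)
      ≤ ‖cr (f (k + 1)) n - cr (f k) n‖ := fun n k => by
    rw [dist_comm, dist_eq_norm]
  have hD : ∀ n k, ‖cr (f (k + 1)) n - cr (f k) n‖ ≤ u k := fun n k => by
    have h1 := hterm k n
    have h2 := hW1 n
    have h3 := norm_nonneg (cr (f (k + 1)) n - cr (f k) n)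
    nlinarith
  have hDs : ∀ n, Summable fun k => ‖cr (f (k + 1)) n - cr (f k) n‖ := fun n =>
    Summable.of_nonneg_of_le (fun k => norm_nonneg _) (hD n) hu
  have hlim : ∀ n, ∃ a : ℂ, Filter.Tendsto (fun k => cr (f k) n) Filter.atTop (nhds a) := fun n =>
    cauchySeq_tendsto_of_complete (cauchySeq_of_dist_le_of_summable _ (hdist n) (hDs n))
  choose a ha using hlim
  -- the key estimate
  have hkey : ∀ k, ∑' n, ENNReal.ofReal (w.w n * (1 + nn n) ^ s * ‖a n - cr (f k) n‖)
      ≤ ENNReal.ofReal (∑' j, u (j + k)) := by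
    intro k
    have h1 : ∀ n, ENNReal.ofReal (w.w n * (1 + nn n) ^ s * ‖a n - cr (f k) n‖)
        ≤ ∑' m, ENNReal.ofReal (w.w n * (1 + nn n) ^ s
          * ‖cr (f (k + m + 1)) n - cr (f (k + m)) n‖) := by
      intro n
      have h2 := dist_le_tsum_of_dist_le_of_tendsto _ (hdist n) (hDs n) (ha n) k
      rw [dist_comm, dist_eq_norm] at h2
      have hs : Summable fun m => ‖cr (f (k + m + 1)) n - cr (f (k + m)) n‖ := by
        have := (summable_nat_add_iff k).2 (hDs n)
        refine this.congr fun m => ?_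
        rw [add_comm m k]
      rw [← ENNReal.ofReal_tsum_of_nonneg (fun m => by
        have := hW1 n
        have := norm_nonneg (cr (f (k + m + 1)) n - cr (f (k + m)) n)
        positivity) (hs.mul_left _), tsum_mul_left]
      exact ENNReal.ofReal_le_ofReal (mul_le_mul_of_nonneg_left h2 (by linarith [hW1 n]))
    calc ∑' n, ENNReal.ofReal (w.w n * (1 + nn n) ^ s * ‖a n - cr (f k) n‖)
        ≤ ∑' n, ∑' m, ENNReal.ofReal (w.w n * (1 + nn n) ^ s
          * ‖cr (f (k + m + 1)) n - cr (f (k + m)) n‖) := ENNReal.tsum_le_tsum h1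
      _ = ∑' m, ∑' n, ENNReal.ofReal (w.w n * (1 + nn n) ^ s
          * ‖cr (f (k + m + 1)) n - cr (f (k + m)) n‖) := ENNReal.tsum_comm
      _ ≤ ∑' m, ENNReal.ofReal (u (k + m)) := by
          refine ENNReal.tsum_le_tsum fun m => ?_
          have := h (k + m)
          unfold Nm at this
          simp only [cr_sub] at this
          exact this
      _ = ENNReal.ofReal (∑' j, u (j + k)) := by
          rw [← ENNReal.ofReal_tsum_of_nonneg (fun m => hu0 _)]
          · congr 1
            exact tsum_congr fun j => by rw [add_comm]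
          · have := (summable_nat_add_iff k).2 hu
            exact this.congr fun m => by rw [add_comm]
  -- rapid decay of the limit
  have hsum0 : Summable fun n => w.w n * (1 + nn n) ^ s * ‖a n - cr (f 0) n‖ := by
    have h1 : ∑' n, ENNReal.ofReal (w.w n * (1 + nn n) ^ s * ‖a n - cr (f 0) n‖) ≠ ⊤ :=
      ne_top_of_le_ne_top ENNReal.ofReal_ne_top (hkey 0)
    have h2 := ENNReal.summable_toReal h1
    refine h2.congr fun n => ?_
    rw [ENNReal.toReal_ofReal]
    have := hW1 n
    positivity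
  have hrapid : ∀ t : ℕ, Summable fun n => ‖a n‖ * (1 + nn n) ^ t := by
    intro t
    obtain ⟨C, hC⟩ := w.super t
    have hs1 : Summable fun n => C * (w.w n * (1 + nn n) ^ s * ‖a n - cr (f 0) n‖)
        + ‖cr (f 0) n‖ * (1 + nn n) ^ t := (hsum0.mul_left C).add (summable_cr (f 0) t)
    refine Summable.of_nonneg_of_le (fun n => by have := nn_nonneg n; positivity) (fun n => ?_) hs1
    have hn := nn_nonneg n
    have h1 : ‖a n‖ ≤ ‖a n - cr (f 0) n‖ + ‖cr (f 0) n‖ := by
      have := norm_add_le (a n - cr (f 0) n) (cr (f 0) n)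
      rwa [sub_add_cancel] at this
    have hp : (0 : ℝ) ≤ (1 + nn n) ^ t := by positivity
    have hps : (1 : ℝ) ≤ (1 + nn n) ^ s := one_le_pow₀ (by linarith)
    have h2 : (1 + nn n) ^ t ≤ C * (w.w n * (1 + nn n) ^ s) := by
      have hCw := hC n
      have hCw0 : 0 ≤ C * w.w n := le_trans hp hCw
      calc (1 + nn n) ^ t ≤ C * w.w n := hCw
        _ ≤ C * w.w n * (1 + nn n) ^ s := le_mul_of_one_le_right hCw0 hps
        _ = C * (w.w n * (1 + nn n) ^ s) := by ring
    have h3 := mul_le_mul_of_nonneg_left h2 (norm_nonneg (a n - cr (f 0) n))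
    calc ‖a n‖ * (1 + nn n) ^ t
        ≤ (‖a n - cr (f 0) n‖ + ‖cr (f 0) n‖) * (1 + nn n) ^ t :=
          mul_le_mul_of_nonneg_right h1 hp
      _ = ‖a n - cr (f 0) n‖ * (1 + nn n) ^ t + ‖cr (f 0) n‖ * (1 + nn n) ^ t := by ring
      _ ≤ ‖a n - cr (f 0) n‖ * (C * (w.w n * (1 + nn n) ^ s)) + ‖cr (f 0) n‖ * (1 + nn n) ^ t := by
          linarith
      _ = _ := by ring
  -- symmetry of the limit
  have hsym : ∀ n, a (-n) = starRingEnd ℂ (a n) := by
    intro n
    have h1 : Filter.Tendsto (fun k => starRingEnd ℂ (cr (f k) n)) Filter.atTop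
        (nhds (starRingEnd ℂ (a n))) := (Complex.continuous_conj.tendsto _).comp (ha n)
    refine tendsto_nhds_unique (ha (-n)) (h1.congr fun k => ?_)
    rw [cr_neg_idx]
  obtain ⟨g, hg⟩ := synthR a hsym hrapid
  refine ⟨g, fun k => ?_⟩
  have := hkey k
  unfold Nm
  simp only [cr_sub, hg]
  exact this

end P205T
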