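import Vale.Agent.Lib.P205T.NB

/-! # P205T module NE: the calculus of bounds -/

open scoped ContDiff ENNReal
open Complex Set

namespace P205T

variable {w : Weight} {s s' : ℕ} {f g : PR} {B B' : ℝ}

theorem Bd.nonneg (h : Bd w s f B) : 0 ≤ B := h.1

theorem Bd.mono (h : Bd w s f B) (hB : B ≤ B') : Bd w s f B' :=
  ⟨h.1.trans hB, h.2.trans (ENNReal.ofReal_le_ofReal hB)⟩

theorem Bd.level (h : Bd w s' f B) (hs : s ≤ s') : Bd w s f B :=
  ⟨h.1, (Nm_mono w hs f).trans h.2⟩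

theorem Bd.zero : Bd w s 0 0 :=
  ⟨le_rfl, by rw [Nm_zero]; exact zero_le⟩

theorem Bd.add (hf : Bd w s f B) (hg : Bd w s g B') : Bd w s (f + g) (B + B') :=
  ⟨add_nonneg hf.1 hg.1, by
    rw [ENNReal.ofReal_add hf.1 hg.1]
    exact (Nm_add_le w s f g).trans (add_le_add hf.2 hg.2)⟩

theorem Bd.neg (hf : Bd w s f B) : Bd w s (-f) B :=
  ⟨hf.1, by rw [Nm_neg]; exact hf.2⟩

theorem Bd.sub (hf : Bd w s f B) (hg : Bd w s g B') : Bd w s (f - g) (B + B') := by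
  rw [sub_eq_add_neg]
  exact hf.add hg.neg

theorem Bd.mul (hf : Bd w s f B) (hg : Bd w s g B') : Bd w s (f * g) (B * B') :=
  ⟨mul_nonneg hf.1 hg.1, by
    rw [ENNReal.ofReal_mul hf.1]
    exact (Nm_mul_le w s f g).trans (mul_le_mul' hf.2 hg.2)⟩

theorem Bd.smul (hf : Bd w s f B) (r : ℝ) : Bd w s (r • f) (|r| * B) :=
  ⟨mul_nonneg (abs_nonneg r) hf.1, by
    rw [ENNReal.ofReal_mul (abs_nonneg r), Nm_smul]
    exact mul_le_mul' le_rfl hf.2⟩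

theorem Bd.cst (r : ℝ) : Bd w s (P205T.cst r) |r| :=
  ⟨abs_nonneg r, by rw [Nm_cst]⟩

theorem Bd.one : Bd w s (1 : PR) 1 := by
  have h := Bd.cst (w := w) (s := s) 1
  rw [abs_one] at h
  have h1 : P205T.cst 1 = (1 : PR) := by
    ext x
    simp [cst_apply]
  rw [h1] at h
  exact h

theorem Bd.dv (hf : Bd w (s + 1) f B) (a : ℝ × ℝ) :
    Bd w s (P205T.dv a f) (2 * Real.pi * ‖a‖ * B) := by
  have h0 : 0 ≤ 2 * Real.pi * ‖a‖ := by positivity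
  exact ⟨mul_nonneg h0 hf.1, by
    rw [ENNReal.ofReal_mul h0]
    exact (Nm_dv_le w s a f).trans (mul_le_mul' le_rfl hf.2)⟩

theorem Bd.Op {m : ℤ × ℤ → ℂ} (hm : IsSym m) {C : ℝ} (hC : 0 ≤ C)
    (h : ∀ n, ‖m n‖ * (1 + nn n) ^ s' ≤ C * (1 + nn n) ^ s) (hf : Bd w s f B) :
    Bd w s' (P205T.Op m f) (C * B) :=
  ⟨mul_nonneg hC hf.1, by
    rw [ENNReal.ofReal_mul hC]
    exact (Nm_Op_le w hm hC h f).trans (mul_le_mul' le_rfl hf.2)⟩

theorem Bd.P0 (hf : Bd w s f B) : Bd w s (P205T.P0 f) B :=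
  ⟨hf.1, (Nm_P0_le w s f).trans hf.2⟩

theorem Bd.mean (hf : Bd w s f B) : |P205T.mean f| ≤ B :=
  abs_mean_le w s hf.2 hf.1

theorem Bd.apply (hf : Bd w s f B) (x : ℝ × ℝ) : |f x| ≤ B :=
  abs_apply_le w s hf.2 hf.1 x

theorem exists_Bd (h : Nm w s f ≠ ⊤) : ∃ B, Bd w s f B :=
  ⟨(Nm w s f).toReal, ENNReal.toReal_nonneg, by rw [ENNReal.ofReal_toReal h]⟩

theorem Bd.eq_zero (h : ∀ e : ℝ, 0 < e → Bd w s f e) : f = 0 := by
  apply eq_zero_of_Nm w s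
  apply le_antisymm _ zero_le
  apply le_of_forall_gt
  intro c hc
  by_cases hct : c = ⊤
  · subst hct
    exact lt_of_le_of_lt (h 1 one_pos).2 ENNReal.ofReal_lt_top
  · have hc' : 0 < c.toReal := ENNReal.toReal_pos hc.ne' hct
    have h1 := (h (c.toReal / 2) (by positivity)).2
    refine lt_of_le_of_lt h1 ?_
    rw [← ENNReal.ofReal_toReal hct]
    rw [ENNReal.ofReal_lt_ofReal_iff hc']
    rw [ENNReal.toReal_ofReal hc'.le]
    linarith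

end P205T
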