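import Vale.Agent.Lib.P205T.NE
import Vale.Agent.Lib.P205T.NC

/-! # P205T module NF: the fixed point theorem -/

open scoped ContDiff ENNReal
open Complex Set

namespace P205T

/-- bounds for finite families -/
def BdX {k : ℕ} (w : Weight) (s : ℕ) (x : Fin k → PR) (B : ℝ) : Prop :=
  0 ≤ B ∧ ∀ j, Bd w s (x j) B

/-- Banach fixed point theorem on a ball of `PR ^ k` (iterate from `0`, `Nm_complete`). -/
theorem fixedPoint {k : ℕ} (w : Weight) (s : ℕ) {r : ℝ} (hr : 0 ≤ r)
    (Θ : (Fin k → PR) → (Fin k → PR)) (h0 : BdX w s (Θ 0) (r / 2))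
    (hL : ∀ x y c, BdX w s x r → BdX w s y r → BdX w s (x - y) c → BdX w s (Θ x - Θ y) (c / 2)) :
    ∃ x, BdX w s x r ∧ Θ x = x := by
  -- the iterates
  let X : ℕ → (Fin k → PR) := fun n => Θ^[n] 0
  have hX0 : X 0 = 0 := rfl
  have hXs : ∀ n, X (n + 1) = Θ (X n) := fun n => Function.iterate_succ_apply' Θ n 0
  have hpow : ∀ n : ℕ, (0 : ℝ) < 2 ^ n := fun n => by positivity
  have hAD : ∀ n, BdX w s (X n) (r * (1 - 1 / 2 ^ n)) ∧
      BdX w s (X (n + 1) - X n) (r / 2 ^ (n + 1)) := by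
    intro n
    induction n with
    | zero =>
      refine ⟨⟨by simp, fun j => ?_⟩, ?_⟩
      · have : (r * (1 - 1 / 2 ^ 0) : ℝ) = 0 := by norm_num
        rw [this]
        exact Bd.zero
      · rw [hXs, hX0, sub_zero, zero_add, pow_one]
        exact h0
    | succ n ih =>
      obtain ⟨hA, hD⟩ := ih
      have hle : ∀ m : ℕ, r * (1 - 1 / 2 ^ m) ≤ r := fun m => by
        have h1 : 0 < (1 : ℝ) / 2 ^ m := by positivity
        nlinarith
      have hbig : ∀ {x : Fin k → PR} {m : ℕ}, BdX w s x (r * (1 - 1 / 2 ^ m)) → BdX w s x r :=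
        fun {x m} h => ⟨hr, fun j => (h.2 j).mono (hle m)⟩
      have hA' : BdX w s (X (n + 1)) (r * (1 - 1 / 2 ^ (n + 1))) := by
        have e : r * (1 - 1 / 2 ^ n) + r / 2 ^ (n + 1) = r * (1 - 1 / 2 ^ (n + 1)) := by
          rw [pow_succ]
          field_simp
          ring
        refine ⟨?_, fun j => ?_⟩
        · rw [← e]
          exact add_nonneg hA.1 hD.1
        · have h1 := (hA.2 j).add (hD.2 j)
          rw [e] at h1
          have h2 : X n j + (X (n + 1) - X n) j = X (n + 1) j := by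
            rw [Pi.sub_apply]
            abel
          rw [h2] at h1
          exact h1
      refine ⟨hA', ?_⟩
      have h1 := hL (X (n + 1)) (X n) _ (hbig hA') (hbig hA) hD
      rw [hXs (n + 1)]
      have e : r / 2 ^ (n + 1) / 2 = r / 2 ^ (n + 1 + 1) := by
        rw [pow_succ _ (n + 1), div_div]
      rw [e] at h1
      have h2 : X (n + 1) = Θ (X n) := hXs n
      rw [← h2] at h1
      exact h1
  -- sums
  have hsum : ∀ m : ℕ, HasSum (fun j : ℕ => r / 2 ^ (j + m + 1)) (r / 2 ^ m) := by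
    intro m
    have h1 := hasSum_geometric_two' (r / 2 ^ m)
    have h2 : (fun n : ℕ => r / 2 ^ m / 2 / 2 ^ n) = fun j : ℕ => r / 2 ^ (j + m + 1) := by
      funext j
      rw [pow_succ, pow_add, div_div, div_div]
      congr 1
      ring
    rw [h2] at h1
    exact h1
  have hlim : ∀ j : Fin k, ∃ g : PR, ∀ m, Bd w s (g - X m j) (r / 2 ^ m) := by
    intro j
    obtain ⟨g, hg⟩ := Nm_complete w s (fun n => X n j) (by
        show Nm w s (X 0 j) ≠ ⊤
        rw [hX0, Pi.zero_apply, Nm_zero]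
        exact ENNReal.zero_ne_top) (fun n => r / 2 ^ (n + 1))
      (fun n => by positivity) (by
        have := (hsum 0).summable
        simpa using this) (fun n => ((hAD n).2.2 j).2)
    refine ⟨g, fun m => ⟨by positivity, ?_⟩⟩
    have h1 := hg m
    rw [(hsum m).tsum_eq] at h1
    exact h1
  choose x hx using hlim
  have hxX : ∀ m, BdX w s (x - X m) (r / 2 ^ m) := fun m =>
    ⟨by positivity, fun j => hx j m⟩
  have hxr : BdX w s x r := by
    refine ⟨hr, fun j => ?_⟩
    have h1 := hx j 0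
    rw [hX0, Pi.zero_apply, sub_zero, pow_zero, div_one] at h1
    exact h1
  have hXr : ∀ m, BdX w s (X m) r := fun m => by
    refine ⟨hr, fun j => ((hAD m).1.2 j).mono ?_⟩
    have h1 : 0 < (1 : ℝ) / 2 ^ m := by positivity
    nlinarith
  refine ⟨x, hxr, ?_⟩
  funext j
  rw [← sub_eq_zero]
  apply Bd.eq_zero (w := w) (s := s)
  intro e he
  obtain ⟨m, hm⟩ : ∃ m : ℕ, r / 2 ^ m ≤ e := by
    obtain ⟨m, hm⟩ := pow_unbounded_of_one_lt (r / e) (one_lt_two (α := ℝ))
    refine ⟨m, ?_⟩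
    rw [div_lt_iff₀ he] at hm
    rw [div_le_iff₀ (hpow m)]
    linarith
  have h1 := (hL x (X m) _ hxr (hXr m) (hxX m)).2 j
  have h2 := ((hxX (m + 1)).2 j).neg
  have h3 := h1.add h2
  have e1 : (Θ x - Θ (X m)) j + -((x - X (m + 1)) j) = Θ x j - x j := by
    rw [hXs, Pi.sub_apply, Pi.sub_apply]
    abel
  have e2 : r / 2 ^ m / 2 + r / 2 ^ (m + 1) = r / 2 ^ m := by
    rw [pow_succ]
    field_simp
    ring
  rw [e1, e2] at h3
  exact h3.mono hm

end P205T
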