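import Vale.Agent.Lib.P205T.Main

/-! # P205T: periodic metrics on the Euclidean plane -/

open scoped ContDiff RealInnerProductSpace

namespace P205T

/-- linear coordinates -/
noncomputable def eL : (ℝ × ℝ) →L[ℝ] EuclideanSpace ℝ (Fin 2) :=
  (ContinuousLinearMap.fst ℝ ℝ ℝ).smulRight (EuclideanSpace.single 0 (1 : ℝ)) +
    (ContinuousLinearMap.snd ℝ ℝ ℝ).smulRight (EuclideanSpace.single 1 (1 : ℝ))

theorem eL_apply (v : ℝ × ℝ) : eL v = !₂[v.1, v.2] := by
  ext i
  fin_cases i <;> simp [eL]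

/-- inverse coordinates -/
noncomputable def eI : EuclideanSpace ℝ (Fin 2) →L[ℝ] (ℝ × ℝ) :=
  (EuclideanSpace.proj 0).prod (EuclideanSpace.proj 1)

theorem eI_apply (x : EuclideanSpace ℝ (Fin 2)) : eI x = (x 0, x 1) := rfl

theorem eI_eL (v : ℝ × ℝ) : eI (eL v) = v := by
  rw [eI_apply, eL_apply]; simp

theorem eL_eI (x : EuclideanSpace ℝ (Fin 2)) : eL (eI x) = x := by
  rw [eI_apply, eL_apply]
  ext i
  fin_cases i <;> simp

/-- the integer vectors -/
noncomputable def latE (n : Fin 2 → ℤ) : EuclideanSpace ℝ (Fin 2) :=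
  WithLp.toLp 2 (fun i => (n i : ℝ))

theorem eL_lat (n : ℤ × ℤ) : eL (lat n) = latE ![n.1, n.2] := by
  rw [eL_apply]
  ext i
  fin_cases i <;> simp [lat, latE]

theorem plane_torus
    (g : EuclideanSpace ℝ (Fin 2) →
      EuclideanSpace ℝ (Fin 2) →L[ℝ] EuclideanSpace ℝ (Fin 2) →L[ℝ] ℝ)
    (hg : ContDiff ℝ ∞ g) (hsymm : ∀ x u v, g x u v = g x v u)
    (hpos : ∀ x u, u ≠ 0 → 0 < g x u u)
    (hper : ∀ x (n : Fin 2 → ℤ), g (x + latE n) = g x) :
    ∃ F : EuclideanSpace ℝ (Fin 2) → EuclideanSpace ℝ (Fin 4), ContDiff ℝ ∞ F ∧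
      (∀ x (n : Fin 2 → ℤ), F (x + latE n) = F x) ∧
      ∀ x u v, ⟪fderiv ℝ F x u, fderiv ℝ F x v⟫ = g x u v := by
  have hco : ∀ a b : EuclideanSpace ℝ (Fin 2), ContDiff ℝ ∞ fun x : ℝ × ℝ => g (eL x) a b :=
    fun a b => ((hg.comp eL.contDiff).clm_apply contDiff_const).clm_apply contDiff_const
  have hpe : ∀ a b : EuclideanSpace ℝ (Fin 2), IsPer fun x : ℝ × ℝ => g (eL x) a b := by
    intro a b x n
    simp only [map_add, eL_lat, hper]
  set a : EuclideanSpace ℝ (Fin 2) := eL (1, 0)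
  set b : EuclideanSpace ℝ (Fin 2) := eL (0, 1)
  have hexp : ∀ x (v : ℝ × ℝ), g (eL x) (eL v) (eL v) =
      g (eL x) a a * v.1 ^ 2 + 2 * g (eL x) a b * v.1 * v.2 + g (eL x) b b * v.2 ^ 2 := by
    intro x v
    have hv : eL v = v.1 • a + v.2 • b := by
      rw [← map_smul, ← map_smul, ← map_add]; simp
    rw [hv]
    simp only [map_add, map_smul, add_apply, smul_apply, smul_eq_mul]
    rw [hsymm (eL x) b a]
    ring
  have hne : ∀ v : ℝ × ℝ, v ≠ 0 → eL v ≠ 0 := by
    intro v hv h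
    apply hv
    rw [← eI_eL v, h, map_zero]
  let G : PMet :=
    { E := ⟨fun x => g (eL x) a a, hco a a, hpe a a⟩
      F := ⟨fun x => g (eL x) a b, hco a b, hpe a b⟩
      G := ⟨fun x => g (eL x) b b, hco b b, hpe b b⟩
      pos := fun x => hpos _ _ (hne _ (by simp))
      det := fun x => by
        show 0 < g (eL x) a a * g (eL x) b b - (g (eL x) a b) ^ 2
        have h1 : 0 < g (eL x) a a := hpos _ _ (hne _ (by simp))
        have h2 := hpos (eL x) (eL (-(g (eL x) a b), g (eL x) a a))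
          (hne _ (by
            intro h
            have := congrArg Prod.snd h
            simp only [Prod.snd_zero] at this
            exact h1.ne' this))
        rw [hexp] at h2
        have h3 : 0 < g (eL x) a a * (g (eL x) a a * g (eL x) b b - (g (eL x) a b) ^ 2) := by
          calc 0 < _ := h2
            _ = _ := by ring
        exact (mul_pos_iff_of_pos_left h1).mp h3 }
  obtain ⟨F, hF, hFp, hFm⟩ := torus_immersion G
  have hq : ∀ x u, ‖fderiv ℝ (fun y => F (eI y)) x u‖ ^ 2 = g x u u := by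
    intro x u
    have h1 : fderiv ℝ (fun y => F (eI y)) x = (fderiv ℝ F (eI x)).comp eI := by
      have := fderiv_comp x (hF.differentiable (by simp) (eI x)) eI.differentiableAt
      rw [ContinuousLinearMap.fderiv] at this
      exact this
    rw [h1, ContinuousLinearMap.comp_apply, hFm]
    have h2 := hexp (eI x) (eI u)
    rw [eL_eI, eL_eI] at h2
    rw [h2]
    show g (eL (eI x)) a a * (eI u).1 ^ 2 + 2 * g (eL (eI x)) a b * (eI u).1 * (eI u).2 +
      g (eL (eI x)) b b * (eI u).2 ^ 2 = _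
    rw [eL_eI]
  refine ⟨fun y => F (eI y), hF.comp eI.contDiff, ?_, ?_⟩
  · intro x n
    have : eI (x + latE n) = eI x + lat (n 0, n 1) := by
      rw [map_add]; rfl
    simp only [this]
    exact hFp _ _
  · intro x u v
    have h1 := hq x (u + v)
    have h2 := hq x u
    have h3 := hq x v
    rw [map_add, norm_add_sq_real, h2, h3] at h1
    simp only [map_add, add_apply] at h1
    rw [hsymm x v u] at h1
    linarith

end P205T
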