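import Vale.Agent.Lib.P205T.S1Defs

/-! # P205T module S1Alg: the first contraction: algebra -/

open scoped ContDiff ENNReal
open Complex Set

namespace P205T

namespace S1

variable (S : S1) (x : Fin 3 → PR) (μ : ℝ)

theorem d_p (i : Fin 2) : S.F.d i (S.p x μ) = S.dp x μ i := by
  unfold p dp
  rw [map_add, map_smul, S.F.d_d_G0]

theorem d_q (i : Fin 2) : S.F.d i (S.q x μ) = S.dq x μ i := by
  unfold q dq
  rw [map_add, map_neg, map_smul, S.F.d_d_G0]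

private theorem S1Alg_P0 (g : PR) : P0 (-P0 g) = -P0 g := by
  have hneg : ∀ (f : PR) n, cr (-f) n = -cr f n := by
    intro f n
    have h := cr_smul (-1) f n
    rw [neg_one_smul] at h
    rw [h]
    push_cast
    ring
  apply cr_injective
  intro n
  rw [cr_P0, hneg, cr_P0]
  split_ifs
  · simp
  · rfl

private theorem S1Alg_smul (r : ℝ) (f : PR) : r • f = cst r * f := by
  unfold cst
  rw [Algebra.smul_def]

private theorem S1Alg_sum (hx : S.Theta x μ = x) : S.dp x μ 1 + S.dq x μ 0 = x 0 := by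
  have h0 : -P0 (S.rhoi ^ 2 * S.R01 x μ) = x 0 := congrFun hx 0
  have h1 : P0 (x 0) = x 0 := by
    rw [← h0]
    exact S1Alg_P0 _
  have h2 := S.F.T_trace (x 0)
  rw [h1] at h2
  unfold dp dq
  rw [S.F.d_comm 1 0]
  calc μ • S.F.d 0 (S.F.d 1 (cosm S.m)) + S.F.T 1 1 (x 0) +
        (-(μ • S.F.d 0 (S.F.d 1 (cosm S.m))) + S.F.T 0 0 (x 0))
      = S.F.T 0 0 (x 0) + S.F.T 1 1 (x 0) := by abel
    _ = x 0 := h2

private theorem S1Alg_x0 (hr : S.rho * S.rhoi = 1) (hx : S.Theta x μ = x) :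
    S.rho ^ 2 * x 0 = -S.R01 x μ + S.s x μ • S.rho ^ 2 := by
  have h0 : -P0 (S.rhoi ^ 2 * S.R01 x μ) = x 0 := congrFun hx 0
  have h1 : S.rho ^ 2 * S.rhoi ^ 2 = 1 := by rw [← mul_pow, hr, one_pow]
  rw [← h0, S1Alg_smul]
  unfold P0 s
  calc S.rho ^ 2 * -(S.rhoi ^ 2 * S.R01 x μ - cst (mean (S.rhoi ^ 2 * S.R01 x μ)))
      = -((S.rho ^ 2 * S.rhoi ^ 2) * S.R01 x μ) +
        cst (mean (S.rhoi ^ 2 * S.R01 x μ)) * S.rho ^ 2 := by ring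
    _ = _ := by rw [h1, one_mul]

private theorem S1Alg_half (f : PR) : 2 * ((1 / 2 : ℝ) • f) = f := by
  have h : (2 : PR) * ((1 / 2 : ℝ) • f) = (1 / 2 : ℝ) • f + (1 / 2 : ℝ) • f := two_mul _
  rw [h, ← add_smul]
  norm_num

private theorem S1Alg_x1 (hr : S.rho * S.rhoi = 1) (hx : S.Theta x μ = x) :
    2 * S.rho * x 1 = -S.R00 x μ := by
  have h0 : -((1 / 2 : ℝ) • (S.rhoi * S.R00 x μ)) = x 1 := congrFun hx 1
  have h2 := S1Alg_half (S.rhoi * S.R00 x μ)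
  rw [← h0]
  calc 2 * S.rho * -((1 / 2 : ℝ) • (S.rhoi * S.R00 x μ))
      = -(S.rho * (2 * ((1 / 2 : ℝ) • (S.rhoi * S.R00 x μ)))) := by ring
    _ = -S.R00 x μ := by rw [h2, ← mul_assoc, hr, one_mul]

private theorem S1Alg_x2 (hr : S.rho * S.rhoi = 1) (hx : S.Theta x μ = x) :
    2 * S.rho * x 2 = -S.R11 x μ := by
  have h0 : -((1 / 2 : ℝ) • (S.rhoi * S.R11 x μ)) = x 2 := congrFun hx 2
  have h2 := S1Alg_half (S.rhoi * S.R11 x μ)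
  rw [← h0]
  calc 2 * S.rho * -((1 / 2 : ℝ) • (S.rhoi * S.R11 x μ))
      = -(S.rho * (2 * ((1 / 2 : ℝ) • (S.rhoi * S.R11 x μ)))) := by ring
    _ = -S.R11 x μ := by rw [h2, ← mul_assoc, hr, one_mul]

private theorem S1Alg_gam : S.F.gam S.G 1 0 = S.F.gam S.G 0 1 := by
  unfold Frame.gam CMet.ip
  ring

private theorem S1Alg_00 (hr : S.rho * S.rhoi = 1) (hx : S.Theta x μ = x) :
    (S.A x μ) ^ 2 * (1 + S.dp x μ 0) ^ 2 + (S.B x μ) ^ 2 * (S.dq x μ 0) ^ 2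
      + ((S.eA x μ 0) ^ 2 + (S.eB x μ 0) ^ 2) = S.F.gam S.G 0 0 • S.rho ^ 2 := by
  have h1 := S.S1Alg_x1 x μ hr hx
  have h2 : S.al x μ = -(S.rho * S.dp x μ 0) + x 1 := rfl
  have h3 : S.R00 x μ = ((S.A x μ) ^ 2 * (1 + S.dp x μ 0) ^ 2 - S.rho ^ 2
      - 2 * S.rho * S.al x μ - 2 * S.rho ^ 2 * S.dp x μ 0) + (S.B x μ) ^ 2 * (S.dq x μ 0) ^ 2
      + ((S.eA x μ 0) ^ 2 + (S.eB x μ 0) ^ 2) + (1 - S.F.gam S.G 0 0) • S.rho ^ 2 := rfl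
  have h4 : (1 - S.F.gam S.G 0 0) • S.rho ^ 2 = S.rho ^ 2 - S.F.gam S.G 0 0 • S.rho ^ 2 := by
    rw [sub_smul, one_smul]
  rw [h4, h2] at h3
  linear_combination -h3 + h1

private theorem S1Alg_11 (hr : S.rho * S.rhoi = 1) (hx : S.Theta x μ = x) :
    (S.B x μ) ^ 2 * (1 + S.dq x μ 1) ^ 2 + (S.A x μ) ^ 2 * (S.dp x μ 1) ^ 2
      + ((S.eA x μ 1) ^ 2 + (S.eB x μ 1) ^ 2) = S.F.gam S.G 1 1 • S.rho ^ 2 := by
  have h1 := S.S1Alg_x2 x μ hr hx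
  have h2 : S.be x μ = -(S.rho * S.dq x μ 1) + x 2 := rfl
  have h3 : S.R11 x μ = ((S.B x μ) ^ 2 * (1 + S.dq x μ 1) ^ 2 - S.rho ^ 2
      - 2 * S.rho * S.be x μ - 2 * S.rho ^ 2 * S.dq x μ 1) + (S.A x μ) ^ 2 * (S.dp x μ 1) ^ 2
      + ((S.eA x μ 1) ^ 2 + (S.eB x μ 1) ^ 2) + (1 - S.F.gam S.G 1 1) • S.rho ^ 2 := rfl
  have h4 : (1 - S.F.gam S.G 1 1) • S.rho ^ 2 = S.rho ^ 2 - S.F.gam S.G 1 1 • S.rho ^ 2 := by
    rw [sub_smul, one_smul]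
  rw [h4, h2] at h3
  linear_combination -h3 + h1

private theorem S1Alg_01 (hr : S.rho * S.rhoi = 1) (hx : S.Theta x μ = x) :
    (S.A x μ) ^ 2 * (1 + S.dp x μ 0) * S.dp x μ 1 + (S.B x μ) ^ 2 * S.dq x μ 0 * (1 + S.dq x μ 1)
      + (S.eA x μ 0 * S.eA x μ 1 + S.eB x μ 0 * S.eB x μ 1) =
      S.F.gam S.G 0 1 • S.rho ^ 2 + S.s x μ • S.rho ^ 2 := by
  have h1 := S.S1Alg_x0 x μ hr hx
  have h2 := S.S1Alg_sum x μ hx
  have h3 : S.R01 x μ = ((S.A x μ) ^ 2 * (1 + S.dp x μ 0) * S.dp x μ 1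
      - S.rho ^ 2 * S.dp x μ 1) + ((S.B x μ) ^ 2 * S.dq x μ 0 * (1 + S.dq x μ 1)
      - S.rho ^ 2 * S.dq x μ 0)
      + (S.eA x μ 0 * S.eA x μ 1 + S.eB x μ 0 * S.eB x μ 1) - S.F.gam S.G 0 1 • S.rho ^ 2 := rfl
  linear_combination -h3 + S.rho ^ 2 * h2 + h1

/-- the fixed point equation gives the metric identity with truncated derivatives -/
theorem fixed_metric (hr : S.rho * S.rhoi = 1) (hx : S.Theta x μ = x) (i j : Fin 2) :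
    (S.A x μ) ^ 2 * (S.phi x μ i * S.phi x μ j) + (S.B x μ) ^ 2 * (S.psi x μ i * S.psi x μ j)
      + (S.eA x μ i * S.eA x μ j + S.eB x μ i * S.eB x μ j) =
    S.F.gam S.G i j • S.rho ^ 2 + (S.s x μ * sig i j) • S.rho ^ 2 := by
  have e00 := S.S1Alg_00 x μ hr hx
  have e11 := S.S1Alg_11 x μ hr hx
  have e01 := S.S1Alg_01 x μ hr hx
  have f0 : S.phi x μ 0 = 1 + S.dp x μ 0 := by
    unfold phi
    rw [S.d_p, if_pos rfl]
  have f1 : S.phi x μ 1 = S.dp x μ 1 := by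
    unfold phi
    rw [S.d_p, if_neg (by decide), zero_add]
  have g0 : S.psi x μ 0 = S.dq x μ 0 := by
    unfold psi
    rw [S.d_q, if_neg (by decide), zero_add]
  have g1 : S.psi x μ 1 = 1 + S.dq x μ 1 := by
    unfold psi
    rw [S.d_q, if_pos rfl]
  have s00 : sig 0 0 = 0 := if_pos rfl
  have s11 : sig 1 1 = 0 := if_pos rfl
  have s01 : sig 0 1 = 1 := if_neg (by decide)
  have s10 : sig 1 0 = 1 := if_neg (by decide)
  fin_cases i <;> fin_cases j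
  · show (S.A x μ) ^ 2 * (S.phi x μ 0 * S.phi x μ 0) + (S.B x μ) ^ 2 * (S.psi x μ 0 * S.psi x μ 0)
      + (S.eA x μ 0 * S.eA x μ 0 + S.eB x μ 0 * S.eB x μ 0) =
      S.F.gam S.G 0 0 • S.rho ^ 2 + (S.s x μ * sig 0 0) • S.rho ^ 2
    rw [f0, g0, s00, mul_zero, zero_smul]
    linear_combination e00
  · show (S.A x μ) ^ 2 * (S.phi x μ 0 * S.phi x μ 1) + (S.B x μ) ^ 2 * (S.psi x μ 0 * S.psi x μ 1)
      + (S.eA x μ 0 * S.eA x μ 1 + S.eB x μ 0 * S.eB x μ 1) =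
      S.F.gam S.G 0 1 • S.rho ^ 2 + (S.s x μ * sig 0 1) • S.rho ^ 2
    rw [f0, g0, f1, g1, s01, mul_one]
    linear_combination e01
  · show (S.A x μ) ^ 2 * (S.phi x μ 1 * S.phi x μ 0) + (S.B x μ) ^ 2 * (S.psi x μ 1 * S.psi x μ 0)
      + (S.eA x μ 1 * S.eA x μ 0 + S.eB x μ 1 * S.eB x μ 0) =
      S.F.gam S.G 1 0 • S.rho ^ 2 + (S.s x μ * sig 1 0) • S.rho ^ 2
    rw [f0, g0, f1, g1, s10, mul_one, S.S1Alg_gam]
    linear_combination e01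
  · show (S.A x μ) ^ 2 * (S.phi x μ 1 * S.phi x μ 1) + (S.B x μ) ^ 2 * (S.psi x μ 1 * S.psi x μ 1)
      + (S.eA x μ 1 * S.eA x μ 1 + S.eB x μ 1 * S.eB x μ 1) =
      S.F.gam S.G 1 1 • S.rho ^ 2 + (S.s x μ * sig 1 1) • S.rho ^ 2
    rw [f1, g1, s11, mul_zero, zero_smul]
    linear_combination e11

/-- polynomial form of the remainders: every term is at least quadratic in small quantities -/
theorem R00_eq : S.R00 x μ = S.rho ^ 2 * (S.dp x μ 0) ^ 2 + 4 * S.rho * S.al x μ * S.dp x μ 0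
    + 2 * S.rho * S.al x μ * (S.dp x μ 0) ^ 2 + (S.al x μ) ^ 2 * (1 + S.dp x μ 0) ^ 2
    + (S.B x μ) ^ 2 * (S.dq x μ 0) ^ 2
    + ((S.eA x μ 0) ^ 2 + (S.eB x μ 0) ^ 2) + (1 - S.F.gam S.G 0 0) • S.rho ^ 2 := by
  have h2 : S.A x μ = S.rho + S.al x μ := rfl
  unfold R00
  rw [h2]
  ring

theorem R11_eq : S.R11 x μ = S.rho ^ 2 * (S.dq x μ 1) ^ 2 + 4 * S.rho * S.be x μ * S.dq x μ 1
    + 2 * S.rho * S.be x μ * (S.dq x μ 1) ^ 2 + (S.be x μ) ^ 2 * (1 + S.dq x μ 1) ^ 2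
    + (S.A x μ) ^ 2 * (S.dp x μ 1) ^ 2
    + ((S.eA x μ 1) ^ 2 + (S.eB x μ 1) ^ 2) + (1 - S.F.gam S.G 1 1) • S.rho ^ 2 := by
  have h2 : S.B x μ = S.rho + S.be x μ := rfl
  unfold R11
  rw [h2]
  ring

theorem R01_eq : S.R01 x μ = S.rho ^ 2 * S.dp x μ 0 * S.dp x μ 1
    + (2 * S.rho * S.al x μ + (S.al x μ) ^ 2) * (1 + S.dp x μ 0) * S.dp x μ 1
    + S.rho ^ 2 * S.dq x μ 0 * S.dq x μ 1
    + (2 * S.rho * S.be x μ + (S.be x μ) ^ 2) * S.dq x μ 0 * (1 + S.dq x μ 1)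
    + (S.eA x μ 0 * S.eA x μ 1 + S.eB x μ 0 * S.eB x μ 1) - S.F.gam S.G 0 1 • S.rho ^ 2 := by
  have h2 : S.A x μ = S.rho + S.al x μ := rfl
  have h3 : S.B x μ = S.rho + S.be x μ := rfl
  unfold R01
  rw [h2, h3]
  ring

end S1

end P205T
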