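import Vale.Agent.Lib.P205T.S1Defs

/-! # P205T module S1Cos: the cosine perturbation -/

open scoped ContDiff ENNReal
open Complex Set

namespace P205T

/-- the conjugate of an exponential -/
private theorem s1cos_ev_conj (m : ℤ × ℤ) (x : ℝ × ℝ) : ev (-m) x = starRingEnd ℂ (ev m x) := by
  rw [ev_apply, ev_apply, ← Complex.exp_conj]
  congr 1
  simp only [map_mul, map_add, Complex.conj_ofReal, Complex.conj_I, Prod.fst_neg, Prod.snd_neg,
    map_ofNat, map_intCast]
  push_cast
  ring

private theorem s1cos_toC (m : ℤ × ℤ) : toC (cosm m) = (1 / 2 : ℂ) • (ev m + ev (-m)) := by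
  ext x
  rw [toC_apply, PC.smul_apply, PC.add_apply, s1cos_ev_conj, Complex.add_conj]
  unfold cosm
  rw [reC_apply]
  push_cast
  ring

private theorem s1cos_cr (m n : ℤ × ℤ) :
    cr (cosm m) n = 1 / 2 * ((if m = n then 1 else 0) + (if -m = n then 1 else 0)) := by
  unfold cr
  rw [s1cos_toC, cf_smul, cf_add, cf_ev, cf_ev]

theorem d_d_cosm (F : Frame) (m : ℤ × ℤ) (i j : Fin 2) :
    F.d i (F.d j (cosm m)) = -((F.l i m * F.l j m) • cosm m) := by
  have hl : ∀ (k : Fin 2), F.l k (-m) = -F.l k m := by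
    intro k
    unfold Frame.l dotZ
    simp only [Prod.fst_neg, Prod.snd_neg, Int.cast_neg]
    ring
  rw [← neg_smul]
  apply cr_injective
  intro n
  rw [F.cr_d, F.cr_d, cr_smul, s1cos_cr]
  by_cases h1 : m = n
  · subst h1
    push_cast
    linear_combination ((F.l i m : ℂ) * (F.l j m : ℂ) *
      (1 / 2 * ((if m = m then 1 else 0) + (if -m = m then 1 else 0)))) * Complex.I_mul_I
  · by_cases h2 : -m = n
    · subst h2
      rw [hl, hl]
      push_cast
      linear_combination ((F.l i m : ℂ) * (F.l j m : ℂ) *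
        (1 / 2 * ((if m = -m then 1 else 0) + (if -m = -m then 1 else 0)))) * Complex.I_mul_I
    · simp [h1, h2]

theorem mean_cosm_sq {m : ℤ × ℤ} (hm : m ≠ 0) : mean (cosm m * cosm m) = 1 / 2 := by
  have h2m : m + m ≠ 0 := by
    intro h
    apply hm
    have h1 := congrArg Prod.fst h
    have h2 := congrArg Prod.snd h
    simp only [Prod.fst_add, Prod.snd_add, Prod.fst_zero, Prod.snd_zero] at h1 h2
    exact Prod.ext (by rw [Prod.fst_zero]; omega) (by rw [Prod.snd_zero]; omega)
  have h2m' : -m + -m ≠ 0 := by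
    intro h
    apply h2m
    rw [← neg_add] at h
    exact neg_eq_zero.mp h
  have e : toC (cosm m * cosm m) =
      (1 / 4 : ℂ) • (ev (m + m) + ev (-m + -m) + (ev 0 + ev 0)) := by
    rw [map_mul, s1cos_toC]
    ext x
    have h1 : ev m x * ev m x = ev (m + m) x := by rw [← PC.mul_apply, ev_mul]
    have h2 : ev (-m) x * ev (-m) x = ev (-m + -m) x := by rw [← PC.mul_apply, ev_mul]
    have h3 : ev m x * ev (-m) x = ev 0 x := by rw [← PC.mul_apply, ev_mul, add_neg_cancel]
    simp only [PC.mul_apply, PC.smul_apply, PC.add_apply]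
    linear_combination (1 / 4 : ℂ) * h1 + (1 / 4 : ℂ) * h2 + (1 / 2 : ℂ) * h3
  unfold mean cr
  rw [e, cf_smul, cf_add, cf_add, cf_add, cf_ev, cf_ev, cf_ev, if_neg h2m, if_neg h2m', if_pos rfl]
  norm_num

theorem Nm_cosm (w : Weight) (s : ℕ) (m : ℤ × ℤ) : Nm w s (cosm m) ≠ ⊤ := by
  unfold Nm
  rw [tsum_eq_sum (s := {m, -m})]
  · exact (ENNReal.sum_lt_top.mpr fun _ _ => ENNReal.ofReal_lt_top).ne
  · intro n hn
    simp only [Finset.mem_insert, Finset.mem_singleton, not_or] at hn
    rw [s1cos_cr, if_neg (Ne.symm hn.1), if_neg (Ne.symm hn.2)]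
    simp

end P205T
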