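import Vale.Agent.Lib.P205T.Imm

/-! # P205T module S1Defs: the first contraction: definitions -/

open scoped ContDiff ENNReal
open Complex Set

namespace P205T

/-- the cosine with frequency `m` -/
noncomputable def cosm (m : ℤ × ℤ) : PR := reC (ev m)

/-- data of the first contraction -/
structure S1 where
  F : Frame
  G : CMet
  rho : PR
  rhoi : PR
  m : ℤ × ℤ
  K : ℝ

namespace S1

variable (S : S1) (x : Fin 3 → PR) (μ : ℝ)

/-- phase corrections -/
noncomputable def p : PR := μ • S.F.d 0 (cosm S.m) + S.F.d 1 (S.F.G0 (x 0))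
noncomputable def q : PR := -(μ • S.F.d 1 (cosm S.m)) + S.F.d 0 (S.F.G0 (x 0))

/-- their frame derivatives -/
noncomputable def dp (i : Fin 2) : PR := μ • S.F.d i (S.F.d 0 (cosm S.m)) + S.F.T i 1 (x 0)
noncomputable def dq (i : Fin 2) : PR := -(μ • S.F.d i (S.F.d 1 (cosm S.m))) + S.F.T i 0 (x 0)

/-- amplitude corrections -/
noncomputable def al : PR := -(S.rho * S.dp x μ 0) + x 1
noncomputable def be : PR := -(S.rho * S.dq x μ 1) + x 2

/-- amplitudes -/
noncomputable def A : PR := S.rho + S.al x μ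
noncomputable def B : PR := S.rho + S.be x μ

/-- truncated derivatives of the amplitudes, multiplied by `e` -/
noncomputable def eA (i : Fin 2) : PR := S.F.e • S.F.d i (Cut S.K (S.A x μ))
noncomputable def eB (i : Fin 2) : PR := S.F.e • S.F.d i (Cut S.K (S.B x μ))

/-- remainders -/
noncomputable def R00 : PR :=
  ((S.A x μ) ^ 2 * (1 + S.dp x μ 0) ^ 2 - S.rho ^ 2 - 2 * S.rho * S.al x μ
    - 2 * S.rho ^ 2 * S.dp x μ 0) + (S.B x μ) ^ 2 * (S.dq x μ 0) ^ 2
    + ((S.eA x μ 0) ^ 2 + (S.eB x μ 0) ^ 2) + (1 - S.F.gam S.G 0 0) • S.rho ^ 2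
noncomputable def R11 : PR :=
  ((S.B x μ) ^ 2 * (1 + S.dq x μ 1) ^ 2 - S.rho ^ 2 - 2 * S.rho * S.be x μ
    - 2 * S.rho ^ 2 * S.dq x μ 1) + (S.A x μ) ^ 2 * (S.dp x μ 1) ^ 2
    + ((S.eA x μ 1) ^ 2 + (S.eB x μ 1) ^ 2) + (1 - S.F.gam S.G 1 1) • S.rho ^ 2
noncomputable def R01 : PR :=
  ((S.A x μ) ^ 2 * (1 + S.dp x μ 0) * S.dp x μ 1 - S.rho ^ 2 * S.dp x μ 1)
    + ((S.B x μ) ^ 2 * S.dq x μ 0 * (1 + S.dq x μ 1) - S.rho ^ 2 * S.dq x μ 0)
    + (S.eA x μ 0 * S.eA x μ 1 + S.eB x μ 0 * S.eB x μ 1) - S.F.gam S.G 0 1 • S.rho ^ 2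

/-- the fixed point map -/
noncomputable def Theta : Fin 3 → PR :=
  ![-P0 (S.rhoi ^ 2 * S.R01 x μ), -((1 / 2 : ℝ) • (S.rhoi * S.R00 x μ)),
    -((1 / 2 : ℝ) • (S.rhoi * S.R11 x μ))]

/-- the mean defect -/
noncomputable def s : ℝ := mean (S.rhoi ^ 2 * S.R01 x μ)

/-- components of the first differential -/
noncomputable def phi (i : Fin 2) : PR := (if i = 0 then 1 else 0) + S.F.d i (S.p x μ)
noncomputable def psi (i : Fin 2) : PR := (if i = 1 then 1 else 0) + S.F.d i (S.q x μ)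

end S1

/-- the off-diagonal matrix -/
def sig (i j : Fin 2) : ℝ := if i = j then 0 else 1

/-- truncation frequency -/
noncomputable def Frame.Kc (F : Frame) : ℝ := (Real.sqrt F.e)⁻¹

/-- the small parameter -/
noncomputable def Frame.kap (F : Frame) (C3 : ℝ) : ℝ := Real.sqrt (C3 * F.e)

end P205T
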