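import Vale.Agent.Lib.P205T.S1Alg
import Vale.Agent.Lib.P205T.S1Cos
import Vale.Agent.Lib.P205T.FrG

/-! # P205T module S1G1: the first contraction: gauges of the building blocks -/

open scoped ContDiff ENNReal
open Complex Set

namespace P205T

/-- the family of domains of the first contraction -/
@[reducible] noncomputable def famS1 {ι : Type} (w : Weight) (F : ι → Frame) (C3 : ℝ)
    (h3 : 0 < C3) : Fam ι where
  w := w
  s0 := 13
  k := 3
  r := fun i => (F i).kap C3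
  kap := fun i => (F i).kap C3
  r_pos := fun i => Real.sqrt_pos.mpr (mul_pos h3 (F i).e_pos)
  kap_pos := fun i => Real.sqrt_pos.mpr (mul_pos h3 (F i).e_pos)

/-- the data of the first contraction for a frame -/
@[reducible] noncomputable def mkS1 (G : CMet) (rho rhoi : PR) (m : ℤ × ℤ) (F : Frame) : S1 :=
  ⟨F, G, rho, rhoi, m, F.Kc⟩

theorem S1G1_kap_pos (F : Frame) {C3 : ℝ} (h3 : 0 < C3) : 0 < F.kap C3 :=
  Real.sqrt_pos.mpr (mul_pos h3 F.e_pos)

/-- `μ` times a bounded family -/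
theorem S1G1_mu {ι : Type} {w : Weight} {F : ι → Frame} {C3 : ℝ} (h3 : 0 < C3) {s : ℕ}
    (c : ι → PR) {C : ℝ} (hC : 0 ≤ C) (h : ∀ i, Bd w s (c i) C) :
    Gau (famS1 w F C3 h3) s (fun _ => 1) (fun i _ μ => μ • c i) := by
  have h1 : Gau (famS1 w F C3 h3) s (fun i => (F i).kap C3 / (famS1 w F C3 h3).r i)
      (fun i _ μ => μ • c i) := by
    refine Gau.coef (D := famS1 w F C3 h3) (fun i μ => μ • c i) (fun i => (F i).kap C3) hC
      fun i μ h0 hk => ⟨?_, fun ν k0 kk => ?_⟩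
    · refine ((h i).smul μ).mono ?_
      rw [abs_of_nonneg h0, mul_comm]
      exact mul_le_mul_of_nonneg_left hk hC
    · have e : μ • c i - ν • c i = (μ - ν) • c i := by rw [sub_smul]
      rw [e]
      refine ((h i).smul (μ - ν)).mono (le_of_eq ?_)
      have hp := S1G1_kap_pos (F i) h3
      rw [mul_div_assoc, div_self hp.ne']
      ring
  refine h1.mono zero_le_one fun i => ?_
  have hp := S1G1_kap_pos (F i) h3
  show (F i).kap C3 / (F i).kap C3 ≤ 1 * 1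
  rw [div_self hp.ne', one_mul]

theorem S1G1_ll (F : Frame) (i j : Fin 2) {m : ℤ × ℤ} {C0 : ℝ} (h : F.lsq m ≤ C0) :
    |F.l i m * F.l j m| ≤ C0 := by
  have h1 : F.l i m ^ 2 ≤ F.lsq m := by
    unfold Frame.lsq
    have a0 := sq_nonneg (F.l 0 m)
    have a1 := sq_nonneg (F.l 1 m)
    fin_cases i
    · simp only [Fin.zero_eta]
      linarith
    · simp only [Fin.mk_one]
      linarith
  have h2 : F.l j m ^ 2 ≤ F.lsq m := by
    unfold Frame.lsq
    have a0 := sq_nonneg (F.l 0 m)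
    have a1 := sq_nonneg (F.l 1 m)
    fin_cases j
    · simp only [Fin.zero_eta]
      linarith
    · simp only [Fin.mk_one]
      linarith
  have h3 := sq_nonneg (F.l i m - F.l j m)
  have h4 := sq_nonneg (F.l i m + F.l j m)
  rw [abs_le]
  constructor <;> nlinarith

/-- `rho` has gauge `1 / kap` -/
theorem S1G1_rho {ι : Type} {w : Weight} {F : ι → Frame} {C3 : ℝ} (h3 : 0 < C3) {rho : PR}
    (hrho : Nm w 14 rho ≠ ⊤) :
    Gau (famS1 w F C3 h3) 13 (fun i => 1 / (F i).kap C3) (fun _ _ _ => rho) := by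
  obtain ⟨B, hB⟩ := exists_Bd hrho
  exact Gau.const (D := famS1 w F C3 h3) (fun _ => rho) (fun _ => 1) hB.nonneg
    (fun i => (hB.level (by norm_num)).mono (le_of_eq (mul_one B).symm))

theorem S1G1_one {ι : Type} {w : Weight} {C3 : ℝ} (h3 : 0 < C3) (F : ι → Frame) (i : ι) :
    1 / (F i).kap C3 * 1 * (famS1 w F C3 h3).r i ≤ 1 * 1 := by
  have hp := S1G1_kap_pos (F i) h3
  show 1 / (F i).kap C3 * 1 * (F i).kap C3 ≤ 1 * 1
  rw [mul_one, one_div, inv_mul_cancel₀ hp.ne', one_mul]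

theorem S1G1_kap_inv {ι : Type} {F : ι → Frame} {C3 : ℝ} (h3 : 0 < C3) {G : CMet} {C0 c1 : ℝ}
    {m : ℤ × ℤ} (hF : ∀ i, (F i).Good G C0 c1 m) (i : ι) :
    (1 : ℝ) ≤ Real.sqrt C3 * (1 / (F i).kap C3) := by
  have hp := S1G1_kap_pos (F i) h3
  rw [mul_one_div, le_div_iff₀ hp, one_mul]
  apply Real.sqrt_le_sqrt
  have h1 := (hF i).e_le
  calc C3 * (F i).e ≤ C3 * 1 := mul_le_mul_of_nonneg_left h1 h3.le
    _ = C3 := mul_one C3

/-- `e • d (Cut (rho + al))` has gauge `kap` if `al` has gauge `1` -/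
theorem S1G1_eCut {ι : Type} {w : Weight} {F : ι → Frame} {C3 : ℝ} (h3 : 0 < C3) {G : CMet}
    {C0 c1 : ℝ} {m : ℤ × ℤ} (hF : ∀ i, (F i).Good G C0 c1 m) (j : Fin 2) {rho : PR}
    (hrho : Nm w 14 rho ≠ ⊤) {al : ι → (Fin 3 → PR) → ℝ → PR}
    (hal : Gau (famS1 w F C3 h3) 13 (fun _ => 1) al) :
    Gau (famS1 w F C3 h3) 13 (fun i => (F i).kap C3)
      (fun i x μ => (F i).e • (F i).d j (Cut (F i).Kc (rho + al i x μ))) := by
  rcases isEmpty_or_nonempty ι with hι | ⟨⟨i0⟩⟩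
  · exact ⟨0, le_rfl, fun i => hι.elim i⟩
  have hC0 : 0 ≤ C0 := zero_le_one.trans (hF i0).C0_ge
  have hpi := Real.pi_pos
  obtain ⟨B, hB⟩ := exists_Bd hrho
  have hsq : ∀ i, (F i).kap C3 * (F i).kap C3 = C3 * (F i).e := fun i =>
    Real.mul_self_sqrt (mul_pos h3 (F i).e_pos).le
  have hsp : ∀ i, (F i).kap C3 = Real.sqrt C3 * Real.sqrt (F i).e := fun i =>
    Real.sqrt_mul h3.le _
  -- the part of `rho`
  have h1 : Gau (famS1 w F C3 h3) 13 (fun i => (F i).e / (famS1 w F C3 h3).r i)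
      (fun i _ _ => (F i).e • (F i).d j (Cut (F i).Kc rho)) := by
    refine Gau.const (D := famS1 w F C3 h3) _ (fun i => (F i).e)
      (C := 2 * Real.pi * C0 * B) (mul_nonneg (by positivity) hB.nonneg) fun i => ?_
    have h2 := Frame.Bd_d (hF i) j (Frame.Bd_Cut (K := (F i).Kc) hB)
    refine (h2.smul (F i).e).mono (le_of_eq ?_)
    rw [abs_of_pos (F i).e_pos, mul_comm]
  have h1' := h1.mono (g' := fun i => (F i).kap C3) (K := C3⁻¹) (inv_nonneg.2 h3.le) (fun i => by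
    have hp := S1G1_kap_pos (F i) h3
    show (F i).e / (F i).kap C3 ≤ C3⁻¹ * (F i).kap C3
    rw [div_le_iff₀ hp, mul_assoc, hsq, ← mul_assoc, inv_mul_cancel₀ h3.ne', one_mul])
  -- the part of `al`
  have h2 := (Gau.frdCut hF j (fun i => (F i).Kc) (fun i => inv_nonneg.2 (Real.sqrt_nonneg _))
    hal).smul (fun i => (F i).e)
  have hs3 : 0 < Real.sqrt C3 := Real.sqrt_pos.2 h3
  have h2' := h2.mono (g' := fun i => (F i).kap C3) (K := (Real.sqrt C3)⁻¹)
    (inv_nonneg.2 (Real.sqrt_nonneg _)) (fun i => by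
      have he := (F i).e_pos
      have hse : 0 < Real.sqrt (F i).e := Real.sqrt_pos.2 he
      show |(F i).e| * ((F i).Kc * 1) ≤ (Real.sqrt C3)⁻¹ * (F i).kap C3
      rw [hsp, inv_mul_cancel_left₀ hs3.ne', mul_one, abs_of_pos he]
      unfold Frame.Kc
      rw [← div_eq_mul_inv, div_le_iff₀ hse, Real.mul_self_sqrt he.le])
  refine (h1'.add h2').congr fun i x μ _ => ?_
  show (F i).e • (F i).d j (Cut (F i).Kc rho) + (F i).e • (F i).d j (Cut (F i).Kc (al i x μ))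
    = (F i).e • (F i).d j (Cut (F i).Kc (rho + al i x μ))
  rw [map_add, map_add, smul_add]

section

variable {ι : Type} {w : Weight} {F : ι → Frame} {C3 : ℝ} (h3 : 0 < C3) {G : CMet} {C0 c1 : ℝ}
  {m : ℤ × ℤ} (hF : ∀ i, (F i).Good G C0 c1 m) {rho rhoi : PR}
  (hrho : Nm w 14 rho ≠ ⊤)

include hF

theorem S1_dp (j : Fin 2) : Gau (famS1 w F C3 h3) 13 (fun _ => 1)
    (fun i x μ => (mkS1 G rho rhoi m (F i)).dp x μ j) := by
  obtain ⟨Bc, hBc⟩ := exists_Bd (Nm_cosm w 13 m)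
  have hmu : Gau (famS1 w F C3 h3) 13 (fun _ => 1)
      (fun i _ μ => μ • (F i).d j ((F i).d 0 (cosm m))) := by
    rcases isEmpty_or_nonempty ι with hι | ⟨⟨i0⟩⟩
    · exact ⟨0, le_rfl, fun i => hι.elim i⟩
    have hC0 : 0 ≤ C0 := zero_le_one.trans (hF i0).C0_ge
    refine S1G1_mu h3 _ (mul_nonneg hC0 hBc.nonneg) fun i => ?_
    rw [d_d_cosm]
    exact ((hBc.smul _).neg).mono
      (mul_le_mul_of_nonneg_right (S1G1_ll (F i) j 0 (hF i).m_hi) hBc.nonneg)
  have hT := Gau.frT (D := famS1 w F C3 h3) (F := F) j 1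
    (Gau.proj (D := famS1 w F C3 h3) (s := 13) (0 : Fin 3) le_rfl)
  exact hmu.add hT

theorem S1_dq (j : Fin 2) : Gau (famS1 w F C3 h3) 13 (fun _ => 1)
    (fun i x μ => (mkS1 G rho rhoi m (F i)).dq x μ j) := by
  obtain ⟨Bc, hBc⟩ := exists_Bd (Nm_cosm w 13 m)
  have hmu : Gau (famS1 w F C3 h3) 13 (fun _ => 1)
      (fun i _ μ => μ • (F i).d j ((F i).d 1 (cosm m))) := by
    rcases isEmpty_or_nonempty ι with hι | ⟨⟨i0⟩⟩
    · exact ⟨0, le_rfl, fun i => hι.elim i⟩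
    have hC0 : 0 ≤ C0 := zero_le_one.trans (hF i0).C0_ge
    refine S1G1_mu h3 _ (mul_nonneg hC0 hBc.nonneg) fun i => ?_
    rw [d_d_cosm]
    exact ((hBc.smul _).neg).mono
      (mul_le_mul_of_nonneg_right (S1G1_ll (F i) j 1 (hF i).m_hi) hBc.nonneg)
  have hT := Gau.frT (D := famS1 w F C3 h3) (F := F) j 0
    (Gau.proj (D := famS1 w F C3 h3) (s := 13) (0 : Fin 3) le_rfl)
  exact hmu.neg.add hT

include hrho

theorem S1_al : Gau (famS1 w F C3 h3) 13 (fun _ => 1)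
    (fun i x μ => (mkS1 G rho rhoi m (F i)).al x μ) := by
  have h1 := (S1G1_rho h3 (F := F) hrho).mul (S1_dp h3 hF (rho := rho) (rhoi := rhoi) 0)
  have h2 := h1.mono (g' := fun _ => 1) zero_le_one (S1G1_one h3 F)
  exact h2.neg.add (Gau.proj (D := famS1 w F C3 h3) (s := 13) (1 : Fin 3) le_rfl)

theorem S1_be : Gau (famS1 w F C3 h3) 13 (fun _ => 1)
    (fun i x μ => (mkS1 G rho rhoi m (F i)).be x μ) := by
  have h1 := (S1G1_rho h3 (F := F) hrho).mul (S1_dq h3 hF (rho := rho) (rhoi := rhoi) 1)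
  have h2 := h1.mono (g' := fun _ => 1) zero_le_one (S1G1_one h3 F)
  exact h2.neg.add (Gau.proj (D := famS1 w F C3 h3) (s := 13) (2 : Fin 3) le_rfl)

theorem S1_A : Gau (famS1 w F C3 h3) 13 (fun i => 1 / (F i).kap C3)
    (fun i x μ => (mkS1 G rho rhoi m (F i)).A x μ) := by
  have h1 := (S1_al h3 hF (rhoi := rhoi) hrho).mono (g' := fun i => 1 / (F i).kap C3)
    (Real.sqrt_nonneg C3) (S1G1_kap_inv h3 hF)
  exact (S1G1_rho h3 (F := F) hrho).add h1

theorem S1_B : Gau (famS1 w F C3 h3) 13 (fun i => 1 / (F i).kap C3)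
    (fun i x μ => (mkS1 G rho rhoi m (F i)).B x μ) := by
  have h1 := (S1_be h3 hF (rhoi := rhoi) hrho).mono (g' := fun i => 1 / (F i).kap C3)
    (Real.sqrt_nonneg C3) (S1G1_kap_inv h3 hF)
  exact (S1G1_rho h3 (F := F) hrho).add h1

/-- `e K = √e ≤ kap / √C3` and `e = kap ^ 2 / C3` -/
theorem S1_eA (j : Fin 2) : Gau (famS1 w F C3 h3) 13 (fun i => (F i).kap C3)
    (fun i x μ => (mkS1 G rho rhoi m (F i)).eA x μ j) := by
  have h1 := S1G1_eCut h3 hF j hrho (S1_al h3 hF (rhoi := rhoi) hrho)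
  exact h1

theorem S1_eB (j : Fin 2) : Gau (famS1 w F C3 h3) 13 (fun i => (F i).kap C3)
    (fun i x μ => (mkS1 G rho rhoi m (F i)).eB x μ j) := by
  have h1 := S1G1_eCut h3 hF j hrho (S1_be h3 hF (rhoi := rhoi) hrho)
  exact h1

end

end P205T
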