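import Vale.Agent.Lib.P205T.S1G1

/-! # P205T module S1G2: the first contraction: the map is a contraction -/

open scoped ContDiff ENNReal
open Complex Set

namespace P205T

section

variable {ι : Type} {w : Weight} {F : ι → Frame} {C3 : ℝ} (h3 : 0 < C3) {G : CMet} {C0 c1 : ℝ}
  {m : ℤ × ℤ} (hF : ∀ i, (F i).Good G C0 c1 m) {rho rhoi : PR}
  (hrho : Nm w 14 rho ≠ ⊤) (hrhoi : Nm w 14 rhoi ≠ ⊤)

theorem S1G2_kpos (h3 : 0 < C3) (i : ι) : 0 < (F i).kap C3 :=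
  Real.sqrt_pos.mpr (mul_pos h3 (F i).e_pos)

include hF in
theorem S1G2_kle (h3 : 0 < C3) (i : ι) : (F i).kap C3 ≤ Real.sqrt C3 := by
  unfold Frame.kap
  refine Real.sqrt_le_sqrt ?_
  have h1 := (hF i).e_le
  have h2 := mul_le_mul_of_nonneg_left h1 h3.le
  linarith

theorem S1G2_ksq (h3 : 0 < C3) (i : ι) : (F i).kap C3 * (F i).kap C3 = C3 * (F i).e :=
  Real.mul_self_sqrt (mul_nonneg h3.le (F i).e_pos.le)

/-- a fixed function -/
theorem S1G2_const {f : PR} (hf : Nm w 14 f ≠ ⊤) :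
    Gau (famS1 w F C3 h3) 13 (fun i => 1 / (F i).kap C3) (fun _ _ _ => f) := by
  obtain ⟨B, hB⟩ := exists_Bd hf
  have h1 := Gau.const (D := famS1 w F C3 h3) (s := 13) (fun _ => f) (fun _ => 1) hB.nonneg
    (fun i => by
      rw [mul_one]
      exact hB.level (by norm_num))
  exact h1

theorem S1G2_one :
    Gau (famS1 w F C3 h3) 13 (fun i => 1 / (F i).kap C3) (fun _ _ _ => (1 : PR)) := by
  have h1 := Gau.const (D := famS1 w F C3 h3) (s := 13) (fun _ => (1 : PR)) (fun _ => 1)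
    (C := 1) zero_le_one (fun i => by
      rw [mul_one]
      exact Bd.one)
  exact h1

variable {φ ψ : ι → (Fin 3 → PR) → ℝ → PR}

theorem S1G2_m11 (a : Gau (famS1 w F C3 h3) 13 (fun _ => 1) φ)
    (b : Gau (famS1 w F C3 h3) 13 (fun _ => 1) ψ) :
    Gau (famS1 w F C3 h3) 13 (fun i => (F i).kap C3) (fun i x μ => φ i x μ * ψ i x μ) :=
  (a.mul b).mono (K := 1) zero_le_one fun i => le_of_eq (by
    show 1 * 1 * (F i).kap C3 = 1 * (F i).kap C3
    ring)

theorem S1G2_mi1 (a : Gau (famS1 w F C3 h3) 13 (fun i => 1 / (F i).kap C3) φ)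
    (b : Gau (famS1 w F C3 h3) 13 (fun _ => 1) ψ) :
    Gau (famS1 w F C3 h3) 13 (fun _ => 1) (fun i x μ => φ i x μ * ψ i x μ) :=
  (a.mul b).mono (K := 1) zero_le_one fun i => le_of_eq (by
    show 1 / (F i).kap C3 * 1 * (F i).kap C3 = 1 * 1
    have h := (S1G2_kpos (F := F) h3 i).ne'
    field_simp)

theorem S1G2_mii (a : Gau (famS1 w F C3 h3) 13 (fun i => 1 / (F i).kap C3) φ)
    (b : Gau (famS1 w F C3 h3) 13 (fun i => 1 / (F i).kap C3) ψ) :
    Gau (famS1 w F C3 h3) 13 (fun i => 1 / (F i).kap C3) (fun i x μ => φ i x μ * ψ i x μ) :=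
  (a.mul b).mono (K := 1) zero_le_one fun i => le_of_eq (by
    show 1 / (F i).kap C3 * (1 / (F i).kap C3) * (F i).kap C3 = 1 * (1 / (F i).kap C3)
    have h := (S1G2_kpos (F := F) h3 i).ne'
    field_simp)

theorem S1G2_mik (a : Gau (famS1 w F C3 h3) 13 (fun i => 1 / (F i).kap C3) φ)
    (b : Gau (famS1 w F C3 h3) 13 (fun i => (F i).kap C3) ψ) :
    Gau (famS1 w F C3 h3) 13 (fun i => (F i).kap C3) (fun i x μ => φ i x μ * ψ i x μ) :=
  (a.mul b).mono (K := 1) zero_le_one fun i => le_of_eq (by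
    show 1 / (F i).kap C3 * (F i).kap C3 * (F i).kap C3 = 1 * (F i).kap C3
    have h := (S1G2_kpos (F := F) h3 i).ne'
    field_simp)

include hF

theorem S1G2_mkk (a : Gau (famS1 w F C3 h3) 13 (fun i => (F i).kap C3) φ)
    (b : Gau (famS1 w F C3 h3) 13 (fun i => (F i).kap C3) ψ) :
    Gau (famS1 w F C3 h3) 13 (fun i => (F i).kap C3) (fun i x μ => φ i x μ * ψ i x μ) :=
  (a.mul b).mono (K := C3) h3.le fun i => by
    show (F i).kap C3 * (F i).kap C3 * (F i).kap C3 ≤ C3 * (F i).kap C3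
    rw [S1G2_ksq h3 i]
    have h1 := (hF i).e_le
    have h2 := mul_le_mul_of_nonneg_left h1 h3.le
    have h := (S1G2_kpos (F := F) h3 i).le
    exact mul_le_mul_of_nonneg_right (by linarith) h

theorem S1G2_up (a : Gau (famS1 w F C3 h3) 13 (fun _ => 1) φ) :
    Gau (famS1 w F C3 h3) 13 (fun i => 1 / (F i).kap C3) φ :=
  a.mono (K := Real.sqrt C3) (Real.sqrt_nonneg _) fun i => by
    have h := S1G2_kpos (F := F) h3 i
    have h1 := S1G2_kle hF h3 i
    show 1 ≤ Real.sqrt C3 * (1 / (F i).kap C3)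
    rw [mul_one_div, le_div_iff₀ h]
    linarith

theorem S1G2_upk (a : Gau (famS1 w F C3 h3) 13 (fun i => (F i).kap C3) φ) :
    Gau (famS1 w F C3 h3) 13 (fun _ => 1) φ :=
  a.mono (K := Real.sqrt C3) (Real.sqrt_nonneg _) fun i => by
    have h1 := S1G2_kle hF h3 i
    show (F i).kap C3 ≤ Real.sqrt C3 * 1
    linarith

/-- `t • f` with `|t i| ≤ C0 e` -/
theorem S1G2_gam {f : PR} (hf : Gau (famS1 w F C3 h3) 13 (fun i => 1 / (F i).kap C3)
    (fun _ _ _ => f)) (t : ι → ℝ) (ht : ∀ i, |t i| ≤ C0 * (F i).e) :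
    Gau (famS1 w F C3 h3) 13 (fun i => (F i).kap C3) (fun i _ _ => t i • f) := by
  by_cases hne : Nonempty ι
  · obtain ⟨i0⟩ := hne
    have hC0 : 0 ≤ C0 := le_trans zero_le_one (hF i0).C0_ge
    refine (hf.smul t).mono (K := C0 / C3) (div_nonneg hC0 h3.le) fun i => ?_
    have h := S1G2_kpos (F := F) h3 i
    have h2 := S1G2_ksq (F := F) h3 i
    show |t i| * (1 / (F i).kap C3) ≤ C0 / C3 * (F i).kap C3
    rw [mul_one_div, div_le_iff₀ h, mul_assoc, h2]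
    refine (ht i).trans (le_of_eq ?_)
    field_simp
  · refine ⟨0, le_rfl, fun i => absurd ⟨i⟩ hne⟩

include hrho

theorem S1_R00 : Gau (famS1 w F C3 h3) 13 (fun i => (F i).kap C3)
    (fun i x μ => (mkS1 G rho rhoi m (F i)).R00 x μ) := by
  have hr := S1G2_const (F := F) (C3 := C3) h3 hrho
  have h1 := S1G2_one (w := w) (F := F) (C3 := C3) h3
  have p0 := S1_dp (rho := rho) (rhoi := rhoi) (w := w) h3 hF 0
  have q0 := S1_dq (rho := rho) (rhoi := rhoi) (w := w) h3 hF 0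
  have al := S1_al (rhoi := rhoi) h3 hF hrho
  have B := S1_B (rhoi := rhoi) h3 hF hrho
  have eA := S1_eA (rhoi := rhoi) h3 hF hrho 0
  have eB := S1_eB (rhoi := rhoi) h3 hF hrho 0
  have rr := S1G2_mii h3 hr hr
  have one_p := h1.add (S1G2_up h3 hF p0)
  have ral := S1G2_mi1 h3 hr al
  have t1 := S1G2_mik h3 rr (S1G2_m11 h3 p0 p0)
  have t2 := S1G2_m11 h3 ral p0
  have t3 := S1G2_m11 h3 ral (S1G2_upk h3 hF (S1G2_m11 h3 p0 p0))
  have t4 := S1G2_mik h3 (S1G2_mii h3 one_p one_p) (S1G2_m11 h3 al al)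
  have t5 := S1G2_mik h3 (S1G2_mii h3 B B) (S1G2_m11 h3 q0 q0)
  have t6 := (S1G2_mkk h3 hF eA eA).add (S1G2_mkk h3 hF eB eB)
  have t7 := S1G2_gam h3 hF rr (fun i => 1 - (F i).gam G 0 0) (fun i => by
    rw [abs_sub_comm]
    exact (hF i).gam00)
  have t := (((((t1.add (t2.add (t2.add (t2.add t2)))).add (t3.add t3)).add t4).add t5).add
    t6).add t7
  refine t.congr fun i x μ _ => ?_
  rw [S1.R00_eq]
  ring_nf

theorem S1_R11 : Gau (famS1 w F C3 h3) 13 (fun i => (F i).kap C3)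
    (fun i x μ => (mkS1 G rho rhoi m (F i)).R11 x μ) := by
  have hr := S1G2_const (F := F) (C3 := C3) h3 hrho
  have h1 := S1G2_one (w := w) (F := F) (C3 := C3) h3
  have p1 := S1_dp (rho := rho) (rhoi := rhoi) (w := w) h3 hF 1
  have q1 := S1_dq (rho := rho) (rhoi := rhoi) (w := w) h3 hF 1
  have be := S1_be (rhoi := rhoi) h3 hF hrho
  have A := S1_A (rhoi := rhoi) h3 hF hrho
  have eA := S1_eA (rhoi := rhoi) h3 hF hrho 1
  have eB := S1_eB (rhoi := rhoi) h3 hF hrho 1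
  have rr := S1G2_mii h3 hr hr
  have one_q := h1.add (S1G2_up h3 hF q1)
  have rbe := S1G2_mi1 h3 hr be
  have t1 := S1G2_mik h3 rr (S1G2_m11 h3 q1 q1)
  have t2 := S1G2_m11 h3 rbe q1
  have t3 := S1G2_m11 h3 rbe (S1G2_upk h3 hF (S1G2_m11 h3 q1 q1))
  have t4 := S1G2_mik h3 (S1G2_mii h3 one_q one_q) (S1G2_m11 h3 be be)
  have t5 := S1G2_mik h3 (S1G2_mii h3 A A) (S1G2_m11 h3 p1 p1)
  have t6 := (S1G2_mkk h3 hF eA eA).add (S1G2_mkk h3 hF eB eB)
  have t7 := S1G2_gam h3 hF rr (fun i => 1 - (F i).gam G 1 1) (fun i => by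
    rw [abs_sub_comm]
    exact (hF i).gam11)
  have t := (((((t1.add (t2.add (t2.add (t2.add t2)))).add (t3.add t3)).add t4).add t5).add
    t6).add t7
  refine t.congr fun i x μ _ => ?_
  rw [S1.R11_eq]
  ring_nf

theorem S1_R01 : Gau (famS1 w F C3 h3) 13 (fun i => (F i).kap C3)
    (fun i x μ => (mkS1 G rho rhoi m (F i)).R01 x μ) := by
  have hr := S1G2_const (F := F) (C3 := C3) h3 hrho
  have h1 := S1G2_one (w := w) (F := F) (C3 := C3) h3
  have p0 := S1_dp (rho := rho) (rhoi := rhoi) (w := w) h3 hF 0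
  have p1 := S1_dp (rho := rho) (rhoi := rhoi) (w := w) h3 hF 1
  have q0 := S1_dq (rho := rho) (rhoi := rhoi) (w := w) h3 hF 0
  have q1 := S1_dq (rho := rho) (rhoi := rhoi) (w := w) h3 hF 1
  have al := S1_al (rhoi := rhoi) h3 hF hrho
  have be := S1_be (rhoi := rhoi) h3 hF hrho
  have eA0 := S1_eA (rhoi := rhoi) h3 hF hrho 0
  have eB0 := S1_eB (rhoi := rhoi) h3 hF hrho 0
  have eA1 := S1_eA (rhoi := rhoi) h3 hF hrho 1
  have eB1 := S1_eB (rhoi := rhoi) h3 hF hrho 1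
  have rr := S1G2_mii h3 hr hr
  have one_p := h1.add (S1G2_up h3 hF p0)
  have one_q := h1.add (S1G2_up h3 hF q1)
  have ral := S1G2_mi1 h3 hr al
  have rbe := S1G2_mi1 h3 hr be
  have t1 := S1G2_mik h3 rr (S1G2_m11 h3 p0 p1)
  have t2 := S1G2_mik h3 one_p (S1G2_m11 h3 ral p1)
  have t3 := S1G2_mik h3 one_p (S1G2_m11 h3 (S1G2_upk h3 hF (S1G2_m11 h3 al al)) p1)
  have t4 := S1G2_mik h3 rr (S1G2_m11 h3 q0 q1)
  have t5 := S1G2_mik h3 one_q (S1G2_m11 h3 rbe q0)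
  have t6 := S1G2_mik h3 one_q (S1G2_m11 h3 (S1G2_upk h3 hF (S1G2_m11 h3 be be)) q0)
  have t7 := (S1G2_mkk h3 hF eA0 eA1).add (S1G2_mkk h3 hF eB0 eB1)
  have t8 := S1G2_gam h3 hF rr (fun i => (F i).gam G 0 1) (fun i => by
    have e1 := (hF i).gam01_lo
    have e2 := (hF i).gam01_hi
    have e3 := mul_nonneg (hF i).c1_pos.le (F i).e_pos.le
    have e4 : (F i).gam G 0 1 ≤ 0 := by linarith
    rw [abs_of_nonpos e4]
    exact e2)
  have t := ((((((t1.add (t2.add t2)).add t3).add t4).add (t5.add t5)).add t6).add t7).sub t8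
  refine t.congr fun i x μ _ => ?_
  rw [S1.R01_eq]
  ring_nf

include hrhoi

theorem S1_hR01 : Gau (famS1 w F C3 h3) 13 (fun i => (F i).kap C3)
    (fun i x μ => rhoi ^ 2 * (mkS1 G rho rhoi m (F i)).R01 x μ) := by
  have hi := S1G2_const (F := F) (C3 := C3) h3 hrhoi
  have t := S1G2_mik h3 (S1G2_mii h3 hi hi) (S1_R01 (rhoi := rhoi) h3 hF hrho)
  refine t.congr fun i x μ _ => ?_
  ring

theorem S1_Theta (j : Fin 3) : Gau (famS1 w F C3 h3) 13 (fun i => (F i).kap C3)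
    (fun i x μ => (mkS1 G rho rhoi m (F i)).Theta x μ j) := by
  have hi := S1G2_const (F := F) (C3 := C3) h3 hrhoi
  have key : ∀ {φ : ι → (Fin 3 → PR) → ℝ → PR},
      Gau (famS1 w F C3 h3) 13 (fun i => (F i).kap C3) φ →
      Gau (famS1 w F C3 h3) 13 (fun i => (F i).kap C3)
        (fun i x μ => -((1 / 2 : ℝ) • (rhoi * φ i x μ))) := by
    intro φ hφ
    refine ((((S1G2_mik h3 hi hφ).smul (fun _ => (1 / 2 : ℝ))).mono (K := 1 / 2)
      (by norm_num) fun i => le_of_eq ?_)).neg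
    show |(1 / 2 : ℝ)| * (F i).kap C3 = 1 / 2 * (F i).kap C3
    rw [abs_of_pos (by norm_num)]
  fin_cases j
  · exact ((S1_hR01 (rhoi := rhoi) h3 hF hrho hrhoi).P0).neg
  · exact key (S1_R00 (rhoi := rhoi) h3 hF hrho)
  · exact key (S1_R11 (rhoi := rhoi) h3 hF hrho)

end

end P205T
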