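import Vale.Agent.Lib.P205T.S2Defs

/-! # P205T module S2Lin: the linear identity -/

open scoped ContDiff ENNReal
open Complex Set

namespace P205T

namespace S2

variable (S : S2) (x : Fin 5 → PR)

theorem S2Lin_cancel (e : ℝ) (he : e ≠ 0) (f g : PR) : (e⁻¹ • f) * (e • g) = f * g := by
  rw [smul_mul_smul_comm, inv_mul_cancel₀ he, one_smul]

theorem S2Lin_Ph (i : Fin 2) : S.F.Ph S.p i = S.F.e⁻¹ • S.phi i := rfl

theorem S2Lin_Ps (i : Fin 2) : S.F.Ps S.q i = S.F.e⁻¹ • S.psi i := rfl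

theorem S2Lin_DV0 (i : Fin 2) : S.D i S.V0 =
    ![S.F.e • S.F.d i S.A, S.phi i * S.A, S.F.e • S.F.d i S.B, S.psi i * S.B] := by
  have he : S.F.e ≠ 0 := S.F.e_pos.ne'
  unfold D Frame.D
  rw [S2Lin_Ph, S2Lin_Ps]
  have h0 : S.V0 0 = S.F.e • S.A := rfl
  have h1 : S.V0 1 = 0 := rfl
  have h2 : S.V0 2 = S.F.e • S.B := rfl
  have h3 : S.V0 3 = 0 := rfl
  rw [h0, h1, h2, h3, S2Lin_cancel _ he, S2Lin_cancel _ he, map_smul, map_smul, map_zero, mul_zero,
    mul_zero, sub_zero, sub_zero, zero_add, zero_add]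

theorem S2Lin_Dv (i : Fin 2) : S.D i (S.v x) =
    ![S.F.e • S.F.d i (S.al x) - (S.F.e⁻¹ • S.phi i) * (S.A * S.P x),
      S.F.d i S.A * S.P x + S.A * S.F.d i (S.P x) + S.phi i * S.al x,
      S.F.e • S.F.d i (S.ga x) - (S.F.e⁻¹ • S.psi i) * (S.B * S.R x),
      S.F.d i S.B * S.R x + S.B * S.F.d i (S.R x) + S.psi i * S.ga x] := by
  have he : S.F.e ≠ 0 := S.F.e_pos.ne'
  unfold D Frame.D
  rw [S2Lin_Ph, S2Lin_Ps]
  have h0 : S.v x 0 = S.F.e • S.al x := rfl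
  have h1 : S.v x 1 = S.A * S.P x := rfl
  have h2 : S.v x 2 = S.F.e • S.ga x := rfl
  have h3 : S.v x 3 = S.B * S.R x := rfl
  rw [h0, h1, h2, h3, S2Lin_cancel _ he, S2Lin_cancel _ he, map_smul, map_smul, Frame.d_mul,
    Frame.d_mul]

/-- the metric of the base amplitudes -/
theorem base_metric (i j : Fin 2) : ip4 (S.D i S.V0) (S.D j S.V0) =
    S.A ^ 2 * (S.phi i * S.phi j) + S.B ^ 2 * (S.psi i * S.psi j)
      + S.F.e ^ 2 • (S.F.d i S.A * S.F.d j S.A + S.F.d i S.B * S.F.d j S.B) := by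
  rw [S2Lin_DV0, S2Lin_DV0]
  show (S.F.e • S.F.d i S.A) * (S.F.e • S.F.d j S.A) + (S.phi i * S.A) * (S.phi j * S.A)
    + (S.F.e • S.F.d i S.B) * (S.F.e • S.F.d j S.B) + (S.psi i * S.B) * (S.psi j * S.B) = _
  rw [smul_mul_smul_comm, smul_mul_smul_comm, ← pow_two, smul_add]
  ring

theorem S2Lin_phi_d (i j : Fin 2) : S.F.d i (S.phi j) = S.F.d i (S.F.d j S.p) := by
  unfold phi
  rw [map_add]
  split_ifs
  · rw [Frame.d_one, zero_add]
  · rw [map_zero, zero_add]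

/-- one half of the identity, the part of `A`, `P`, `al` -/
theorem S2Lin_half (F : Frame) (A P al phi phj : PR) (i j : Fin 2) :
    ((F.e • F.d i A) * (F.e • F.d j al - (F.e⁻¹ • phj) * (A * P))
      + (phi * A) * (F.d j A * P + A * F.d j P + phj * al))
    + ((F.e • F.d i al - (F.e⁻¹ • phi) * (A * P)) * (F.e • F.d j A)
      + (F.d i A * P + A * F.d i P + phi * al) * (phj * A)) =
    F.d j (A ^ 2 * phi * P + (F.e ^ 2) • (F.d i A * al))
      + F.d i (A ^ 2 * phj * P + (F.e ^ 2) • (F.d j A * al))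
      + (-(P * (F.d j (A ^ 2 * phi) + F.d i (A ^ 2 * phj)))
        - (2 * F.e ^ 2) • (F.d i (F.d j A) * al) + 2 * (A * phi * phj) * al) := by
  have he : F.e ≠ 0 := F.e_pos.ne'
  have hE : algebraMap ℝ PR F.e⁻¹ * algebraMap ℝ PR F.e = 1 := by
    rw [← map_mul, inv_mul_cancel₀ he, map_one]
  have hc : F.d j (F.d i A) = F.d i (F.d j A) := Frame.d_comm F j i A
  have e1 : F.d j (A ^ 2 * phi * P + (F.e ^ 2) • (F.d i A * al)) =
      F.d j (A ^ 2 * phi) * P + A ^ 2 * phi * F.d j P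
        + (F.e ^ 2) • (F.d j (F.d i A) * al + F.d i A * F.d j al) := by
    rw [map_add, map_smul, Frame.d_mul F j (A ^ 2 * phi) P, Frame.d_mul F j (F.d i A) al]
  have e2 : F.d i (A ^ 2 * phj * P + (F.e ^ 2) • (F.d j A * al)) =
      F.d i (A ^ 2 * phj) * P + A ^ 2 * phj * F.d i P
        + (F.e ^ 2) • (F.d i (F.d j A) * al + F.d j A * F.d i al) := by
    rw [map_add, map_smul, Frame.d_mul F i (A ^ 2 * phj) P, Frame.d_mul F i (F.d j A) al]
  rw [e1, e2, hc]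
  simp only [Algebra.smul_def, map_mul, map_pow, map_ofNat]
  generalize F.d j (A ^ 2 * phi) = X1
  generalize F.d i (A ^ 2 * phj) = X2
  generalize F.d i (F.d j A) = X3
  generalize F.d i A = Ai
  generalize F.d j A = Aj
  generalize F.d i P = Pi
  generalize F.d j P = Pj
  generalize F.d i al = ali
  generalize F.d j al = alj
  generalize algebraMap ℝ PR F.e = E at *
  generalize algebraMap ℝ PR F.e⁻¹ = E' at *
  linear_combination (-(Ai * phj * A * P) - phi * A * P * Aj) * hE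

/-- the linearized metric is a symmetrized derivative plus zeroth order terms -/
theorem lin_metric (i j : Fin 2) :
    ip4 (S.D i S.V0) (S.D j (S.v x)) + ip4 (S.D i (S.v x)) (S.D j S.V0) =
      S.F.d j (S.zeta x i) + S.F.d i (S.zeta x j) + S.Z x i j := by
  rw [S2Lin_DV0, S2Lin_DV0, S2Lin_Dv, S2Lin_Dv]
  have hA := S2Lin_half S.F S.A (S.P x) (S.al x) (S.phi i) (S.phi j) i j
  have hB := S2Lin_half S.F S.B (S.R x) (S.ga x) (S.psi i) (S.psi j) i j
  have ez : ∀ k, S.zeta x k = (S.A ^ 2 * S.phi k * S.P x + (S.F.e ^ 2) • (S.F.d k S.A * S.al x))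
      + (S.B ^ 2 * S.psi k * S.R x + (S.F.e ^ 2) • (S.F.d k S.B * S.ga x)) := by
    intro k
    unfold zeta
    rw [smul_add]
    ring
  rw [ez, ez, map_add (S.F.d j), map_add (S.F.d i)]
  have eZ : S.Z x i j = (-(S.P x * (S.F.d j (S.A ^ 2 * S.phi i) + S.F.d i (S.A ^ 2 * S.phi j)))
        - (2 * S.F.e ^ 2) • (S.F.d i (S.F.d j S.A) * S.al x)
        + 2 * (S.A * S.phi i * S.phi j) * S.al x)
      + (-(S.R x * (S.F.d j (S.B ^ 2 * S.psi i) + S.F.d i (S.B ^ 2 * S.psi j)))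
        - (2 * S.F.e ^ 2) • (S.F.d i (S.F.d j S.B) * S.ga x)
        + 2 * (S.B * S.psi i * S.psi j) * S.ga x) := by
    unfold Z
    rw [smul_add]
    ring
  rw [eZ]
  show ((S.F.e • S.F.d i S.A) * (S.F.e • S.F.d j (S.al x) - (S.F.e⁻¹ • S.phi j) * (S.A * S.P x))
      + (S.phi i * S.A) * (S.F.d j S.A * S.P x + S.A * S.F.d j (S.P x) + S.phi j * S.al x)
      + (S.F.e • S.F.d i S.B) * (S.F.e • S.F.d j (S.ga x) - (S.F.e⁻¹ • S.psi j) * (S.B * S.R x))
      + (S.psi i * S.B) * (S.F.d j S.B * S.R x + S.B * S.F.d j (S.R x) + S.psi j * S.ga x))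
    + ((S.F.e • S.F.d i (S.al x) - (S.F.e⁻¹ • S.phi i) * (S.A * S.P x)) * (S.F.e • S.F.d j S.A)
      + (S.F.d i S.A * S.P x + S.A * S.F.d i (S.P x) + S.phi i * S.al x) * (S.phi j * S.A)
      + (S.F.e • S.F.d i (S.ga x) - (S.F.e⁻¹ • S.psi i) * (S.B * S.R x)) * (S.F.e • S.F.d j S.B)
      + (S.F.d i S.B * S.R x + S.B * S.F.d i (S.R x) + S.psi i * S.ga x) * (S.psi j * S.B)) = _
  linear_combination hA + hB

end S2

end P205T
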