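import Vale.Agent.Lib.P205T.S2Gue
import Vale.Agent.Lib.P205T.S2Lin

/-! # P205T module S2Alg: the second contraction: algebra -/

open scoped ContDiff ENNReal
open Complex Set

namespace P205T

namespace S2

variable (S : S2) (x : Fin 5 → PR)

private theorem S2Alg_P0_P0 (f : PR) : P0 (P0 f) = P0 f := by
  apply cr_injective
  intro n
  rw [cr_P0, cr_P0]
  split_ifs <;> rfl

private theorem S2Alg_ip4 (a b c d : V4) :
    ip4 (a + b) (c + d) = ip4 a c + (ip4 a d + ip4 b c) + ip4 b d := by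
  simp only [ip4, Pi.add_apply]
  ring

private theorem S2Alg_ip4_comm (a b : V4) : ip4 a b = ip4 b a := by
  simp only [ip4]
  ring

private theorem S2Alg_flux0 (hr : S.rho * S.rhoi = 1) (h3 : S.Php x = x 3) :
    S.zeta x 0 + S.N (S.v x) 0 = S.rho ^ 2 * S.u x 1 := by
  unfold Php at h3
  unfold zeta
  have hP : S.P x = S.u x 1 + x 3 := rfl
  generalize S.N (S.v x) 0 = N0 at h3 ⊢
  generalize (S.F.e ^ 2) • (S.F.d 0 S.A * S.al x + S.F.d 0 S.B * S.ga x) = W at h3 ⊢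
  linear_combination (-S.rho ^ 2) * h3 + S.rho ^ 2 * hP -
    (S.rho * S.rhoi + 1) * ((S.A ^ 2 * S.phi 0 - S.rho ^ 2) * S.P x + S.B ^ 2 * S.psi 0 * S.R x
    + W + N0) * hr

private theorem S2Alg_flux1 (hr : S.rho * S.rhoi = 1) (h4 : S.Rhp x = x 4) :
    S.zeta x 1 + S.N (S.v x) 1 = S.rho ^ 2 * S.u x 0 := by
  unfold Rhp at h4
  unfold zeta
  have hR : S.R x = S.u x 0 + x 4 := rfl
  generalize S.N (S.v x) 1 = N1 at h4 ⊢
  generalize (S.F.e ^ 2) • (S.F.d 1 S.A * S.al x + S.F.d 1 S.B * S.ga x) = W at h4 ⊢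
  linear_combination (-S.rho ^ 2) * h4 + S.rho ^ 2 * hR -
    (S.rho * S.rhoi + 1) * (S.A ^ 2 * S.phi 1 * S.P x + (S.B ^ 2 * S.psi 1 - S.rho ^ 2) * S.R x
    + W + N1) * hr

private theorem S2Alg_half (f g : PR) (hr : S.rho * S.rhoi = 1)
    (h : (1 / 2 : ℝ) • (S.rhoi * f) = g) : f = 2 * (S.rho * g) := by
  have h2 : (2 : PR) * ((1 / 2 : ℝ) • (S.rhoi * f)) = S.rhoi * f := by
    ext t
    simp only [PR.mul_apply, PR.smul_apply]
    have : (2 : PR) t = 2 := rfl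
    rw [this]
    ring
  rw [h] at h2
  linear_combination (-S.rho) * h2 - f * hr

private theorem S2Alg_du (i : Fin 2) (j : Fin 2) :
    S.F.d i (S.u x j) = S.F.T i j (x 0) := by
  unfold u
  exact S.F.d_d_G0 i j (x 0)

private theorem S2Alg_T_symm (f : PR) : S.F.T 1 0 f = S.F.T 0 1 f := by
  rw [← S.F.d_d_G0, ← S.F.d_d_G0, S.F.d_comm]

private theorem S2Alg_sum (i j : Fin 2) :
    ip4 (S.D i (S.V0 + S.v x)) (S.D j (S.V0 + S.v x)) =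
      (S.A ^ 2 * (S.phi i * S.phi j) + S.B ^ 2 * (S.psi i * S.psi j)
      + S.F.e ^ 2 • (S.F.d i S.A * S.F.d j S.A + S.F.d i S.B * S.F.d j S.B)) +
      (S.F.d j (S.zeta x i + S.N (S.v x) i) + S.F.d i (S.zeta x j + S.N (S.v x) j) + S.Z x i j
        + S.M (S.v x) i j) := by
  rw [S.D_add, S.D_add, S2Alg_ip4, S.base_metric, S.lin_metric, S.guenther, map_add, map_add]
  ring

private theorem S2Alg_00 (hr : S.rho * S.rhoi = 1) (h1 : S.ap x = x 1) (h3 : S.Php x = x 3) :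
    S.F.d 0 (S.zeta x 0 + S.N (S.v x) 0) + S.F.d 0 (S.zeta x 0 + S.N (S.v x) 0) + S.Z x 0 0
        + S.M (S.v x) 0 0 = -S.E00 := by
  have hf := S2Alg_flux0 S x hr h3
  have hh := S2Alg_half S _ _ hr h1
  rw [hf, S.F.d_mul, S2Alg_du]
  have hP : S.P x = S.u x 1 + x 3 := rfl
  have hal : S.al x = -(S.rho * S.F.T 0 1 (x 0)) + x 1 := rfl
  rw [h3] at hh
  have hz : S.Z x 0 0 = S.z00 x - 2 * S.P x * S.F.d 0 (S.rho ^ 2) + 2 * S.rho * S.al x := by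
    unfold Z z00
    rw [map_sub]
    generalize (2 * S.F.e ^ 2) • (S.F.d 0 (S.F.d 0 S.A) * S.al x + S.F.d 0 (S.F.d 0 S.B) * S.ga x)
      = W
    ring
  rw [hz]
  linear_combination (-1 : PR) * hh + 2 * S.rho * hal - 2 * S.F.d 0 (S.rho ^ 2) * hP

private theorem S2Alg_11 (hr : S.rho * S.rhoi = 1) (h2 : S.bp x = x 2) (h4 : S.Rhp x = x 4) :
    S.F.d 1 (S.zeta x 1 + S.N (S.v x) 1) + S.F.d 1 (S.zeta x 1 + S.N (S.v x) 1) + S.Z x 1 1
        + S.M (S.v x) 1 1 = -S.E11 := by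
  have hf := S2Alg_flux1 S x hr h4
  have hh := S2Alg_half S _ _ hr h2
  rw [hf, S.F.d_mul, S2Alg_du, S2Alg_T_symm]
  have hR : S.R x = S.u x 0 + x 4 := rfl
  have hga : S.ga x = -(S.rho * S.F.T 0 1 (x 0)) + x 2 := rfl
  rw [h4] at hh
  have hz : S.Z x 1 1 = S.z11 x - 2 * S.R x * S.F.d 1 (S.rho ^ 2) + 2 * S.rho * S.ga x := by
    unfold Z z11
    rw [map_sub]
    generalize (2 * S.F.e ^ 2) • (S.F.d 1 (S.F.d 1 S.A) * S.al x + S.F.d 1 (S.F.d 1 S.B) * S.ga x)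
      = W
    ring
  rw [hz]
  linear_combination (-1 : PR) * hh + 2 * S.rho * hga - 2 * S.F.d 1 (S.rho ^ 2) * hR

private theorem S2Alg_01 (hr : S.rho * S.rhoi = 1) (h0 : P0 (S.hh x) = x 0)
    (h3 : S.Php x = x 3) (h4 : S.Rhp x = x 4) :
    S.F.d 1 (S.zeta x 0 + S.N (S.v x) 0) + S.F.d 0 (S.zeta x 1 + S.N (S.v x) 1) + S.Z x 0 1
        + S.M (S.v x) 0 1 = -S.E01 - cst (mean (S.hh x)) * S.rho ^ 2 := by
  have hf0 := S2Alg_flux0 S x hr h3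
  have hf1 := S2Alg_flux1 S x hr h4
  rw [hf0, hf1, S.F.d_mul, S.F.d_mul, S2Alg_du, S2Alg_du]
  have hP : S.P x = S.u x 1 + x 3 := rfl
  have hR : S.R x = S.u x 0 + x 4 := rfl
  have hz : S.Z x 0 1 = S.z01 x - S.P x * S.F.d 1 (S.rho ^ 2) - S.R x * S.F.d 0 (S.rho ^ 2) := by
    unfold Z z01
    rw [map_sub, map_sub]
    generalize (2 * S.F.e ^ 2) • (S.F.d 0 (S.F.d 1 S.A) * S.al x + S.F.d 0 (S.F.d 1 S.B) * S.ga x)
      = W
    ring
  have ht : S.F.T 0 0 (x 0) + S.F.T 1 1 (x 0) = S.hh x - cst (mean (S.hh x)) := by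
    rw [S.F.T_trace, ← h0, S2Alg_P0_P0]
    rfl
  have hhh : S.hh x = S.rhoi ^ 2 * (-S.E01 - S.M (S.v x) 0 1 - S.z01 x
    + S.F.d 1 (S.rho ^ 2) * x 3 + S.F.d 0 (S.rho ^ 2) * x 4) := by
    rw [← h3, ← h4]
    rfl
  rw [hz]
  linear_combination S.rho ^ 2 * ht + S.rho ^ 2 * hhh - S.F.d 1 (S.rho ^ 2) * hP
    - S.F.d 0 (S.rho ^ 2) * hR + (S.rho * S.rhoi + 1) * (-S.E01 - S.M (S.v x) 0 1 - S.z01 x
    + S.F.d 1 (S.rho ^ 2) * x 3 + S.F.d 0 (S.rho ^ 2) * x 4) * hr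

/-- the fixed point equation gives the exact metric up to a multiple of the off-diagonal matrix -/
theorem fixed_metric (G : CMet) (s : ℝ) (E : Fin 2 → Fin 2 → PR) (hE00 : S.E00 = E 0 0)
    (hE01 : S.E01 = E 0 1) (hE11 : S.E11 = E 1 1) (hE : E 1 0 = E 0 1)
    (hr : S.rho * S.rhoi = 1) (hx : S.Theta x = x)
    (hb : ∀ i j, S.A ^ 2 * (S.phi i * S.phi j) + S.B ^ 2 * (S.psi i * S.psi j)
      + S.F.e ^ 2 • (S.F.d i S.A * S.F.d j S.A + S.F.d i S.B * S.F.d j S.B) =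
      S.F.gam G i j • S.rho ^ 2 + (s * sig i j) • S.rho ^ 2 + E i j) (i j : Fin 2) :
    ip4 (S.D i (S.V0 + S.v x)) (S.D j (S.V0 + S.v x)) =
      S.F.gam G i j • S.rho ^ 2 + ((s - mean (S.hh x)) * sig i j) • S.rho ^ 2 := by
  have h0 : P0 (S.hh x) = x 0 := congrFun hx 0
  have h1 : S.ap x = x 1 := congrFun hx 1
  have h2 : S.bp x = x 2 := congrFun hx 2
  have h3 : S.Php x = x 3 := congrFun hx 3
  have h4 : S.Rhp x = x 4 := congrFun hx 4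
  have key01 : ip4 (S.D 0 (S.V0 + S.v x)) (S.D 1 (S.V0 + S.v x)) =
      S.F.gam G 0 1 • S.rho ^ 2 + ((s - mean (S.hh x)) * 1) • S.rho ^ 2 := by
    rw [S2Alg_sum, hb, S2Alg_01 S x hr h0 h3 h4, hE01]
    have e1 : sig 0 1 = 1 := by simp [sig]
    have e2 : cst (mean (S.hh x)) * S.rho ^ 2 = mean (S.hh x) • S.rho ^ 2 :=
      (Algebra.smul_def _ _).symm
    rw [e1, e2, mul_one, mul_one, sub_smul]
    abel
  have hsig : ∀ k : Fin 2, sig k k = 0 := fun k => by simp [sig]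
  fin_cases i <;> fin_cases j
  · show ip4 (S.D 0 (S.V0 + S.v x)) (S.D 0 (S.V0 + S.v x)) =
      S.F.gam G 0 0 • S.rho ^ 2 + ((s - mean (S.hh x)) * sig 0 0) • S.rho ^ 2
    rw [S2Alg_sum, hb, S2Alg_00 S x hr h1 h3, hE00, hsig, mul_zero, mul_zero, zero_smul]
    abel
  · show ip4 (S.D 0 (S.V0 + S.v x)) (S.D 1 (S.V0 + S.v x)) =
      S.F.gam G 0 1 • S.rho ^ 2 + ((s - mean (S.hh x)) * sig 0 1) • S.rho ^ 2
    have e1 : sig 0 1 = 1 := by simp [sig]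
    rw [key01, e1]
  · show ip4 (S.D 1 (S.V0 + S.v x)) (S.D 0 (S.V0 + S.v x)) =
      S.F.gam G 1 0 • S.rho ^ 2 + ((s - mean (S.hh x)) * sig 1 0) • S.rho ^ 2
    have e1 : sig 1 0 = 1 := by simp [sig]
    have e2 : S.F.gam G 1 0 = S.F.gam G 0 1 := by
      unfold Frame.gam CMet.ip
      ring
    rw [S2Alg_ip4_comm, key01, e1, e2]
  · show ip4 (S.D 1 (S.V0 + S.v x)) (S.D 1 (S.V0 + S.v x)) =
      S.F.gam G 1 1 • S.rho ^ 2 + ((s - mean (S.hh x)) * sig 1 1) • S.rho ^ 2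
    rw [S2Alg_sum, hb, S2Alg_11 S x hr h2 h4, hE11, hsig, mul_zero, mul_zero, zero_smul]
    abel

end S2

end P205T
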