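import Vale.Agent.Lib.P205T.S2Defs
import Vale.Agent.Lib.P205T.Approx

/-! # P205T module S2C1: the second contraction: gauges of the coefficients -/

open scoped ContDiff ENNReal
open Complex Set

namespace P205T

/-- the family of domains of the second contraction -/
@[reducible] noncomputable def famS2 {ι : Type} (w : Weight) (F : ι → Frame) (C3 : ℝ)
    (h3 : 0 < C3) : Fam ι where
  w := w
  s0 := 2
  k := 5
  r := fun i => (F i).e ^ 5
  kap := fun i => (F i).kap C3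
  r_pos := fun i => pow_pos (F i).e_pos 5
  kap_pos := fun i => Real.sqrt_pos.mpr (mul_pos h3 (F i).e_pos)

/-- the data of the second contraction at the parameter `μ` -/
@[reducible] noncomputable def mkS2 (rho rhoi : PR) (F : Frame) (X : ApproxData) (μ : ℝ) : S2 :=
  ⟨F, rho, rhoi, X.A μ, X.B μ, X.p μ, X.q μ, X.E 0 0 μ, X.E 0 1 μ, X.E 1 1 μ⟩

private theorem s2c1_kap_pos (F : Frame) {C3 : ℝ} (h3 : 0 < C3) : 0 < F.kap C3 :=
  Real.sqrt_pos.mpr (mul_pos h3 F.e_pos)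

/-- coefficients of size `kap` -/
private theorem s2c1_small {ι : Type} {w : Weight} {F : ι → Frame} {C3 : ℝ} (h3 : 0 < C3) {C : ℝ}
    (hC : 0 ≤ C) (c : ι → ℝ → PR)
    (h1 : ∀ i, ∀ μ ∈ Icc 0 ((F i).kap C3), Bd w 13 (c i μ) (C * (F i).kap C3))
    (h2 : ∀ i, ∀ μ ∈ Icc 0 ((F i).kap C3), ∀ ν ∈ Icc 0 ((F i).kap C3),
      Bd w 13 (c i μ - c i ν) (C * |μ - ν|)) :
    Gau (famS2 w F C3 h3) 13 (fun i => (F i).kap C3 / (F i).e ^ 5) (fun i _ μ => c i μ) := by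
  refine Gau.coef (D := famS2 w F C3 h3) c (fun i => (F i).kap C3) hC
    fun i μ h0 hk => ⟨h1 i μ ⟨h0, hk⟩, fun ν k0 kk => ?_⟩
  refine (h2 i μ ⟨h0, hk⟩ ν ⟨k0, kk⟩).mono (le_of_eq ?_)
  have hp := s2c1_kap_pos (F i) h3
  show C * |μ - ν| = C * (F i).kap C3 / (F i).kap C3 * |μ - ν|
  rw [mul_div_assoc, div_self hp.ne', mul_one]

private theorem s2c1_kap_le {ι : Type} {F : ι → Frame} {C3 : ℝ} (h3 : 0 < C3) {G : CMet}
    {C0 c1 : ℝ} {m : ℤ × ℤ} (hF : ∀ i, (F i).Good G C0 c1 m) (i : ι) :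
    (F i).kap C3 / (F i).e ^ 5 ≤ Real.sqrt C3 * (1 / (F i).e ^ 5) := by
  have hk : (F i).kap C3 ≤ Real.sqrt C3 := by
    apply Real.sqrt_le_sqrt
    have h1 := (hF i).e_le
    calc C3 * (F i).e ≤ C3 * 1 := mul_le_mul_of_nonneg_left h1 h3.le
      _ = C3 := mul_one C3
  rw [mul_one_div]
  exact div_le_div_of_nonneg_right hk (pow_pos (F i).e_pos 5).le

/-- bounded coefficients -/
private theorem s2c1_const {ι : Type} {w : Weight} {F : ι → Frame} {C3 : ℝ} (h3 : 0 < C3) {B : ℝ}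
    {f : PR} (hf : Bd w 13 f B) :
    Gau (famS2 w F C3 h3) 13 (fun i => 1 / (F i).e ^ 5) (fun _ _ _ => f) :=
  Gau.const (D := famS2 w F C3 h3) (fun _ => f) (fun _ => 1) hf.nonneg
    (fun _ => hf.mono (le_of_eq (mul_one B).symm))

/-- phases -/
private theorem s2c1_phase {ι : Type} {w : Weight} {F : ι → Frame} {C3 : ℝ} (h3 : 0 < C3)
    {G : CMet} {C0 c1 : ℝ} {m : ℤ × ℤ} (hF : ∀ i, (F i).Good G C0 c1 m) (c : ι → ℝ → PR)
    (h : Gau (famS2 w F C3 h3) 13 (fun i => (F i).kap C3 / (F i).e ^ 5) (fun i _ μ => c i μ))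
    (P : Prop) [Decidable P] :
    Gau (famS2 w F C3 h3) 13 (fun i => 1 / (F i).e / (F i).e ^ 5)
      (fun i _ μ => (F i).e⁻¹ • ((if P then 1 else 0) + c i μ)) := by
  have h0 : Bd w 13 (if P then 1 else 0 : PR) 1 := by
    split_ifs
    · exact Bd.one
    · exact Bd.zero.mono zero_le_one
  have h1 := (s2c1_const (F := F) h3 h0).add
    (h.mono (g' := fun i => 1 / (F i).e ^ 5) (Real.sqrt_nonneg C3) (s2c1_kap_le h3 hF))
  refine (h1.smul (fun i => (F i).e⁻¹)).mono (K := 1) zero_le_one fun i => ?_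
  have he := (F i).e_pos
  have e1 : |(F i).e⁻¹| = 1 / (F i).e := by
    rw [abs_of_pos (inv_pos.mpr he), one_div]
  refine le_of_eq ?_
  show |(F i).e⁻¹| * (1 / (F i).e ^ 5) = 1 * (1 / (F i).e / (F i).e ^ 5)
  rw [e1]
  ring

section

variable {ι : Type} {w : Weight} {F : ι → Frame} {X : ι → ApproxData} {C3 : ℝ} (h3 : 0 < C3)
  {G : CMet} {C0 c1 : ℝ} {m : ℤ × ℤ} (hF : ∀ i, (F i).Good G C0 c1 m) {rho rhoi : PR} {C c : ℝ}
  (hC : 0 ≤ C) (hX : ∀ i, IsApprox (X i) w (F i) G rho ((F i).kap C3) C c)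
  (hrho : Nm w 14 rho ≠ ⊤) (hrhoi : Nm w 14 rhoi ≠ ⊤)

include hF hC hX hrho

theorem S2_cA : Gau (famS2 w F C3 h3) 13 (fun i => 1 / (F i).e ^ 5)
    (fun i _ μ => (X i).A μ) := by
  obtain ⟨B, hB⟩ := exists_Bd hrho
  have h1 : Gau (famS2 w F C3 h3) 13 (fun i => (F i).kap C3 / (F i).e ^ 5)
      (fun i _ μ => (X i).A μ - rho) := by
    refine s2c1_small h3 hC (fun i μ => (X i).A μ - rho) (fun i μ hμ => (hX i).A_bd μ hμ)
      fun i μ hμ ν hν => ?_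
    show Bd w 13 ((X i).A μ - rho - ((X i).A ν - rho)) (C * |μ - ν|)
    rw [sub_sub_sub_cancel_right]
    exact (hX i).A_lip μ hμ ν hν
  have h2 := (s2c1_const (F := F) h3 (hB.level (by norm_num : 13 ≤ 14))).add
    (h1.mono (g' := fun i => 1 / (F i).e ^ 5) (Real.sqrt_nonneg C3) (s2c1_kap_le h3 hF))
  refine h2.congr fun i x μ _ => ?_
  show rho + ((X i).A μ - rho) = (X i).A μ
  ring

theorem S2_cB : Gau (famS2 w F C3 h3) 13 (fun i => 1 / (F i).e ^ 5)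
    (fun i _ μ => (X i).B μ) := by
  obtain ⟨B, hB⟩ := exists_Bd hrho
  have h1 : Gau (famS2 w F C3 h3) 13 (fun i => (F i).kap C3 / (F i).e ^ 5)
      (fun i _ μ => (X i).B μ - rho) := by
    refine s2c1_small h3 hC (fun i μ => (X i).B μ - rho) (fun i μ hμ => (hX i).B_bd μ hμ)
      fun i μ hμ ν hν => ?_
    show Bd w 13 ((X i).B μ - rho - ((X i).B ν - rho)) (C * |μ - ν|)
    rw [sub_sub_sub_cancel_right]
    exact (hX i).B_lip μ hμ ν hν
  have h2 := (s2c1_const (F := F) h3 (hB.level (by norm_num : 13 ≤ 14))).add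
    (h1.mono (g' := fun i => 1 / (F i).e ^ 5) (Real.sqrt_nonneg C3) (s2c1_kap_le h3 hF))
  refine h2.congr fun i x μ _ => ?_
  show rho + ((X i).B μ - rho) = (X i).B μ
  ring

theorem S2_cA' : Gau (famS2 w F C3 h3) 13 (fun i => (F i).kap C3 / (F i).e ^ 5)
    (fun i _ μ => (X i).A μ - rho) := by
  refine s2c1_small h3 hC (fun i μ => (X i).A μ - rho) (fun i μ hμ => (hX i).A_bd μ hμ)
    fun i μ hμ ν hν => ?_
  show Bd w 13 ((X i).A μ - rho - ((X i).A ν - rho)) (C * |μ - ν|)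
  rw [sub_sub_sub_cancel_right]
  exact (hX i).A_lip μ hμ ν hν

theorem S2_cB' : Gau (famS2 w F C3 h3) 13 (fun i => (F i).kap C3 / (F i).e ^ 5)
    (fun i _ μ => (X i).B μ - rho) := by
  refine s2c1_small h3 hC (fun i μ => (X i).B μ - rho) (fun i μ hμ => (hX i).B_bd μ hμ)
    fun i μ hμ ν hν => ?_
  show Bd w 13 ((X i).B μ - rho - ((X i).B ν - rho)) (C * |μ - ν|)
  rw [sub_sub_sub_cancel_right]
  exact (hX i).B_lip μ hμ ν hν

theorem S2_cp (j : Fin 2) : Gau (famS2 w F C3 h3) 13 (fun i => (F i).kap C3 / (F i).e ^ 5)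
    (fun i _ μ => (F i).d j ((X i).p μ)) := by
  exact s2c1_small h3 hC (fun i μ => (F i).d j ((X i).p μ)) (fun i μ hμ => (hX i).p_bd j μ hμ)
    fun i μ hμ ν hν => (hX i).p_lip j μ hμ ν hν

theorem S2_cq (j : Fin 2) : Gau (famS2 w F C3 h3) 13 (fun i => (F i).kap C3 / (F i).e ^ 5)
    (fun i _ μ => (F i).d j ((X i).q μ)) := by
  exact s2c1_small h3 hC (fun i μ => (F i).d j ((X i).q μ)) (fun i μ hμ => (hX i).q_bd j μ hμ)
    fun i μ hμ ν hν => (hX i).q_lip j μ hμ ν hν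

theorem S2_cPh (j : Fin 2) : Gau (famS2 w F C3 h3) 13 (fun i => 1 / (F i).e / (F i).e ^ 5)
    (fun i _ μ => (F i).Ph ((X i).p μ) j) := by
  exact s2c1_phase h3 hF (fun i μ => (F i).d j ((X i).p μ)) (S2_cp h3 hF hC hX hrho j) (j = 0)

theorem S2_cPs (j : Fin 2) : Gau (famS2 w F C3 h3) 13 (fun i => 1 / (F i).e / (F i).e ^ 5)
    (fun i _ μ => (F i).Ps ((X i).q μ) j) := by
  exact s2c1_phase h3 hF (fun i μ => (F i).d j ((X i).q μ)) (S2_cq h3 hF hC hX hrho j) (j = 1)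

theorem S2_cE (j k : Fin 2) : Gau (famS2 w F C3 h3) 2 (fun i => (F i).e ^ 2)
    (fun i _ μ => (X i).E j k μ) := by
  have h1 : Gau (famS2 w F C3 h3) 2 (fun i => (F i).e ^ 7 / (famS2 w F C3 h3).r i)
      (fun i _ μ => (X i).E j k μ) :=
    Gau.coef (D := famS2 w F C3 h3) (fun i μ => (X i).E j k μ) (fun i => (F i).e ^ 7) hC
      fun i μ h0 hk => ⟨(hX i).E_bd j k μ ⟨h0, hk⟩, fun ν k0 kk =>
        (hX i).E_lip j k μ ⟨h0, hk⟩ ν ⟨k0, kk⟩⟩
  refine h1.mono (K := 1) zero_le_one fun i => ?_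
  have he := (F i).e_pos
  show (F i).e ^ 7 / (F i).e ^ 5 ≤ 1 * (F i).e ^ 2
  rw [div_le_iff₀ (pow_pos he 5)]
  exact le_of_eq (by ring)

theorem S2_cdA (j : Fin 2) : Gau (famS2 w F C3 h3) 12 (fun i => 1 / (F i).e ^ 5)
    (fun i _ μ => (F i).d j ((X i).A μ)) := by
  exact Gau.frd hF j (S2_cA h3 hF hC hX hrho)

theorem S2_cdB (j : Fin 2) : Gau (famS2 w F C3 h3) 12 (fun i => 1 / (F i).e ^ 5)
    (fun i _ μ => (F i).d j ((X i).B μ)) := by
  exact Gau.frd hF j (S2_cB h3 hF hC hX hrho)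

theorem S2_cddA (j k : Fin 2) : Gau (famS2 w F C3 h3) 11 (fun i => 1 / (F i).e ^ 5)
    (fun i _ μ => (F i).d j ((F i).d k ((X i).A μ))) := by
  exact Gau.frd hF j (S2_cdA h3 hF hC hX hrho k)

theorem S2_cddB (j k : Fin 2) : Gau (famS2 w F C3 h3) 11 (fun i => 1 / (F i).e ^ 5)
    (fun i _ μ => (F i).d j ((F i).d k ((X i).B μ))) := by
  exact Gau.frd hF j (S2_cdB h3 hF hC hX hrho k)

end

end P205T
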