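import Vale.Agent.Lib.P205T.S2C1

/-! # P205T module S2C2: the second contraction: gauges of composite coefficients -/

open scoped ContDiff ENNReal
open Complex Set

namespace P205T

section aux

variable {ι : Type} {w : Weight} {F : ι → Frame} {C3 : ℝ} {h3 : 0 < C3} {s : ℕ}
  {φ ψ : ι → (Fin 5 → PR) → ℝ → PR}

private theorem c2_bb (h : Gau (famS2 w F C3 h3) s (fun i => 1 / (F i).e ^ 5) φ)
    (h' : Gau (famS2 w F C3 h3) s (fun i => 1 / (F i).e ^ 5) ψ) :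
    Gau (famS2 w F C3 h3) s (fun i => 1 / (F i).e ^ 5) (fun i x μ => φ i x μ * ψ i x μ) := by
  refine (h.mul h').mono zero_le_one fun i => le_of_eq ?_
  have he := pow_pos (F i).e_pos 5
  show 1 / (F i).e ^ 5 * (1 / (F i).e ^ 5) * (F i).e ^ 5 = 1 * (1 / (F i).e ^ 5)
  field_simp

private theorem c2_sb (h : Gau (famS2 w F C3 h3) s (fun i => (F i).kap C3 / (F i).e ^ 5) φ)
    (h' : Gau (famS2 w F C3 h3) s (fun i => 1 / (F i).e ^ 5) ψ) :
    Gau (famS2 w F C3 h3) s (fun i => (F i).kap C3 / (F i).e ^ 5)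
      (fun i x μ => φ i x μ * ψ i x μ) := by
  refine (h.mul h').mono zero_le_one fun i => le_of_eq ?_
  have he := pow_pos (F i).e_pos 5
  show (F i).kap C3 / (F i).e ^ 5 * (1 / (F i).e ^ 5) * (F i).e ^ 5 =
    1 * ((F i).kap C3 / (F i).e ^ 5)
  field_simp

private theorem c2_big {G : CMet} {C0 c1 : ℝ} {m : ℤ × ℤ} (hF : ∀ i, (F i).Good G C0 c1 m)
    (h : Gau (famS2 w F C3 h3) s (fun i => (F i).kap C3 / (F i).e ^ 5) φ) :
    Gau (famS2 w F C3 h3) s (fun i => 1 / (F i).e ^ 5) φ := by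
  refine h.mono (Real.sqrt_nonneg C3) fun i => ?_
  have he := pow_pos (F i).e_pos 5
  have h1 := S1G1_kap_inv h3 hF i
  have hp := S1G1_kap_pos (F i) h3
  have h2 : (F i).kap C3 ≤ Real.sqrt C3 := by
    rw [mul_one_div, le_div_iff₀ hp, one_mul] at h1
    exact h1
  rw [mul_one_div]
  exact div_le_div_of_nonneg_right h2 he.le

private theorem c2_rho {rho : PR} (hrho : Nm w 14 rho ≠ ⊤) :
    Gau (famS2 w F C3 h3) 13 (fun i => 1 / (F i).e ^ 5) (fun _ _ _ => rho) := by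
  obtain ⟨B, hB⟩ := exists_Bd hrho
  exact Gau.const (D := famS2 w F C3 h3) (fun _ => rho) (fun _ => 1) hB.nonneg
    (fun i => (hB.level (by norm_num)).mono (le_of_eq (mul_one B).symm))

private theorem c2_one : Gau (famS2 w F C3 h3) 13 (fun i => 1 / (F i).e ^ 5)
    (fun _ _ _ => (1 : PR)) :=
  Gau.const (D := famS2 w F C3 h3) (fun _ => (1 : PR)) (fun _ => 1) zero_le_one
    (fun _ => Bd.one.mono (le_of_eq (mul_one 1).symm))

end aux

section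

variable {ι : Type} {w : Weight} {F : ι → Frame} {X : ι → ApproxData} {C3 : ℝ} (h3 : 0 < C3)
  {G : CMet} {C0 c1 : ℝ} {m : ℤ × ℤ} (hF : ∀ i, (F i).Good G C0 c1 m) {rho rhoi : PR} {C c : ℝ}
  (hC : 0 ≤ C) (hX : ∀ i, IsApprox (X i) w (F i) G rho ((F i).kap C3) C c)
  (hrho : Nm w 14 rho ≠ ⊤) (hrhoi : Nm w 14 rhoi ≠ ⊤)

include hF hC hX hrho

theorem S2_k1 : Gau (famS2 w F C3 h3) 13 (fun i => (F i).kap C3 / (F i).e ^ 5)
    (fun i _ μ => (X i).A μ ^ 2 * (mkS2 rho rhoi (F i) (X i) μ).phi 0 - rho ^ 2) := by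
  have hA := S2_cA h3 hF hC hX hrho
  have h1 := c2_sb (S2_cA' h3 hF hC hX hrho) (hA.add (c2_rho hrho))
  have h2 := c2_sb (S2_cp h3 hF hC hX hrho 0) (c2_bb hA hA)
  refine (h1.add h2).congr fun i x μ _ => ?_
  show _ = (X i).A μ ^ 2 * ((if (0 : Fin 2) = 0 then 1 else 0) + (F i).d 0 ((X i).p μ)) - rho ^ 2
  rw [if_pos rfl]
  ring

theorem S2_k2 : Gau (famS2 w F C3 h3) 13 (fun i => (F i).kap C3 / (F i).e ^ 5)
    (fun i _ μ => (X i).A μ ^ 2 * (mkS2 rho rhoi (F i) (X i) μ).phi 1) := by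
  have hA := S2_cA h3 hF hC hX hrho
  have h2 := c2_sb (S2_cp h3 hF hC hX hrho 1) (c2_bb hA hA)
  refine h2.congr fun i x μ _ => ?_
  show _ = (X i).A μ ^ 2 * ((if (1 : Fin 2) = 0 then 1 else 0) + (F i).d 1 ((X i).p μ))
  rw [if_neg (by decide)]
  ring

theorem S2_k3 : Gau (famS2 w F C3 h3) 13 (fun i => (F i).kap C3 / (F i).e ^ 5)
    (fun i _ μ => (X i).B μ ^ 2 * (mkS2 rho rhoi (F i) (X i) μ).psi 0) := by
  have hB := S2_cB h3 hF hC hX hrho
  have h2 := c2_sb (S2_cq h3 hF hC hX hrho 0) (c2_bb hB hB)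
  refine h2.congr fun i x μ _ => ?_
  show _ = (X i).B μ ^ 2 * ((if (0 : Fin 2) = 1 then 1 else 0) + (F i).d 0 ((X i).q μ))
  rw [if_neg (by decide)]
  ring

theorem S2_k4 : Gau (famS2 w F C3 h3) 13 (fun i => (F i).kap C3 / (F i).e ^ 5)
    (fun i _ μ => (X i).B μ ^ 2 * (mkS2 rho rhoi (F i) (X i) μ).psi 1 - rho ^ 2) := by
  have hB := S2_cB h3 hF hC hX hrho
  have h1 := c2_sb (S2_cB' h3 hF hC hX hrho) (hB.add (c2_rho hrho))
  have h2 := c2_sb (S2_cq h3 hF hC hX hrho 1) (c2_bb hB hB)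
  refine (h1.add h2).congr fun i x μ _ => ?_
  show _ = (X i).B μ ^ 2 * ((if (1 : Fin 2) = 1 then 1 else 0) + (F i).d 1 ((X i).q μ)) - rho ^ 2
  rw [if_pos rfl]
  ring

theorem S2_k5 : Gau (famS2 w F C3 h3) 13 (fun i => (F i).kap C3 / (F i).e ^ 5)
    (fun i _ μ => (X i).A μ * (mkS2 rho rhoi (F i) (X i) μ).phi 0 ^ 2 - rho) := by
  have hA := S2_cA h3 hF hC hX hrho
  have hp := S2_cp h3 hF hC hX hrho 0
  have h2 := c2_sb hp (c2_bb hA ((c2_one (F := F) (h3 := h3)).add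
    ((c2_one (F := F) (h3 := h3)).add (c2_big hF hp))))
  refine ((S2_cA' h3 hF hC hX hrho).add h2).congr fun i x μ _ => ?_
  show _ = (X i).A μ * ((if (0 : Fin 2) = 0 then 1 else 0) + (F i).d 0 ((X i).p μ)) ^ 2 - rho
  rw [if_pos rfl]
  ring

theorem S2_k6 : Gau (famS2 w F C3 h3) 13 (fun i => (F i).kap C3 / (F i).e ^ 5)
    (fun i _ μ => (X i).A μ * (mkS2 rho rhoi (F i) (X i) μ).phi 1 ^ 2) := by
  have hA := S2_cA h3 hF hC hX hrho
  have hp := S2_cp h3 hF hC hX hrho 1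
  have h2 := c2_sb hp (c2_bb hA (c2_big hF hp))
  refine h2.congr fun i x μ _ => ?_
  show _ = (X i).A μ * ((if (1 : Fin 2) = 0 then 1 else 0) + (F i).d 1 ((X i).p μ)) ^ 2
  rw [if_neg (by decide)]
  ring

theorem S2_k7 : Gau (famS2 w F C3 h3) 13 (fun i => (F i).kap C3 / (F i).e ^ 5)
    (fun i _ μ => (X i).B μ * (mkS2 rho rhoi (F i) (X i) μ).psi 0 ^ 2) := by
  have hB := S2_cB h3 hF hC hX hrho
  have hq := S2_cq h3 hF hC hX hrho 0
  have h2 := c2_sb hq (c2_bb hB (c2_big hF hq))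
  refine h2.congr fun i x μ _ => ?_
  show _ = (X i).B μ * ((if (0 : Fin 2) = 1 then 1 else 0) + (F i).d 0 ((X i).q μ)) ^ 2
  rw [if_neg (by decide)]
  ring

theorem S2_k8 : Gau (famS2 w F C3 h3) 13 (fun i => (F i).kap C3 / (F i).e ^ 5)
    (fun i _ μ => (X i).B μ * (mkS2 rho rhoi (F i) (X i) μ).psi 1 ^ 2 - rho) := by
  have hB := S2_cB h3 hF hC hX hrho
  have hq := S2_cq h3 hF hC hX hrho 1
  have h2 := c2_sb hq (c2_bb hB ((c2_one (F := F) (h3 := h3)).add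
    ((c2_one (F := F) (h3 := h3)).add (c2_big hF hq))))
  refine ((S2_cB' h3 hF hC hX hrho).add h2).congr fun i x μ _ => ?_
  show _ = (X i).B μ * ((if (1 : Fin 2) = 1 then 1 else 0) + (F i).d 1 ((X i).q μ)) ^ 2 - rho
  rw [if_pos rfl]
  ring

theorem S2_k9 : Gau (famS2 w F C3 h3) 13 (fun i => (F i).kap C3 / (F i).e ^ 5)
    (fun i _ μ => (X i).A μ * (mkS2 rho rhoi (F i) (X i) μ).phi 0 *
      (mkS2 rho rhoi (F i) (X i) μ).phi 1) := by
  have hA := S2_cA h3 hF hC hX hrho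
  have hp := S2_cp h3 hF hC hX hrho 0
  have hp1 := S2_cp h3 hF hC hX hrho 1
  have h2 := c2_sb hp1 (c2_bb hA ((c2_one (F := F) (h3 := h3)).add (c2_big hF hp)))
  refine h2.congr fun i x μ _ => ?_
  show _ = (X i).A μ * ((if (0 : Fin 2) = 0 then 1 else 0) + (F i).d 0 ((X i).p μ)) *
    ((if (1 : Fin 2) = 0 then 1 else 0) + (F i).d 1 ((X i).p μ))
  rw [if_pos rfl, if_neg (by decide)]
  ring

theorem S2_k10 : Gau (famS2 w F C3 h3) 13 (fun i => (F i).kap C3 / (F i).e ^ 5)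
    (fun i _ μ => (X i).B μ * (mkS2 rho rhoi (F i) (X i) μ).psi 0 *
      (mkS2 rho rhoi (F i) (X i) μ).psi 1) := by
  have hB := S2_cB h3 hF hC hX hrho
  have hq := S2_cq h3 hF hC hX hrho 0
  have hq1 := S2_cq h3 hF hC hX hrho 1
  have h2 := c2_sb hq (c2_bb hB ((c2_one (F := F) (h3 := h3)).add (c2_big hF hq1)))
  refine h2.congr fun i x μ _ => ?_
  show _ = (X i).B μ * ((if (0 : Fin 2) = 1 then 1 else 0) + (F i).d 0 ((X i).q μ)) *
    ((if (1 : Fin 2) = 1 then 1 else 0) + (F i).d 1 ((X i).q μ))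
  rw [if_pos rfl, if_neg (by decide)]
  ring

end

end P205T
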