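import Vale.Agent.Lib.P205T.Imm
import Vale.Agent.Lib.P205T.S1Defs

/-! # P205T module S2Defs: the second contraction: definitions -/

open scoped ContDiff ENNReal
open Complex Set

namespace P205T

/-- data of the second contraction -/
structure S2 where
  F : Frame
  rho : PR
  rhoi : PR
  A : PR
  B : PR
  p : PR
  q : PR
  E00 : PR
  E01 : PR
  E11 : PR

namespace S2

variable (S : S2) (x : Fin 5 → PR)

noncomputable def phi (i : Fin 2) : PR := (if i = 0 then 1 else 0) + S.F.d i S.p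
noncomputable def psi (i : Fin 2) : PR := (if i = 1 then 1 else 0) + S.F.d i S.q

/-- base amplitudes -/
noncomputable def V0 : V4 := ![S.F.e • S.A, 0, S.F.e • S.B, 0]

/-- potentials of the unknown -/
noncomputable def u (i : Fin 2) : PR := S.F.d i (S.F.G0 (x 0))
noncomputable def P : PR := S.u x 1 + x 3
noncomputable def R : PR := S.u x 0 + x 4
noncomputable def al : PR := -(S.rho * S.F.T 0 1 (x 0)) + x 1
noncomputable def ga : PR := -(S.rho * S.F.T 0 1 (x 0)) + x 2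

/-- the correction of the amplitudes -/
noncomputable def v : V4 :=
  ![S.F.e • S.al x, S.A * S.P x, S.F.e • S.ga x, S.B * S.R x]

/-- twisted derivative of a vector of functions -/
noncomputable def D (i : Fin 2) (V : V4) : V4 := S.F.D S.p S.q i V

/-- twisted Laplacian -/
noncomputable def L (V : V4) : V4 := S.D 0 (S.D 0 V) + S.D 1 (S.D 1 V)

/-- the nonlocal quadratic terms of Guenther's identity -/
noncomputable def N (V : V4) (i : Fin 2) : PR := S.F.G1 (ip4 (S.L V) (S.D i V))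
noncomputable def M (V : V4) (i j : Fin 2) : PR :=
  S.F.G1 (2 * (ip4 (S.D 0 (S.D i V)) (S.D 0 (S.D j V)) + ip4 (S.D 1 (S.D i V)) (S.D 1 (S.D j V)))
    - 2 * ip4 (S.L V) (S.D i (S.D j V)) - ip4 (S.D i V) (S.D j V))

/-- the linear terms `z i j` -/
noncomputable def z00 : PR :=
  -(2 * S.P x * S.F.d 0 (S.A ^ 2 * S.phi 0 - S.rho ^ 2)) - 2 * S.R x * S.F.d 0 (S.B ^ 2 * S.psi 0)
    - (2 * S.F.e ^ 2) • (S.F.d 0 (S.F.d 0 S.A) * S.al x + S.F.d 0 (S.F.d 0 S.B) * S.ga x)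
    + 2 * (S.A * S.phi 0 ^ 2 - S.rho) * S.al x + 2 * (S.B * S.psi 0 ^ 2) * S.ga x
noncomputable def z11 : PR :=
  -(2 * S.P x * S.F.d 1 (S.A ^ 2 * S.phi 1)) - 2 * S.R x * S.F.d 1 (S.B ^ 2 * S.psi 1 - S.rho ^ 2)
    - (2 * S.F.e ^ 2) • (S.F.d 1 (S.F.d 1 S.A) * S.al x + S.F.d 1 (S.F.d 1 S.B) * S.ga x)
    + 2 * (S.A * S.phi 1 ^ 2) * S.al x + 2 * (S.B * S.psi 1 ^ 2 - S.rho) * S.ga x
noncomputable def z01 : PR :=
  -(S.P x * (S.F.d 1 (S.A ^ 2 * S.phi 0 - S.rho ^ 2) + S.F.d 0 (S.A ^ 2 * S.phi 1)))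
    - S.R x * (S.F.d 1 (S.B ^ 2 * S.psi 0) + S.F.d 0 (S.B ^ 2 * S.psi 1 - S.rho ^ 2))
    - (2 * S.F.e ^ 2) • (S.F.d 0 (S.F.d 1 S.A) * S.al x + S.F.d 0 (S.F.d 1 S.B) * S.ga x)
    + 2 * (S.A * S.phi 0 * S.phi 1) * S.al x + 2 * (S.B * S.psi 0 * S.psi 1) * S.ga x

/-- the components of the fixed point map -/
noncomputable def Php : PR :=
  -(S.rhoi ^ 2 * ((S.A ^ 2 * S.phi 0 - S.rho ^ 2) * S.P x + S.B ^ 2 * S.psi 0 * S.R x
    + (S.F.e ^ 2) • (S.F.d 0 S.A * S.al x + S.F.d 0 S.B * S.ga x) + S.N (S.v x) 0))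
noncomputable def Rhp : PR :=
  -(S.rhoi ^ 2 * (S.A ^ 2 * S.phi 1 * S.P x + (S.B ^ 2 * S.psi 1 - S.rho ^ 2) * S.R x
    + (S.F.e ^ 2) • (S.F.d 1 S.A * S.al x + S.F.d 1 S.B * S.ga x) + S.N (S.v x) 1))
noncomputable def ap : PR :=
  (1 / 2 : ℝ) • (S.rhoi * (-S.E00 - S.M (S.v x) 0 0 - S.z00 x
    + 2 * S.F.d 0 (S.rho ^ 2) * S.Php x))
noncomputable def bp : PR :=
  (1 / 2 : ℝ) • (S.rhoi * (-S.E11 - S.M (S.v x) 1 1 - S.z11 x
    + 2 * S.F.d 1 (S.rho ^ 2) * S.Rhp x))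
noncomputable def hh : PR :=
  S.rhoi ^ 2 * (-S.E01 - S.M (S.v x) 0 1 - S.z01 x
    + S.F.d 1 (S.rho ^ 2) * S.Php x + S.F.d 0 (S.rho ^ 2) * S.Rhp x)

/-- the fixed point map -/
noncomputable def Theta : Fin 5 → PR := ![P0 (S.hh x), S.ap x, S.bp x, S.Php x, S.Rhp x]

/-- the linear flux and the linear remainder -/
noncomputable def zeta (i : Fin 2) : PR :=
  S.A ^ 2 * S.phi i * S.P x + S.B ^ 2 * S.psi i * S.R x
    + (S.F.e ^ 2) • (S.F.d i S.A * S.al x + S.F.d i S.B * S.ga x)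
noncomputable def Z (i j : Fin 2) : PR :=
  -(S.P x * (S.F.d j (S.A ^ 2 * S.phi i) + S.F.d i (S.A ^ 2 * S.phi j)))
    - S.R x * (S.F.d j (S.B ^ 2 * S.psi i) + S.F.d i (S.B ^ 2 * S.psi j))
    - (2 * S.F.e ^ 2) • (S.F.d i (S.F.d j S.A) * S.al x + S.F.d i (S.F.d j S.B) * S.ga x)
    + 2 * (S.A * S.phi i * S.phi j) * S.al x + 2 * (S.B * S.psi i * S.psi j) * S.ga x

end S2

end P205T
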