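import Vale.Agent.Lib.P205T.S2Defs

/-! # P205T module S2Gue: Guenther identity -/

open scoped ContDiff ENNReal
open Complex Set

namespace P205T

namespace S2

variable (S : S2)

private theorem Gue_Ph (F : Frame) (p : PR) (i j : Fin 2) :
    F.d i (F.Ph p j) = F.d j (F.Ph p i) := by
  have h : ∀ k : Fin 2, ∀ l : Fin 2, F.d l ((if k = 0 then 1 else 0 : PR)) = 0 := by
    intro k l
    split_ifs
    · exact F.d_one l
    · exact map_zero _
  unfold Frame.Ph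
  rw [map_smul, map_smul, map_add, map_add, h, h, F.d_comm i j]

private theorem Gue_Ps (F : Frame) (p : PR) (i j : Fin 2) :
    F.d i (F.Ps p j) = F.d j (F.Ps p i) := by
  have h : ∀ k : Fin 2, ∀ l : Fin 2, F.d l ((if k = 1 then 1 else 0 : PR)) = 0 := by
    intro k l
    split_ifs
    · exact F.d_one l
    · exact map_zero _
  unfold Frame.Ps
  rw [map_smul, map_smul, map_add, map_add, h, h, F.d_comm i j]

private theorem Gue_D0 (i : Fin 2) (V : V4) : S.D i V 0 = S.F.d i (V 0) - S.F.Ph S.p i * V 1 := rfl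
private theorem Gue_D1 (i : Fin 2) (V : V4) : S.D i V 1 = S.F.d i (V 1) + S.F.Ph S.p i * V 0 := rfl
private theorem Gue_D2 (i : Fin 2) (V : V4) : S.D i V 2 = S.F.d i (V 2) - S.F.Ps S.q i * V 3 := rfl
private theorem Gue_D3 (i : Fin 2) (V : V4) : S.D i V 3 = S.F.d i (V 3) + S.F.Ps S.q i * V 2 := rfl

private theorem Gue_ext {V W : V4} (h0 : V 0 = W 0) (h1 : V 1 = W 1) (h2 : V 2 = W 2)
    (h3 : V 3 = W 3) : V = W := by
  funext k
  fin_cases k
  · exact h0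
  · exact h1
  · exact h2
  · exact h3

/-- the twisted derivatives commute -/
theorem D_comm (i j : Fin 2) (V : V4) : S.D i (S.D j V) = S.D j (S.D i V) := by
  have hP := Gue_Ph S.F S.p i j
  have hQ := Gue_Ps S.F S.q i j
  apply Gue_ext
  · rw [Gue_D0, Gue_D0, Gue_D0, Gue_D0, Gue_D1, Gue_D1, map_sub, map_sub, S.F.d_mul, S.F.d_mul,
      S.F.d_comm i j, hP]
    ring
  · rw [Gue_D1, Gue_D1, Gue_D1, Gue_D1, Gue_D0, Gue_D0, map_add, map_add, S.F.d_mul, S.F.d_mul,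
      S.F.d_comm i j, hP]
    ring
  · rw [Gue_D2, Gue_D2, Gue_D2, Gue_D2, Gue_D3, Gue_D3, map_sub, map_sub, S.F.d_mul, S.F.d_mul,
      S.F.d_comm i j, hQ]
    ring
  · rw [Gue_D3, Gue_D3, Gue_D3, Gue_D3, Gue_D2, Gue_D2, map_add, map_add, S.F.d_mul, S.F.d_mul,
      S.F.d_comm i j, hQ]
    ring

theorem D_add (i : Fin 2) (V W : V4) : S.D i (V + W) = S.D i V + S.D i W := by
  apply Gue_ext
  · rw [Pi.add_apply, Gue_D0, Gue_D0, Gue_D0, Pi.add_apply, Pi.add_apply, map_add]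
    ring
  · rw [Pi.add_apply, Gue_D1, Gue_D1, Gue_D1, Pi.add_apply, Pi.add_apply, map_add]
    ring
  · rw [Pi.add_apply, Gue_D2, Gue_D2, Gue_D2, Pi.add_apply, Pi.add_apply, map_add]
    ring
  · rw [Pi.add_apply, Gue_D3, Gue_D3, Gue_D3, Pi.add_apply, Pi.add_apply, map_add]
    ring

/-- metric compatibility -/
theorem d_ip4 (i : Fin 2) (V W : V4) :
    S.F.d i (ip4 V W) = ip4 (S.D i V) W + ip4 V (S.D i W) := by
  unfold ip4
  rw [Gue_D0, Gue_D1, Gue_D2, Gue_D3, Gue_D0, Gue_D1, Gue_D2, Gue_D3]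
  rw [map_add, map_add, map_add, S.F.d_mul, S.F.d_mul, S.F.d_mul, S.F.d_mul]
  ring

private theorem ip4_comm' (V W : V4) : ip4 V W = ip4 W V := by
  unfold ip4
  ring

private theorem ip4_add_left' (V W U : V4) : ip4 (V + W) U = ip4 V U + ip4 W U := by
  unfold ip4
  rw [Pi.add_apply, Pi.add_apply, Pi.add_apply, Pi.add_apply]
  ring

/-- Guenther's identity (apply `d 0 d 0 + d 1 d 1 - 1` to both sides, `Frame.helm_inj`,
`Frame.G1_eq`) -/
theorem guenther (V : V4) (i j : Fin 2) :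
    ip4 (S.D i V) (S.D j V) = S.F.d i (S.N V j) + S.F.d j (S.N V i) + S.M V i j := by
  apply S.F.helm_inj
  have hN : ∀ k l : Fin 2, S.F.d 0 (S.F.d 0 (S.F.d k (S.N V l))) +
      S.F.d 1 (S.F.d 1 (S.F.d k (S.N V l))) - S.F.d k (S.N V l) =
      ip4 (S.D k (S.L V)) (S.D l V) + ip4 (S.L V) (S.D k (S.D l V)) := by
    intro k l
    rw [S.F.d_comm 0 k, S.F.d_comm 0 k, S.F.d_comm 1 k, S.F.d_comm 1 k, ← map_add, ← map_sub]
    unfold N
    rw [S.F.G1_eq, d_ip4]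
  have hM := S.F.G1_eq (2 * (ip4 (S.D 0 (S.D i V)) (S.D 0 (S.D j V)) +
    ip4 (S.D 1 (S.D i V)) (S.D 1 (S.D j V)))
    - 2 * ip4 (S.L V) (S.D i (S.D j V)) - ip4 (S.D i V) (S.D j V))
  have hL : ∀ k : Fin 2, S.D k (S.L V) = S.D 0 (S.D 0 (S.D k V)) + S.D 1 (S.D 1 (S.D k V)) := by
    intro k
    unfold L
    rw [D_add, D_comm S k 0, D_comm S k 0, D_comm S k 1, D_comm S k 1]
  have h1 : ∀ k : Fin 2, S.F.d k (S.F.d k (ip4 (S.D i V) (S.D j V))) =
      ip4 (S.D k (S.D k (S.D i V))) (S.D j V) + 2 * ip4 (S.D k (S.D i V)) (S.D k (S.D j V)) +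
      ip4 (S.D i V) (S.D k (S.D k (S.D j V))) := by
    intro k
    rw [d_ip4, map_add, d_ip4, d_ip4]
    ring
  have e1 := hN i j
  have e2 := hN j i
  have h3 : ip4 (S.D i (S.L V)) (S.D j V) =
      ip4 (S.D 0 (S.D 0 (S.D i V))) (S.D j V) + ip4 (S.D 1 (S.D 1 (S.D i V))) (S.D j V) := by
    rw [hL, ip4_add_left']
  have h4 : ip4 (S.D j (S.L V)) (S.D i V) =
      ip4 (S.D i V) (S.D 0 (S.D 0 (S.D j V))) + ip4 (S.D i V) (S.D 1 (S.D 1 (S.D j V))) := by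
    rw [hL, ip4_add_left', ip4_comm' (S.D i V), ip4_comm' (S.D i V)]
  have h5 : ip4 (S.L V) (S.D j (S.D i V)) = ip4 (S.L V) (S.D i (S.D j V)) := by
    rw [D_comm]
  rw [h3] at e1
  rw [h4, h5] at e2
  rw [h1, h1]
  simp only [map_add]
  have hM' : S.F.d 0 (S.F.d 0 (S.M V i j)) + S.F.d 1 (S.F.d 1 (S.M V i j)) - S.M V i j =
      2 * (ip4 (S.D 0 (S.D i V)) (S.D 0 (S.D j V)) + ip4 (S.D 1 (S.D i V)) (S.D 1 (S.D j V)))
    - 2 * ip4 (S.L V) (S.D i (S.D j V)) - ip4 (S.D i V) (S.D j V) := hM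
  linear_combination (-1 : PR) * e1 - e2 - hM'

end S2

end P205T
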