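import Vale.Agent.Lib.P205T.S2U
import Vale.Agent.Lib.P205T.FrG

/-! # P205T module S2N: the second contraction: gauges of the quadratic terms -/

open scoped ContDiff ENNReal
open Complex Set

namespace P205T

private theorem S2N_ip4 {ι : Type} {D : Fam ι} {s : ℕ} {g g' : ι → ℝ}
    {V W : ι → (Fin D.k → PR) → ℝ → V4}
    (hV : ∀ j, Gau D s g (fun i x μ => V i x μ j))
    (hW : ∀ j, Gau D s g' (fun i x μ => W i x μ j)) :
    Gau D s (fun i => g i * g' i * D.r i) (fun i x μ => ip4 (V i x μ) (W i x μ)) := by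
  have h : ∀ j, Gau D s (fun i => g i * g' i * D.r i) (fun i x μ => V i x μ j * W i x μ j) :=
    fun j => (hV j).mul (hW j)
  exact (((h 0).add (h 1)).add (h 2)).add (h 3)

private theorem S2N_two {ι : Type} {D : Fam ι} {s : ℕ} {g : ι → ℝ}
    {φ : ι → (Fin D.k → PR) → ℝ → PR} (h : Gau D s g φ) :
    Gau D s g (fun i x μ => 2 * φ i x μ) :=
  (h.add h).congr fun i x μ _ => (two_mul (φ i x μ)).symm

section

variable {ι : Type} {w : Weight} {F : ι → Frame} {X : ι → ApproxData} {C3 : ℝ} (h3 : 0 < C3)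
  {G : CMet} {C0 c1 : ℝ} {m : ℤ × ℤ} (hF : ∀ i, (F i).Good G C0 c1 m) {rho rhoi : PR} {C c : ℝ}
  (hC : 0 ≤ C) (hX : ∀ i, IsApprox (X i) w (F i) G rho ((F i).kap C3) C c)
  (hrho : Nm w 14 rho ≠ ⊤) (hrhoi : Nm w 14 rhoi ≠ ⊤)

include hF hrho hC hX

private theorem S2N_L (j : Fin 4) : Gau (famS2 w F C3 h3) 0 (fun i => 1 / (F i).e ^ 2)
    (fun i x μ => (mkS2 rho rhoi (F i) (X i) μ).L ((mkS2 rho rhoi (F i) (X i) μ).v x) j) :=
  (S2_DDv h3 hF hC hX hrho 0 0 j).add (S2_DDv h3 hF hC hX hrho 1 1 j)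

/-- `e⁻² * e⁻¹ * e⁵ = e²`, then `Gau.frG1` from level `0` to level `2` -/
theorem S2_N (k : Fin 2) : Gau (famS2 w F C3 h3) 2 (fun i => (F i).e ^ 2)
    (fun i x μ => (mkS2 rho rhoi (F i) (X i) μ).N ((mkS2 rho rhoi (F i) (X i) μ).v x) k) := by
  have h1 := S2N_ip4 (fun j => S2N_L (rhoi := rhoi) h3 hF hC hX hrho j)
    (fun j => (S2_Dv (rhoi := rhoi) h3 hF hC hX hrho k j).level (Nat.zero_le 1))
  have h2 := h1.frG1 hF
  refine h2.mono (K := 1) zero_le_one fun i => le_of_eq ?_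
  have he := (F i).e_pos.ne'
  show 1 / (F i).e ^ 2 * (1 / (F i).e) * (F i).e ^ 5 = 1 * (F i).e ^ 2
  field_simp

/-- `e⁻² * e⁻² * e⁵ = e` -/
theorem S2_M (k l : Fin 2) : Gau (famS2 w F C3 h3) 2 (fun i => (F i).e)
    (fun i x μ => (mkS2 rho rhoi (F i) (X i) μ).M ((mkS2 rho rhoi (F i) (X i) μ).v x) k l) := by
  have hDD : ∀ a b c' d : Fin 2, Gau (famS2 w F C3 h3) 0 (fun i => (F i).e)
      (fun i x μ => ip4 ((mkS2 rho rhoi (F i) (X i) μ).D a ((mkS2 rho rhoi (F i) (X i) μ).D b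
        ((mkS2 rho rhoi (F i) (X i) μ).v x))) ((mkS2 rho rhoi (F i) (X i) μ).D c'
        ((mkS2 rho rhoi (F i) (X i) μ).D d ((mkS2 rho rhoi (F i) (X i) μ).v x)))) := by
    intro a b c' d
    refine (S2N_ip4 (fun j => S2_DDv h3 hF hC hX hrho a b j)
      (fun j => S2_DDv h3 hF hC hX hrho c' d j)).mono (K := 1) zero_le_one fun i => le_of_eq ?_
    have he := (F i).e_pos.ne'
    show 1 / (F i).e ^ 2 * (1 / (F i).e ^ 2) * (F i).e ^ 5 = 1 * (F i).e
    field_simp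
  have hL : Gau (famS2 w F C3 h3) 0 (fun i => (F i).e)
      (fun i x μ => ip4 ((mkS2 rho rhoi (F i) (X i) μ).L ((mkS2 rho rhoi (F i) (X i) μ).v x))
        ((mkS2 rho rhoi (F i) (X i) μ).D k
        ((mkS2 rho rhoi (F i) (X i) μ).D l ((mkS2 rho rhoi (F i) (X i) μ).v x)))) := by
    refine (S2N_ip4 (fun j => S2N_L h3 hF hC hX hrho j)
      (fun j => S2_DDv h3 hF hC hX hrho k l j)).mono (K := 1) zero_le_one fun i => le_of_eq ?_
    have he := (F i).e_pos.ne'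
    show 1 / (F i).e ^ 2 * (1 / (F i).e ^ 2) * (F i).e ^ 5 = 1 * (F i).e
    field_simp
  have hD : Gau (famS2 w F C3 h3) 0 (fun i => (F i).e)
      (fun i x μ => ip4 ((mkS2 rho rhoi (F i) (X i) μ).D k ((mkS2 rho rhoi (F i) (X i) μ).v x))
        ((mkS2 rho rhoi (F i) (X i) μ).D l ((mkS2 rho rhoi (F i) (X i) μ).v x))) := by
    refine (S2N_ip4 (fun j => (S2_Dv h3 hF hC hX hrho k j).level (Nat.zero_le 1))
      (fun j => (S2_Dv h3 hF hC hX hrho l j).level (Nat.zero_le 1))).mono (K := 1)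
      zero_le_one fun i => ?_
    have he := (F i).e_pos
    have he1 := (hF i).e_le
    have e1 : 1 / (F i).e * (1 / (F i).e) * (F i).e ^ 5 = (F i).e ^ 2 * (F i).e := by
      field_simp
    have e2 : (F i).e ^ 2 ≤ 1 := pow_le_one₀ he.le he1
    show 1 / (F i).e * (1 / (F i).e) * (F i).e ^ 5 ≤ 1 * (F i).e
    rw [e1]
    exact mul_le_mul_of_nonneg_right e2 he.le
  exact (((S2N_two ((hDD 0 k 0 l).add (hDD 1 k 1 l))).sub (S2N_two hL)).sub hD).frG1 hF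

end

end P205T
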