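import Vale.Agent.Lib.P205T.S2U
import Vale.Agent.Lib.P205T.S2C2

/-! # P205T module S2Z: the second contraction: gauges of the linear terms -/

open scoped ContDiff ENNReal
open Complex Set

namespace P205T

section

variable {ι : Type} {w : Weight} {F : ι → Frame} {X : ι → ApproxData} {C3 : ℝ} (h3 : 0 < C3)
  {G : CMet} {C0 c1 : ℝ} {m : ℤ × ℤ} (hF : ∀ i, (F i).Good G C0 c1 m) {rho rhoi : PR} {C c : ℝ}
  (hC : 0 ≤ C) (hX : ∀ i, IsApprox (X i) w (F i) G rho ((F i).kap C3) C c)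
  (hrho : Nm w 14 rho ≠ ⊤) (hrhoi : Nm w 14 rhoi ≠ ⊤)

theorem S2Z_sc {D : Fam ι} {s : ℕ} {g : ι → ℝ} {φ : ι → (Fin D.k → PR) → ℝ → PR} (t : ℝ)
    (a : Gau D s g φ) : Gau D s g (fun i x μ => t • φ i x μ) :=
  (a.smul (fun _ => t)).mono (abs_nonneg t) (fun _ => le_rfl)

theorem S2Z_two {D : Fam ι} {s : ℕ} {g : ι → ℝ} {φ : ι → (Fin D.k → PR) → ℝ → PR}
    (a : Gau D s g φ) : Gau D s g (fun i x μ => 2 * φ i x μ) := by
  refine (S2Z_sc 2 a).congr fun i x μ _ => ?_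
  rw [two_mul]
  exact two_smul ℝ _

/-- product of a small coefficient with an unknown -/
theorem S2Z_ck {s : ℕ} (hs : 2 ≤ s) {φ ψ : ι → (Fin (famS2 w F C3 h3).k → PR) → ℝ → PR}
    (a : Gau (famS2 w F C3 h3) s (fun i => (F i).kap C3 / (F i).e ^ 5) φ)
    (b : Gau (famS2 w F C3 h3) 2 (fun _ => 1) ψ) :
    Gau (famS2 w F C3 h3) 2 (fun i => (F i).kap C3) (fun i x μ => φ i x μ * ψ i x μ) := by
  refine ((a.level hs).mul b).mono zero_le_one fun i => le_of_eq ?_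
  have he : (F i).e ≠ 0 := (F i).e_pos.ne'
  show (F i).kap C3 / (F i).e ^ 5 * 1 * (F i).e ^ 5 = 1 * (F i).kap C3
  field_simp

/-- the terms with `e ^ 2` -/
theorem S2Z_ce (hF : ∀ i, (F i).Good G C0 c1 m) {s : ℕ} (hs : 2 ≤ s)
    {φ ψ φ' ψ' : ι → (Fin (famS2 w F C3 h3).k → PR) → ℝ → PR}
    (a : Gau (famS2 w F C3 h3) s (fun i => 1 / (F i).e ^ 5) φ)
    (b : Gau (famS2 w F C3 h3) 2 (fun _ => 1) ψ)
    (a' : Gau (famS2 w F C3 h3) s (fun i => 1 / (F i).e ^ 5) φ')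
    (b' : Gau (famS2 w F C3 h3) 2 (fun _ => 1) ψ') :
    Gau (famS2 w F C3 h3) 2 (fun i => (F i).kap C3)
      (fun i x μ => (2 * (F i).e ^ 2) • (φ i x μ * ψ i x μ + φ' i x μ * ψ' i x μ)) := by
  have key : ∀ {φ ψ : ι → (Fin (famS2 w F C3 h3).k → PR) → ℝ → PR},
      Gau (famS2 w F C3 h3) s (fun i => 1 / (F i).e ^ 5) φ →
      Gau (famS2 w F C3 h3) 2 (fun _ => 1) ψ →
      Gau (famS2 w F C3 h3) 2 (fun _ => 1) (fun i x μ => φ i x μ * ψ i x μ) := by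
    intro φ ψ a b
    refine ((a.level hs).mul b).mono zero_le_one fun i => le_of_eq ?_
    have he : (F i).e ≠ 0 := (F i).e_pos.ne'
    show 1 / (F i).e ^ 5 * 1 * (F i).e ^ 5 = 1 * 1
    field_simp
  have hsq : 0 < Real.sqrt C3 := Real.sqrt_pos.mpr h3
  refine (((key a b).add (key a' b')).smul (fun i => 2 * (F i).e ^ 2)).mono
    (K := 2 / Real.sqrt C3) (by positivity) fun i => ?_
  have he0 : 0 < (F i).e := (F i).e_pos
  have he1 : (F i).e ≤ 1 := (hF i).e_le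
  show |2 * (F i).e ^ 2| * 1 ≤ 2 / Real.sqrt C3 * Real.sqrt (C3 * (F i).e)
  rw [abs_of_nonneg (by positivity), mul_one, Real.sqrt_mul h3.le]
  have h1 : 2 / Real.sqrt C3 * (Real.sqrt C3 * Real.sqrt (F i).e) = 2 * Real.sqrt (F i).e := by
    field_simp
  rw [h1]
  have h2 : (F i).e ≤ Real.sqrt (F i).e := by
    refine Real.le_sqrt_of_sq_le ?_
    nlinarith
  nlinarith

include hF hrho hC hX

theorem S2_z00 : Gau (famS2 w F C3 h3) 2 (fun i => (F i).kap C3)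
    (fun i x μ => (mkS2 rho rhoi (F i) (X i) μ).z00 x) := by
  have hP := S2_P (rhoi := rhoi) (X := X) h3 hF hrho
  have hR := S2_R (rhoi := rhoi) (X := X) h3 hF hrho
  have hal := S2_al (rhoi := rhoi) (X := X) h3 hF hrho
  have hga := S2_ga (rhoi := rhoi) (X := X) h3 hF hrho
  have k1 := S2Z_ck h3 (s := 12) (by norm_num)
    (Gau.frd hF 0 (S2_k1 (rhoi := rhoi) h3 hF hC hX hrho)) hP
  have k3 := S2Z_ck h3 (s := 12) (by norm_num)
    (Gau.frd hF 0 (S2_k3 (rhoi := rhoi) h3 hF hC hX hrho)) hR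
  have kk := S2Z_ce h3 hF (s := 11) (by norm_num) (S2_cddA h3 hF hC hX hrho 0 0) hal
    (S2_cddB h3 hF hC hX hrho 0 0) hga
  have k5 := S2Z_ck h3 (s := 13) (by norm_num) (S2_k5 (rhoi := rhoi) h3 hF hC hX hrho) hal
  have k7 := S2Z_ck h3 (s := 13) (by norm_num) (S2_k7 (rhoi := rhoi) h3 hF hC hX hrho) hga
  refine (((((S2Z_two k1).neg.sub (S2Z_two k3)).sub kk).add (S2Z_two k5)).add
    (S2Z_two k7)).congr fun i x μ _ => ?_
  simp only [S2.z00]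
  ring

theorem S2_z11 : Gau (famS2 w F C3 h3) 2 (fun i => (F i).kap C3)
    (fun i x μ => (mkS2 rho rhoi (F i) (X i) μ).z11 x) := by
  have hP := S2_P (rhoi := rhoi) (X := X) h3 hF hrho
  have hR := S2_R (rhoi := rhoi) (X := X) h3 hF hrho
  have hal := S2_al (rhoi := rhoi) (X := X) h3 hF hrho
  have hga := S2_ga (rhoi := rhoi) (X := X) h3 hF hrho
  have k2 := S2Z_ck h3 (s := 12) (by norm_num)
    (Gau.frd hF 1 (S2_k2 (rhoi := rhoi) h3 hF hC hX hrho)) hP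
  have k4 := S2Z_ck h3 (s := 12) (by norm_num)
    (Gau.frd hF 1 (S2_k4 (rhoi := rhoi) h3 hF hC hX hrho)) hR
  have kk := S2Z_ce h3 hF (s := 11) (by norm_num) (S2_cddA h3 hF hC hX hrho 1 1) hal
    (S2_cddB h3 hF hC hX hrho 1 1) hga
  have k6 := S2Z_ck h3 (s := 13) (by norm_num) (S2_k6 (rhoi := rhoi) h3 hF hC hX hrho) hal
  have k8 := S2Z_ck h3 (s := 13) (by norm_num) (S2_k8 (rhoi := rhoi) h3 hF hC hX hrho) hga
  refine (((((S2Z_two k2).neg.sub (S2Z_two k4)).sub kk).add (S2Z_two k6)).add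
    (S2Z_two k8)).congr fun i x μ _ => ?_
  simp only [S2.z11]
  ring

theorem S2_z01 : Gau (famS2 w F C3 h3) 2 (fun i => (F i).kap C3)
    (fun i x μ => (mkS2 rho rhoi (F i) (X i) μ).z01 x) := by
  have hP := S2_P (rhoi := rhoi) (X := X) h3 hF hrho
  have hR := S2_R (rhoi := rhoi) (X := X) h3 hF hrho
  have hal := S2_al (rhoi := rhoi) (X := X) h3 hF hrho
  have hga := S2_ga (rhoi := rhoi) (X := X) h3 hF hrho
  have k1 := S2Z_ck h3 (s := 12) (by norm_num)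
    (Gau.frd hF 1 (S2_k1 (rhoi := rhoi) h3 hF hC hX hrho)) hP
  have k2 := S2Z_ck h3 (s := 12) (by norm_num)
    (Gau.frd hF 0 (S2_k2 (rhoi := rhoi) h3 hF hC hX hrho)) hP
  have k3 := S2Z_ck h3 (s := 12) (by norm_num)
    (Gau.frd hF 1 (S2_k3 (rhoi := rhoi) h3 hF hC hX hrho)) hR
  have k4 := S2Z_ck h3 (s := 12) (by norm_num)
    (Gau.frd hF 0 (S2_k4 (rhoi := rhoi) h3 hF hC hX hrho)) hR
  have kk := S2Z_ce h3 hF (s := 11) (by norm_num) (S2_cddA h3 hF hC hX hrho 0 1) hal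
    (S2_cddB h3 hF hC hX hrho 0 1) hga
  have k9 := S2Z_ck h3 (s := 13) (by norm_num) (S2_k9 (rhoi := rhoi) h3 hF hC hX hrho) hal
  have k10 := S2Z_ck h3 (s := 13) (by norm_num) (S2_k10 (rhoi := rhoi) h3 hF hC hX hrho) hga
  refine (((((k1.add k2).neg.sub (k3.add k4)).sub kk).add (S2Z_two k9)).add
    (S2Z_two k10)).congr fun i x μ _ => ?_
  simp only [S2.z01]
  ring

end

end P205T
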