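import Vale.Agent.Lib.P205T.S2N
import Vale.Agent.Lib.P205T.S2Z

/-! # P205T module S2T: the second contraction: the map is a contraction -/

open scoped ContDiff ENNReal
open Complex Set

namespace P205T

section

variable {ι : Type} {w : Weight} {F : ι → Frame} {X : ι → ApproxData} {C3 : ℝ} (h3 : 0 < C3)
  {G : CMet} {C0 c1 : ℝ} {m : ℤ × ℤ} (hF : ∀ i, (F i).Good G C0 c1 m) {rho rhoi : PR} {C c : ℝ}
  (hC : 0 ≤ C) (hX : ∀ i, IsApprox (X i) w (F i) G rho ((F i).kap C3) C c)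
  (hrho : Nm w 14 rho ≠ ⊤) (hrhoi : Nm w 14 rhoi ≠ ⊤)

private theorem s2t_const {f : PR} {B : ℝ} {s : ℕ} (hf : Bd w s f B) :
    Gau (famS2 w F C3 h3) s (fun i => 1 / (F i).e ^ 5) (fun _ _ _ => f) :=
  Gau.const (D := famS2 w F C3 h3) (fun _ => f) (fun _ => 1) hf.nonneg
    (fun _ => hf.mono (le_of_eq (mul_one B).symm))

private theorem s2t_mulc {s : ℕ} {g : ι → ℝ}
    {φ ψ : ι → (Fin (famS2 w F C3 h3).k → PR) → ℝ → PR}
    (h : Gau (famS2 w F C3 h3) s (fun i => 1 / (F i).e ^ 5) φ)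
    (h' : Gau (famS2 w F C3 h3) s g ψ) :
    Gau (famS2 w F C3 h3) s g (fun i x μ => φ i x μ * ψ i x μ) := by
  refine (h.mul h').mono zero_le_one fun i => ?_
  have he := (F i).e_pos.ne'
  have e : 1 / (F i).e ^ 5 * g i * (F i).e ^ 5 = 1 * g i := by field_simp
  exact le_of_eq e

private theorem s2t_mulu {s : ℕ} {g : ι → ℝ}
    {φ ψ : ι → (Fin (famS2 w F C3 h3).k → PR) → ℝ → PR}
    (h : Gau (famS2 w F C3 h3) s (fun i => g i / (F i).e ^ 5) φ)
    (h' : Gau (famS2 w F C3 h3) s (fun _ => 1) ψ) :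
    Gau (famS2 w F C3 h3) s g (fun i x μ => φ i x μ * ψ i x μ) := by
  refine (h.mul h').mono zero_le_one fun i => ?_
  have he := (F i).e_pos.ne'
  have e : g i / (F i).e ^ 5 * 1 * (F i).e ^ 5 = 1 * g i := by field_simp
  exact le_of_eq e

include h3 hF in
private theorem s2t_e : ∃ K : ℝ, 0 ≤ K ∧ ∀ i, (F i).e ≤ K * (F i).kap C3 := by
  refine ⟨(Real.sqrt C3)⁻¹, inv_nonneg.2 (Real.sqrt_nonneg _), fun i => ?_⟩
  unfold Frame.kap
  have he := (F i).e_pos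
  have he1 := (hF i).e_le
  have hs := Real.sqrt_pos.2 h3
  rw [Real.sqrt_mul h3.le, ← mul_assoc, inv_mul_cancel₀ hs.ne', one_mul]
  exact Real.le_sqrt_of_sq_le (by nlinarith)

include hF in
private theorem s2t_of_e {s : ℕ} {φ : ι → (Fin (famS2 w F C3 h3).k → PR) → ℝ → PR}
    (h : Gau (famS2 w F C3 h3) s (fun i => (F i).e) φ) :
    Gau (famS2 w F C3 h3) s (fun i => (F i).kap C3) φ := by
  obtain ⟨K, hK, hKe⟩ := s2t_e h3 hF
  exact h.mono hK hKe

include hF in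
private theorem s2t_of_e2 {s : ℕ} {φ : ι → (Fin (famS2 w F C3 h3).k → PR) → ℝ → PR}
    (h : Gau (famS2 w F C3 h3) s (fun i => (F i).e ^ 2) φ) :
    Gau (famS2 w F C3 h3) s (fun i => (F i).kap C3) φ := by
  refine s2t_of_e h3 hF (h.mono zero_le_one fun i => ?_)
  have he := (F i).e_pos
  have he1 := (hF i).e_le
  nlinarith

include hF in
private theorem s2t_e2smul {s : ℕ} {φ : ι → (Fin (famS2 w F C3 h3).k → PR) → ℝ → PR}
    (h : Gau (famS2 w F C3 h3) s (fun _ => 1) φ) :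
    Gau (famS2 w F C3 h3) s (fun i => (F i).kap C3) (fun i x μ => ((F i).e ^ 2) • φ i x μ) := by
  refine s2t_of_e2 h3 hF ((h.smul (fun i => (F i).e ^ 2)).mono zero_le_one fun i => ?_)
  have he := (F i).e_pos
  rw [abs_of_pos (by positivity), mul_one, one_mul]

include hF hrho hC hX hrhoi

theorem S2_Php : Gau (famS2 w F C3 h3) 2 (fun i => (F i).kap C3)
    (fun i x μ => (mkS2 rho rhoi (F i) (X i) μ).Php x) := by
  obtain ⟨B, hB⟩ := exists_Bd hrhoi
  have hB2 : Bd w 2 (rhoi ^ 2) (B * B) := by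
    rw [pow_two]
    exact (hB.mul hB).level (by norm_num)
  have hP := S2_P (X := X) (rhoi := rhoi) h3 hF hrho
  have hR := S2_R (X := X) (rhoi := rhoi) h3 hF hrho
  have hal := S2_al (X := X) (rhoi := rhoi) h3 hF hrho
  have hga := S2_ga (X := X) (rhoi := rhoi) h3 hF hrho
  have t1 := s2t_mulu h3 ((S2_k1 (rhoi := rhoi) h3 hF hC hX hrho).level (s := 2) (by norm_num)) hP
  have t2 := s2t_mulu h3 ((S2_k3 (rhoi := rhoi) h3 hF hC hX hrho).level (s := 2) (by norm_num)) hR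
  have t3 := s2t_mulu h3 (g := fun _ => 1)
    ((S2_cdA h3 hF hC hX hrho 0).level (s := 2) (by norm_num)) hal
  have t4 := s2t_mulu h3 (g := fun _ => 1)
    ((S2_cdB h3 hF hC hX hrho 0).level (s := 2) (by norm_num)) hga
  have t5 := s2t_e2smul h3 hF (t3.add t4)
  have t6 := s2t_of_e2 h3 hF (S2_N (rhoi := rhoi) h3 hF hC hX hrho 0)
  have t7 := (s2t_mulc h3 (s2t_const h3 hB2) (((t1.add t2).add t5).add t6)).neg
  exact t7.congr fun i x μ _ => rfl

theorem S2_Rhp : Gau (famS2 w F C3 h3) 2 (fun i => (F i).kap C3)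
    (fun i x μ => (mkS2 rho rhoi (F i) (X i) μ).Rhp x) := by
  obtain ⟨B, hB⟩ := exists_Bd hrhoi
  have hB2 : Bd w 2 (rhoi ^ 2) (B * B) := by
    rw [pow_two]
    exact (hB.mul hB).level (by norm_num)
  have hP := S2_P (X := X) (rhoi := rhoi) h3 hF hrho
  have hR := S2_R (X := X) (rhoi := rhoi) h3 hF hrho
  have hal := S2_al (X := X) (rhoi := rhoi) h3 hF hrho
  have hga := S2_ga (X := X) (rhoi := rhoi) h3 hF hrho
  have t1 := s2t_mulu h3 ((S2_k2 (rhoi := rhoi) h3 hF hC hX hrho).level (s := 2) (by norm_num)) hP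
  have t2 := s2t_mulu h3 ((S2_k4 (rhoi := rhoi) h3 hF hC hX hrho).level (s := 2) (by norm_num)) hR
  have t3 := s2t_mulu h3 (g := fun _ => 1)
    ((S2_cdA h3 hF hC hX hrho 1).level (s := 2) (by norm_num)) hal
  have t4 := s2t_mulu h3 (g := fun _ => 1)
    ((S2_cdB h3 hF hC hX hrho 1).level (s := 2) (by norm_num)) hga
  have t5 := s2t_e2smul h3 hF (t3.add t4)
  have t6 := s2t_of_e2 h3 hF (S2_N (rhoi := rhoi) h3 hF hC hX hrho 1)
  have t7 := (s2t_mulc h3 (s2t_const h3 hB2) (((t1.add t2).add t5).add t6)).neg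
  exact t7.congr fun i x μ _ => rfl

omit hC hX hrhoi in
private theorem s2t_drho (j : Fin 2) : Gau (famS2 w F C3 h3) 2 (fun i => 1 / (F i).e ^ 5)
    (fun i _ _ => (F i).d j (rho ^ 2)) := by
  obtain ⟨B, hB⟩ := exists_Bd hrho
  have hB2 : Bd w 3 (rho ^ 2) (B * B) := by
    rw [pow_two]
    exact (hB.mul hB).level (by norm_num)
  exact Gau.frd hF j (s2t_const h3 hB2)

theorem S2_ap : Gau (famS2 w F C3 h3) 2 (fun i => (F i).kap C3)
    (fun i x μ => (mkS2 rho rhoi (F i) (X i) μ).ap x) := by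
  obtain ⟨B, hB⟩ := exists_Bd hrhoi
  have t1 := s2t_of_e2 h3 hF (S2_cE h3 hF hC hX hrho 0 0)
  have t2 := s2t_of_e h3 hF (S2_M (rhoi := rhoi) h3 hF hC hX hrho 0 0)
  have t3 := S2_z00 (rhoi := rhoi) h3 hF hC hX hrho
  have t4 := s2t_mulc h3 (s2t_drho h3 hF hrho 0) (S2_Php h3 hF hC hX hrho hrhoi)
  have t5 := ((t1.neg.sub t2).sub t3).add (t4.add t4)
  have t6 := s2t_mulc h3 (s2t_const h3 (hB.level (s := 2) (by norm_num))) t5
  have t7 := (t6.smul (fun _ => (1 / 2 : ℝ))).mono (g' := fun i => (F i).kap C3) (K := 1 / 2)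
    (by norm_num) (fun i => le_of_eq (by rw [abs_of_pos (by norm_num)]))
  refine t7.congr fun i x μ _ => ?_
  unfold S2.ap
  congr 2
  ring

theorem S2_bp : Gau (famS2 w F C3 h3) 2 (fun i => (F i).kap C3)
    (fun i x μ => (mkS2 rho rhoi (F i) (X i) μ).bp x) := by
  obtain ⟨B, hB⟩ := exists_Bd hrhoi
  have t1 := s2t_of_e2 h3 hF (S2_cE h3 hF hC hX hrho 1 1)
  have t2 := s2t_of_e h3 hF (S2_M (rhoi := rhoi) h3 hF hC hX hrho 1 1)
  have t3 := S2_z11 (rhoi := rhoi) h3 hF hC hX hrho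
  have t4 := s2t_mulc h3 (s2t_drho h3 hF hrho 1) (S2_Rhp h3 hF hC hX hrho hrhoi)
  have t5 := ((t1.neg.sub t2).sub t3).add (t4.add t4)
  have t6 := s2t_mulc h3 (s2t_const h3 (hB.level (s := 2) (by norm_num))) t5
  have t7 := (t6.smul (fun _ => (1 / 2 : ℝ))).mono (g' := fun i => (F i).kap C3) (K := 1 / 2)
    (by norm_num) (fun i => le_of_eq (by rw [abs_of_pos (by norm_num)]))
  refine t7.congr fun i x μ _ => ?_
  unfold S2.bp
  congr 2
  ring

theorem S2_hh : Gau (famS2 w F C3 h3) 2 (fun i => (F i).kap C3)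
    (fun i x μ => (mkS2 rho rhoi (F i) (X i) μ).hh x) := by
  obtain ⟨B, hB⟩ := exists_Bd hrhoi
  have hB2 : Bd w 2 (rhoi ^ 2) (B * B) := by
    rw [pow_two]
    exact (hB.mul hB).level (by norm_num)
  have t1 := s2t_of_e2 h3 hF (S2_cE h3 hF hC hX hrho 0 1)
  have t2 := s2t_of_e h3 hF (S2_M (rhoi := rhoi) h3 hF hC hX hrho 0 1)
  have t3 := S2_z01 (rhoi := rhoi) h3 hF hC hX hrho
  have t4 := s2t_mulc h3 (s2t_drho h3 hF hrho 1) (S2_Php h3 hF hC hX hrho hrhoi)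
  have t4' := s2t_mulc h3 (s2t_drho h3 hF hrho 0) (S2_Rhp h3 hF hC hX hrho hrhoi)
  have t5 := (((t1.neg.sub t2).sub t3).add t4).add t4'
  have t6 := s2t_mulc h3 (s2t_const h3 hB2) t5
  exact t6.congr fun i x μ _ => rfl

theorem S2_Theta (j : Fin 5) : Gau (famS2 w F C3 h3) 2 (fun i => (F i).kap C3)
    (fun i x μ => (mkS2 rho rhoi (F i) (X i) μ).Theta x j) := by
  fin_cases j
  · exact (S2_hh h3 hF hC hX hrho hrhoi).P0
  · exact S2_ap h3 hF hC hX hrho hrhoi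
  · exact S2_bp h3 hF hC hX hrho hrhoi
  · exact S2_Php h3 hF hC hX hrho hrhoi
  · exact S2_Rhp h3 hF hC hX hrho hrhoi

end

end P205T
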