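import Vale.Agent.Lib.P205T.S2C1

/-! # P205T module S2U: the second contraction: gauges of the unknown and its derivatives -/

open scoped ContDiff ENNReal
open Complex Set

namespace P205T

section

variable {ι : Type} {w : Weight} {F : ι → Frame} {X : ι → ApproxData} {C3 : ℝ} (h3 : 0 < C3)
  {G : CMet} {C0 c1 : ℝ} {m : ℤ × ℤ} (hF : ∀ i, (F i).Good G C0 c1 m) {rho rhoi : PR} {C c : ℝ}
  (hC : 0 ≤ C) (hX : ∀ i, IsApprox (X i) w (F i) G rho ((F i).kap C3) C c)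
  (hrho : Nm w 14 rho ≠ ⊤) (hrhoi : Nm w 14 rhoi ≠ ⊤)

include hF hrho

omit hF in
private theorem S2U_rho : Gau (famS2 w F C3 h3) 2 (fun i => 1 / (F i).e ^ 5)
    (fun _ _ _ => rho) := by
  obtain ⟨B, hB⟩ := exists_Bd hrho
  exact Gau.const (D := famS2 w F C3 h3) (fun _ => rho) (fun _ => 1) hB.nonneg
    (fun i => (hB.level (by norm_num)).mono (le_of_eq (mul_one B).symm))

omit hF hrho in
private theorem S2U_one (F : ι → Frame) (i : ι) :
    1 / (F i).e ^ 5 * 1 * (famS2 w F C3 h3).r i ≤ 1 * 1 := by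
  have hp : 0 < (F i).e ^ 5 := pow_pos (F i).e_pos 5
  show 1 / (F i).e ^ 5 * 1 * (F i).e ^ 5 ≤ 1 * 1
  rw [mul_one, one_div, inv_mul_cancel₀ hp.ne', one_mul]

theorem S2_P : Gau (famS2 w F C3 h3) 2 (fun _ => 1)
    (fun i x μ => (mkS2 rho rhoi (F i) (X i) μ).P x) := by
  exact (Gau.frdG0 hF 1 (Gau.proj (D := famS2 w F C3 h3) (s := 2) (0 : Fin 5) le_rfl)).add
    (Gau.proj (D := famS2 w F C3 h3) (s := 2) (3 : Fin 5) le_rfl)

theorem S2_R : Gau (famS2 w F C3 h3) 2 (fun _ => 1)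
    (fun i x μ => (mkS2 rho rhoi (F i) (X i) μ).R x) := by
  exact (Gau.frdG0 hF 0 (Gau.proj (D := famS2 w F C3 h3) (s := 2) (0 : Fin 5) le_rfl)).add
    (Gau.proj (D := famS2 w F C3 h3) (s := 2) (4 : Fin 5) le_rfl)

theorem S2_al : Gau (famS2 w F C3 h3) 2 (fun _ => 1)
    (fun i x μ => (mkS2 rho rhoi (F i) (X i) μ).al x) := by
  have h1 := (S2U_rho (F := F) (C3 := C3) h3 hrho).mul
    (Gau.frT (D := famS2 w F C3 h3) (F := F) 0 1
      (Gau.proj (D := famS2 w F C3 h3) (s := 2) (0 : Fin 5) le_rfl))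
  have h2 := h1.mono (g' := fun _ => 1) zero_le_one (S2U_one h3 F)
  exact h2.neg.add (Gau.proj (D := famS2 w F C3 h3) (s := 2) (1 : Fin 5) le_rfl)

theorem S2_ga : Gau (famS2 w F C3 h3) 2 (fun _ => 1)
    (fun i x μ => (mkS2 rho rhoi (F i) (X i) μ).ga x) := by
  have h1 := (S2U_rho (F := F) (C3 := C3) h3 hrho).mul
    (Gau.frT (D := famS2 w F C3 h3) (F := F) 0 1
      (Gau.proj (D := famS2 w F C3 h3) (s := 2) (0 : Fin 5) le_rfl))
  have h2 := h1.mono (g' := fun _ => 1) zero_le_one (S2U_one h3 F)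
  exact h2.neg.add (Gau.proj (D := famS2 w F C3 h3) (s := 2) (2 : Fin 5) le_rfl)

omit hrho in
private theorem S2U_e {φ : ι → (Fin (famS2 w F C3 h3).k → PR) → ℝ → PR}
    (h : Gau (famS2 w F C3 h3) 2 (fun _ => 1) φ) :
    Gau (famS2 w F C3 h3) 2 (fun _ => 1) (fun i x μ => (F i).e • φ i x μ) := by
  refine (h.smul (fun i => (F i).e)).mono zero_le_one fun i => ?_
  rw [abs_of_pos (F i).e_pos, mul_one, mul_one]
  exact (hF i).e_le

include hC hX

theorem S2_v (j : Fin 4) : Gau (famS2 w F C3 h3) 2 (fun _ => 1)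
    (fun i x μ => (mkS2 rho rhoi (F i) (X i) μ).v x j) := by
  have hA := (((S2_cA h3 hF hC hX hrho).level (by norm_num : 2 ≤ 13)).mul
    (S2_P h3 hF (rhoi := rhoi) (X := X) hrho)).mono (g' := fun _ => 1) zero_le_one (S2U_one h3 F)
  have hB := (((S2_cB h3 hF hC hX hrho).level (by norm_num : 2 ≤ 13)).mul
    (S2_R h3 hF (rhoi := rhoi) (X := X) hrho)).mono (g' := fun _ => 1) zero_le_one (S2U_one h3 F)
  fin_cases j
  · exact S2U_e h3 hF (S2_al h3 hF (rhoi := rhoi) (X := X) hrho)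
  · exact hA
  · exact S2U_e h3 hF (S2_ga h3 hF (rhoi := rhoi) (X := X) hrho)
  · exact hB

/-- general twisted derivative -/
theorem S2_D {V : ι → (Fin (famS2 w F C3 h3).k → PR) → ℝ → V4} {s : ℕ} (hs : s + 1 ≤ 13)
    {g : ι → ℝ} (hg : ∀ i, 0 ≤ g i)
    (hV : ∀ j, Gau (famS2 w F C3 h3) (s + 1) g (fun i x μ => V i x μ j)) (k : Fin 2) (j : Fin 4) :
    Gau (famS2 w F C3 h3) s (fun i => g i / (F i).e)
      (fun i x μ => (mkS2 rho rhoi (F i) (X i) μ).D k (V i x μ) j) := by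
  have hd : ∀ j : Fin 4, Gau (famS2 w F C3 h3) s (fun i => g i / (F i).e)
      (fun i x μ => (F i).d k (V i x μ j)) := by
    intro j
    refine (Gau.frd hF k (hV j)).mono zero_le_one fun i => ?_
    rw [one_mul, le_div_iff₀ (F i).e_pos]
    exact mul_le_of_le_one_right (hg i) (hF i).e_le
  have hle : ∀ i, 1 / (F i).e / (F i).e ^ 5 * g i * (famS2 w F C3 h3).r i ≤
      1 * (g i / (F i).e) := by
    intro i
    have he := (F i).e_pos
    show 1 / (F i).e / (F i).e ^ 5 * g i * (F i).e ^ 5 ≤ 1 * (g i / (F i).e)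
    refine le_of_eq ?_
    field_simp
  have hPh : ∀ j : Fin 4, Gau (famS2 w F C3 h3) s (fun i => g i / (F i).e)
      (fun i x μ => (F i).Ph ((X i).p μ) k * V i x μ j) := fun j =>
    (((S2_cPh h3 hF hC hX hrho k).level (by omega : s ≤ 13)).mul
      ((hV j).level (Nat.le_succ s))).mono zero_le_one hle
  have hPs : ∀ j : Fin 4, Gau (famS2 w F C3 h3) s (fun i => g i / (F i).e)
      (fun i x μ => (F i).Ps ((X i).q μ) k * V i x μ j) := fun j =>
    (((S2_cPs h3 hF hC hX hrho k).level (by omega : s ≤ 13)).mul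
      ((hV j).level (Nat.le_succ s))).mono zero_le_one hle
  fin_cases j
  · exact (hd 0).sub (hPh 1)
  · exact (hd 1).add (hPh 0)
  · exact (hd 2).sub (hPs 3)
  · exact (hd 3).add (hPs 2)

theorem S2_Dv (k : Fin 2) (j : Fin 4) : Gau (famS2 w F C3 h3) 1 (fun i => 1 / (F i).e)
    (fun i x μ => (mkS2 rho rhoi (F i) (X i) μ).D k ((mkS2 rho rhoi (F i) (X i) μ).v x) j) := by
  exact S2_D h3 hF hC hX hrho (s := 1) (by norm_num) (g := fun _ => 1) (fun _ => zero_le_one)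
    (S2_v h3 hF hC hX (rhoi := rhoi) hrho) k j

theorem S2_DDv (k l : Fin 2) (j : Fin 4) : Gau (famS2 w F C3 h3) 0 (fun i => 1 / (F i).e ^ 2)
    (fun i x μ => (mkS2 rho rhoi (F i) (X i) μ).D k ((mkS2 rho rhoi (F i) (X i) μ).D l
      ((mkS2 rho rhoi (F i) (X i) μ).v x)) j) := by
  have h := S2_D h3 hF hC hX hrho (rhoi := rhoi) (s := 0) (by norm_num)
    (g := fun i => 1 / (F i).e) (fun i => (div_pos one_pos (F i).e_pos).le)
    (S2_Dv h3 hF hC hX (rhoi := rhoi) hrho l) k j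
  refine h.mono zero_le_one fun i => le_of_eq ?_
  have he := (F i).e_pos
  field_simp

end

end P205T
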