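import Vale.Agent.Lib.P205T.S2T
import Vale.Agent.Lib.P205T.S2Alg

/-! # P205T module Stage2: the second stage and the constant conformal class case -/

open scoped ContDiff ENNReal
open Complex Set

namespace P205T

private theorem st2_eval {ι : Type} {w : Weight} {F : ι → Frame} {C3 : ℝ} (h3 : 0 < C3) {s : ℕ}
    {g : ι → ℝ} {φ : ι → (Fin 5 → PR) → ℝ → PR} (h : Gau (famS2 w F C3 h3) s g φ) :
    ∃ C : ℝ, 0 ≤ C ∧ ∀ i (sol : ℝ → (Fin 5 → PR)),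
      (∀ μ ∈ Icc 0 ((F i).kap C3), (famS2 w F C3 h3).mem i (sol μ) μ ∧
        ∀ ν ∈ Icc 0 ((F i).kap C3),
          BdX w 2 (sol μ - sol ν) ((F i).e ^ 5 / (F i).kap C3 * |μ - ν|)) →
      ∀ μ ∈ Icc 0 ((F i).kap C3), Bd w s (φ i (sol μ) μ) (C * g i * (F i).e ^ 5) ∧
        ∀ ν ∈ Icc 0 ((F i).kap C3),
          Bd w s (φ i (sol μ) μ - φ i (sol ν) ν)
            (C * g i * ((F i).e ^ 5 / (F i).kap C3 * |μ - ν|)) := by
  obtain ⟨C, hC, h⟩ := h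
  refine ⟨C, hC, fun i sol hs μ hμ => ⟨(h i (sol μ) μ (hs μ hμ).1).1, fun ν hν => ?_⟩⟩
  exact (h i (sol μ) μ (hs μ hμ).1).2 (sol ν) ν _ (hs ν hν).1 ⟨(hs μ hμ).2 ν hν, le_rfl⟩

private theorem st2_mean_sub (f g : PR) : mean (f - g) = mean f - mean g := by
  unfold mean
  rw [cr_sub, Complex.sub_re]

private theorem st2_kap_pos (F : Frame) {C3 : ℝ} (h3 : 0 < C3) : 0 < F.kap C3 :=
  Real.sqrt_pos.mpr (mul_pos h3 F.e_pos)

private theorem st2_kap_le (F : Frame) {C3 t : ℝ} (h3 : 0 < C3) (ht : 0 < t)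
    (he : F.e ≤ t ^ 2 / C3) : F.kap C3 ≤ t := by
  refine Real.sqrt_le_iff.mpr ⟨ht.le, ?_⟩
  rw [le_div_iff₀ h3] at he
  linarith

/-- Summary of the second contraction: exact metric up to a multiple `t μ` of the off-diagonal
matrix, with `t` continuous and changing sign. -/
theorem stage2 (G : CMet) (rho rhoi : PR) (hr : rho * rhoi = 1) (C0 c1 : ℝ) (m : ℤ × ℤ)
    (w : Weight) (hrho : Nm w 14 rho ≠ ⊤) (hrhoi : Nm w 14 rhoi ≠ ⊤) (C3 C c e1 : ℝ)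
    (h3 : 0 < C3) (hC : 0 ≤ C) (hc : 0 < c) (he1 : 0 < e1)
    (H : ∀ F : Frame, F.Good G C0 c1 m → F.e ≤ e1 →
      ∃ X : ApproxData, IsApprox X w F G rho (F.kap C3) C c) :
    ∃ e2 : ℝ, 0 < e2 ∧ ∀ F : Frame, F.Good G C0 c1 m → F.e ≤ e2 →
      ∃ (p q : ℝ → PR) (V : ℝ → V4) (t : ℝ → ℝ), ContinuousOn t (Icc 0 (F.kap C3)) ∧ 0 < t 0 ∧
        t (F.kap C3) < 0 ∧ ∀ μ ∈ Icc 0 (F.kap C3), ∀ i j,
          ip4 (F.D (p μ) (q μ) i (V μ)) (F.D (p μ) (q μ) j (V μ)) =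
            F.gam G i j • rho ^ 2 + (t μ * sig i j) • rho ^ 2 := by
  set ι : Type := {F : Frame // F.Good G C0 c1 m ∧ F.e ≤ e1} with hι
  set FF : ι → Frame := fun i => i.1 with hFF
  have hF : ∀ i : ι, (FF i).Good G C0 c1 m := fun i => i.2.1
  choose X hX using fun i : ι => H i.1 i.2.1 i.2.2
  have hX' : ∀ i : ι, IsApprox (X i) w (FF i) G rho ((FF i).kap C3) C c := hX
  obtain ⟨Cf, hCf0, hCf⟩ := Gau_fixed (famS2 w FF C3 h3)
    (fun i x μ => (mkS2 rho rhoi (FF i) (X i) μ).Theta x) (fun i => (FF i).kap C3)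
    (fun i => (st2_kap_pos (FF i) h3).le)
    (fun j => S2_Theta h3 hF hC hX' hrho hrhoi j)
  obtain ⟨Ch, hCh0, hCh⟩ := st2_eval h3 (S2_hh h3 hF hC hX' hrho hrhoi)
  set t : ℝ := min (1 / (2 * (Cf + 1))) (c / (2 * (Ch + 1))) with ht
  have htpos : 0 < t := lt_min (by positivity) (by positivity)
  refine ⟨min e1 (t ^ 2 / C3), lt_min he1 (by positivity), fun F hgood hFe => ?_⟩
  have hkt : F.kap C3 ≤ t := st2_kap_le F h3 htpos (hFe.trans (min_le_right _ _))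
  have hkpos : 0 < F.kap C3 := st2_kap_pos F h3
  have hepos := F.e_pos
  have he4 : F.e ^ 4 ≤ 1 := pow_le_one₀ hepos.le hgood.e_le
  have hkf : Cf * F.kap C3 ≤ 1 / 2 := by
    have h1 : F.kap C3 ≤ 1 / (2 * (Cf + 1)) := hkt.trans (min_le_left _ _)
    rw [le_div_iff₀ (by positivity)] at h1
    nlinarith
  have hkh : Ch * F.kap C3 < c := by
    have h1 : F.kap C3 ≤ c / (2 * (Ch + 1)) := hkt.trans (min_le_right _ _)
    rw [le_div_iff₀ (by positivity)] at h1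
    nlinarith
  have hkh5 : Ch * F.kap C3 * F.e ^ 5 < c * F.e := by
    have h1 : Ch * F.kap C3 * F.e ^ 4 ≤ Ch * F.kap C3 * 1 :=
      mul_le_mul_of_nonneg_left he4 (mul_nonneg hCh0 hkpos.le)
    have h2 : Ch * F.kap C3 * F.e ^ 4 < c := by linarith
    calc Ch * F.kap C3 * F.e ^ 5 = Ch * F.kap C3 * F.e ^ 4 * F.e := by ring
      _ < c * F.e := mul_lt_mul_of_pos_right h2 hepos
  set i : ι := ⟨F, hgood, hFe.trans (min_le_left _ _)⟩ with hi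
  obtain ⟨sol, hsol⟩ := hCf i hkf
  have hXi : IsApprox (X i) w F G rho (F.kap C3) C c := hX i
  have hs : ∀ μ ∈ Icc 0 ((FF i).kap C3), (famS2 w FF C3 h3).mem i (sol μ) μ ∧
      ∀ ν ∈ Icc 0 ((FF i).kap C3),
        BdX w 2 (sol μ - sol ν) ((FF i).e ^ 5 / (FF i).kap C3 * |μ - ν|) :=
    fun μ hμ => ⟨(hsol μ hμ.1 hμ.2).1, fun ν hν => (hsol μ hμ.1 hμ.2).2.2.2 ν hν.1 hν.2⟩
  have hfix : ∀ μ ∈ Icc 0 (F.kap C3), (mkS2 rho rhoi F (X i) μ).Theta (sol μ) = sol μ :=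
    fun μ hμ => (hsol μ hμ.1 hμ.2).2.1
  have hmean : ∀ μ ∈ Icc 0 (F.kap C3),
      |mean ((mkS2 rho rhoi F (X i) μ).hh (sol μ))| ≤ Ch * F.kap C3 * F.e ^ 5 :=
    fun μ hμ => ((hCh i sol hs μ hμ).1).mean
  have h0 : (0 : ℝ) ∈ Icc 0 (F.kap C3) := ⟨le_rfl, hkpos.le⟩
  have hk : F.kap C3 ∈ Icc 0 (F.kap C3) := ⟨hkpos.le, le_rfl⟩
  refine ⟨(X i).p, (X i).q,
    fun μ => (mkS2 rho rhoi F (X i) μ).V0 + (mkS2 rho rhoi F (X i) μ).v (sol μ),
    fun μ => (X i).s μ - mean ((mkS2 rho rhoi F (X i) μ).hh (sol μ)), ?_, ?_, ?_, ?_⟩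
  · refine hXi.s_cont.sub ?_
    have hlip : ∀ μ ∈ Icc 0 (F.kap C3), ∀ ν ∈ Icc 0 (F.kap C3),
        |mean ((mkS2 rho rhoi F (X i) μ).hh (sol μ)) -
          mean ((mkS2 rho rhoi F (X i) ν).hh (sol ν))| ≤ Ch * F.e ^ 5 * |μ - ν| := by
      intro μ hμ ν hν
      have h1 := ((hCh i sol hs μ hμ).2 ν hν).mean
      rw [st2_mean_sub] at h1
      have h2 : Ch * F.kap C3 * (F.e ^ 5 / F.kap C3 * |μ - ν|) = Ch * F.e ^ 5 * |μ - ν| := by
        field_simp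
      exact h1.trans_eq h2
    have hK : LipschitzOnWith (Real.toNNReal (Ch * F.e ^ 5))
        (fun μ => mean ((mkS2 rho rhoi F (X i) μ).hh (sol μ))) (Icc 0 (F.kap C3)) := by
      refine LipschitzOnWith.of_dist_le_mul fun μ hμ ν hν => ?_
      rw [Real.dist_eq, Real.dist_eq, Real.coe_toNNReal _ (mul_nonneg hCh0 (by positivity))]
      exact hlip μ hμ ν hν
    exact hK.continuousOn
  · have h1 := hXi.s_zero
    have h2 := (abs_le.mp (hmean 0 h0)).2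
    show 0 < (X i).s 0 - mean ((mkS2 rho rhoi F (X i) 0).hh (sol 0))
    linarith
  · have h1 := hXi.s_kap
    have h2 := (abs_le.mp (hmean _ hk)).1
    show (X i).s (F.kap C3) - mean ((mkS2 rho rhoi F (X i) (F.kap C3)).hh (sol (F.kap C3))) < 0
    linarith
  · intro μ hμ a b
    exact (mkS2 rho rhoi F (X i) μ).fixed_metric (sol μ) G ((X i).s μ)
      (fun a b => (X i).E a b μ) rfl rfl rfl (hXi.E_symm 1 0 μ) hr (hfix μ hμ)
      (fun a b => hXi.metric a b μ hμ) a b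

end P205T
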