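import Mathlib

/-!
# P205: smooth Riemannian metrics on the torus `ℝ² / ℤ²` and isometric immersions

A smooth Riemannian metric on the torus is a smooth Riemannian metric on the plane which is
invariant under the translations by integer vectors.
-/

open scoped ContDiff RealInnerProductSpace

namespace P205T

/-- the Euclidean plane -/
abbrev Plane : Type := EuclideanSpace ℝ (Fin 2)

/-- four-dimensional Euclidean space -/
abbrev Space4 : Type := EuclideanSpace ℝ (Fin 4)

/-- bilinear forms on the plane -/
abbrev Bil : Type := Plane →L[ℝ] Plane →L[ℝ] ℝ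

/-- the integer vector `(n 0, n 1)` in the plane -/
noncomputable def intVec (n : Fin 2 → ℤ) : Plane := WithLp.toLp 2 (fun i => (n i : ℝ))

/-- invariance under integer translations -/
def IsPeriodic {β : Type} (f : Plane → β) : Prop := ∀ x n, f (x + intVec n) = f x

/-- `g` is a smooth Riemannian metric on the torus `ℝ² / ℤ²` -/
structure IsTorusMetric (g : Plane → Bil) : Prop where
  smooth : ContDiff ℝ ∞ g
  symm : ∀ x u v, g x u v = g x v u
  pos : ∀ x u, u ≠ 0 → 0 < g x u u
  periodic : IsPeriodic g

/-- `F` is a smooth isometric immersion of the plane with the metric `g`: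
`⟨dF u, dF v⟩ = g (u, v)` -/
def IsIsometricImmersion (g : Plane → Bil) (F : Plane → Space4) : Prop :=
  ContDiff ℝ ∞ F ∧ ∀ x u v, ⟪fderiv ℝ F x u, fderiv ℝ F x v⟫ = g x u v

end P205T
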