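import Vale.Agent.Lib.P205T.UDefs

/-! # P205T module UA: uniformization: the Beltrami coefficient of a metric -/

open scoped ContDiff ENNReal
open Complex Set

namespace P205T

/-- the area density -/
private noncomputable def uaD (g : PMet) : PR :=
  ⟨fun x => Real.sqrt (g.E x * g.G x - g.F x ^ 2),
    (((PR.smooth g.E).mul (PR.smooth g.G)).sub ((PR.smooth g.F).pow 2)).sqrt
      (fun x => (g.det x).ne'),
    fun x n => by simp only [(PR.per g.E) x n, (PR.per g.G) x n, (PR.per g.F) x n]⟩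

private theorem uaD_pos (g : PMet) (x : ℝ × ℝ) : 0 < uaD g x := Real.sqrt_pos.2 (g.det x)

private theorem uaD_sq (g : PMet) (x : ℝ × ℝ) : uaD g x ^ 2 = g.E x * g.G x - g.F x ^ 2 :=
  Real.sq_sqrt (g.det x).le

private theorem uaG_pos (g : PMet) (x : ℝ × ℝ) : 0 < g.G x := by
  have h1 := g.pos x
  have h2 := g.det x
  by_contra hcon
  push Not at hcon
  nlinarith [mul_nonneg h1.le (neg_nonneg.2 hcon), sq_nonneg (g.F x)]

private theorem uaS_pos (g : PMet) (x : ℝ × ℝ) : 0 < g.E x + g.G x + 2 * uaD g x := by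
  have h1 := g.pos x
  have h2 := uaG_pos g x
  have h3 := uaD_pos g x
  linarith

/-- `1 / (E + G + 2 D)` -/
private noncomputable def uaI (g : PMet) : PR :=
  ⟨fun x => (g.E x + g.G x + 2 * uaD g x)⁻¹,
    (((PR.smooth g.E).add (PR.smooth g.G)).add (contDiff_const.mul (PR.smooth (uaD g)))).inv
      (fun x => (uaS_pos g x).ne'),
    fun x n => by simp only [(PR.per g.E) x n, (PR.per g.G) x n, (PR.per (uaD g)) x n]⟩

private theorem uaI_apply (g : PMet) (x : ℝ × ℝ) :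
    uaI g x = (g.E x + g.G x + 2 * uaD g x)⁻¹ := rfl

private theorem ua_alg {E F G D S a b v1 v2 : ℝ} (hS : S = E + G + 2 * D) (hS0 : 0 < S)
    (hD : D ^ 2 = E * G - F ^ 2) (ha : a = (E - G) * S⁻¹) (hb : b = 2 * F * S⁻¹) :
    E * v1 ^ 2 + 2 * F * v1 * v2 + G * v2 ^ 2 =
      1 / 4 * S * ((v1 + (a * v1 + b * v2)) ^ 2 + (v2 + (b * v1 - a * v2)) ^ 2) := by
  have hSne := hS0.ne'
  have e1 : a ^ 2 + b ^ 2 = (E + G - 2 * D) * S⁻¹ := by
    rw [ha, hb]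
    have h2 : (E - G) ^ 2 + (2 * F) ^ 2 = (E + G - 2 * D) * S := by
      rw [hS]
      linear_combination 4 * hD
    calc ((E - G) * S⁻¹) ^ 2 + (2 * F * S⁻¹) ^ 2 = ((E - G) ^ 2 + (2 * F) ^ 2) * S⁻¹ ^ 2 := by ring
      _ = (E + G - 2 * D) * S⁻¹ * (S * S⁻¹) := by rw [h2]; ring
      _ = (E + G - 2 * D) * S⁻¹ := by rw [mul_inv_cancel₀ hSne, mul_one]
  have hSi : S * S⁻¹ = 1 := mul_inv_cancel₀ hSne
  have e2 : S * (a ^ 2 + b ^ 2) = E + G - 2 * D := by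
    rw [e1]
    linear_combination (E + G - 2 * D) * hSi
  have e3 : S * a = E - G := by
    rw [ha]
    linear_combination (E - G) * hSi
  have e4 : S * b = 2 * F := by
    rw [hb]
    linear_combination (2 * F) * hSi
  have e5 : 1 / 4 * S * ((v1 + (a * v1 + b * v2)) ^ 2 + (v2 + (b * v1 - a * v2)) ^ 2) =
      1 / 4 * ((S + S * (a ^ 2 + b ^ 2)) * (v1 ^ 2 + v2 ^ 2) + 2 * (S * a) * (v1 ^ 2 - v2 ^ 2)
        + 4 * (S * b) * (v1 * v2)) := by ring
  rw [e5, e2, e3, e4, hS]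
  ring

private theorem ua_norm {E F G D S : ℝ} (hS : S = E + G + 2 * D) (hS0 : 0 < S)
    (hD : D ^ 2 = E * G - F ^ 2) :
    ((E - G) * S⁻¹) ^ 2 + (2 * F * S⁻¹) ^ 2 = 1 - 4 * D * S⁻¹ := by
  have hSne := hS0.ne'
  have h2 : (E - G) ^ 2 + (2 * F) ^ 2 = (S - 4 * D) * S := by
    rw [hS]
    linear_combination 4 * hD
  calc ((E - G) * S⁻¹) ^ 2 + (2 * F * S⁻¹) ^ 2 = ((E - G) ^ 2 + (2 * F) ^ 2) * S⁻¹ ^ 2 := by ring
    _ = (S - 4 * D) * S⁻¹ * (S * S⁻¹) := by rw [h2]; ring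
    _ = (S - 4 * D) * S⁻¹ := by rw [mul_inv_cancel₀ hSne, mul_one]
    _ = S * S⁻¹ - 4 * D * S⁻¹ := by ring
    _ = 1 - 4 * D * S⁻¹ := by rw [mul_inv_cancel₀ hSne]

/-- `μ = (E - G + 2 i F) / (E + G + 2 √(E G - F²))`, `lam = (E + G + 2 √(E G - F²)) / 4`;
see `notes/P205/TORUS_PROOF.md` I.1 -/
theorem beltrami (g : PMet) : ∃ (mu : PC) (lam : PR) (θ : ℝ), 0 ≤ θ ∧ θ < 1 ∧
    (∀ x, ‖mu x‖ ≤ θ) ∧ (∀ x, 0 < lam x) ∧
    ∀ x v, g.q x v = lam x * ‖((v.1 : ℂ) + v.2 * I) + mu x * ((v.1 : ℂ) - v.2 * I)‖ ^ 2 := by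
  -- boundedness of `S / (4 D)`
  obtain ⟨B, hB0, hB⟩ := fa2_bounded (f := fun x => (g.E x + g.G x + 2 * uaD g x) / (4 * uaD g x))
    (by
      have h1 : Continuous (uaD g : ℝ × ℝ → ℝ) := (PR.smooth (uaD g)).continuous
      have h2 : Continuous (g.E : ℝ × ℝ → ℝ) := (PR.smooth g.E).continuous
      have h3 : Continuous (g.G : ℝ × ℝ → ℝ) := (PR.smooth g.G).continuous
      exact ((h2.add h3).add (continuous_const.mul h1)).div (continuous_const.mul h1)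
        (fun x => (mul_pos four_pos (uaD_pos g x)).ne'))
    (fun x n => by simp only [(PR.per g.E) x n, (PR.per g.G) x n, (PR.per (uaD g)) x n])
  have hmu2 : ∀ x, ((g.E x - g.G x) * uaI g x) ^ 2 + (2 * g.F x * uaI g x) ^ 2
      ≤ 1 - (B + 1)⁻¹ := by
    intro x
    have h1 := ua_norm (E := g.E x) (F := g.F x) (G := g.G x) (D := uaD g x) rfl (uaS_pos g x)
      (uaD_sq g x)
    rw [uaI_apply, h1]
    have hS := uaS_pos g x
    have hD := uaD_pos g x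
    have h2 := hB x
    rw [Real.norm_eq_abs, abs_of_pos (by positivity), div_le_iff₀ (by positivity)] at h2
    have h3 : (B + 1)⁻¹ ≤ 4 * uaD g x * (g.E x + g.G x + 2 * uaD g x)⁻¹ := by
      rw [← div_eq_mul_inv, inv_eq_one_div, div_le_div_iff₀ (by linarith) hS]
      nlinarith
    linarith
  have hθ0 : 0 ≤ 1 - (B + 1)⁻¹ := by
    have : (B + 1)⁻¹ ≤ 1 := inv_le_one_of_one_le₀ (by linarith)
    linarith
  have hθ1 : 1 - (B + 1)⁻¹ < 1 := by
    have : 0 < (B + 1)⁻¹ := by positivity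
    linarith
  refine ⟨toC ((g.E - g.G) * uaI g) + I • toC ((2 : ℝ) • (g.F * uaI g)),
    (1 / 4 : ℝ) • (g.E + g.G + (2 : ℝ) • uaD g), Real.sqrt (1 - (B + 1)⁻¹),
    Real.sqrt_nonneg _, ?_, ?_, ?_, ?_⟩
  · rw [Real.sqrt_lt' one_pos]
    simpa using hθ1
  · intro x
    refine Real.le_sqrt_of_sq_le ?_
    refine le_trans (le_of_eq ?_) (hmu2 x)
    simp only [PC.add_apply, PC.smul_apply, toC_apply, PR.mul_apply, PR.sub_apply, PR.smul_apply]
    rw [← Complex.normSq_eq_norm_sq, mul_comm I, Complex.normSq_add_mul_I]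
    ring
  · intro x
    have hS := uaS_pos g x
    simp only [PR.smul_apply, PR.add_apply]
    linarith
  · intro x v
    have h1 := ua_alg (E := g.E x) (F := g.F x) (G := g.G x) (D := uaD g x) (v1 := v.1)
      (v2 := v.2) rfl (uaS_pos g x) (uaD_sq g x) rfl rfl
    unfold PMet.q
    rw [h1]
    simp only [PC.add_apply, PC.smul_apply, toC_apply, PR.mul_apply, PR.sub_apply, PR.smul_apply,
      PR.add_apply, uaI_apply]
    congr 1
    rw [← Complex.normSq_eq_norm_sq]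
    have e : ((v.1 : ℂ) + v.2 * I) +
        ((((g.E x - g.G x) * (g.E x + g.G x + 2 * uaD g x)⁻¹ : ℝ) : ℂ)
          + I * ((2 * (g.F x * (g.E x + g.G x + 2 * uaD g x)⁻¹) : ℝ) : ℂ)) *
          ((v.1 : ℂ) - v.2 * I) =
        ((v.1 + ((g.E x - g.G x) * (g.E x + g.G x + 2 * uaD g x)⁻¹ * v.1 +
          2 * g.F x * (g.E x + g.G x + 2 * uaD g x)⁻¹ * v.2) : ℝ) : ℂ) +
        ((v.2 + (2 * g.F x * (g.E x + g.G x + 2 * uaD g x)⁻¹ * v.1 -
          (g.E x - g.G x) * (g.E x + g.G x + 2 * uaD g x)⁻¹ * v.2) : ℝ) : ℂ) * I := by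
      generalize (g.E x + g.G x + 2 * uaD g x)⁻¹ = s
      push_cast
      linear_combination (-(2 * (g.F x : ℂ) * s * v.2)) * Complex.I_mul_I
    rw [e, Complex.normSq_add_mul_I]

end P205T
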