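import Vale.Agent.Lib.P205T.UDefs

/-! # P205T module UB: uniformization: operators -/

open scoped ContDiff ENNReal
open Complex Set

namespace P205T

private theorem ub_ne {n : ℤ × ℤ} (hn : n ≠ 0) : (n.1 : ℂ) + I * (n.2 : ℂ) ≠ 0 := by
  intro h
  have h1 := congrArg Complex.re h
  have h2 := congrArg Complex.im h
  simp at h1 h2
  exact hn (Prod.ext h1 h2)

private theorem ub_normSq_add (a b : ℤ) :
    ‖(a : ℂ) + I * (b : ℂ)‖ ^ 2 = (a : ℝ) ^ 2 + (b : ℝ) ^ 2 := by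
  rw [← Complex.normSq_eq_norm_sq, Complex.normSq_apply]
  simp
  ring

private theorem ub_normSq_sub (a b : ℤ) :
    ‖(a : ℂ) - I * (b : ℂ)‖ ^ 2 = (a : ℝ) ^ 2 + (b : ℝ) ^ 2 := by
  rw [← Complex.normSq_eq_norm_sq, Complex.normSq_apply]
  simp
  ring

private theorem ub_norm_eq (a b : ℤ) :
    ‖(a : ℂ) - I * (b : ℂ)‖ = ‖(a : ℂ) + I * (b : ℂ)‖ := by
  have h := (ub_normSq_sub a b).trans (ub_normSq_add a b).symm
  exact (pow_left_inj₀ (norm_nonneg _) (norm_nonneg _) two_ne_zero).1 h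

private theorem ub_one_le {n : ℤ × ℤ} (hn : n ≠ 0) : 1 ≤ ‖(n.1 : ℂ) + I * (n.2 : ℂ)‖ := by
  have h := ub_normSq_add n.1 n.2
  have h1 : (1 : ℤ) ≤ n.1 ^ 2 + n.2 ^ 2 := by
    by_contra hc
    have h2 : n.1 ^ 2 + n.2 ^ 2 = 0 := by nlinarith [sq_nonneg n.1, sq_nonneg n.2]
    have h3 : n.1 ^ 2 = 0 := by nlinarith [sq_nonneg n.1, sq_nonneg n.2]
    have h4 : n.2 ^ 2 = 0 := by nlinarith [sq_nonneg n.1, sq_nonneg n.2]
    exact hn (Prod.ext (pow_eq_zero_iff two_ne_zero |>.1 h3) (pow_eq_zero_iff two_ne_zero |>.1 h4))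
  have h5 : (1 : ℝ) ≤ (n.1 : ℝ) ^ 2 + (n.2 : ℝ) ^ 2 := by exact_mod_cast h1
  rw [← h] at h5
  nlinarith [norm_nonneg ((n.1 : ℂ) + I * (n.2 : ℂ))]

private theorem ub_pi : (Real.pi : ℂ) ≠ 0 := Complex.ofReal_ne_zero.2 Real.pi_ne_zero

theorem cf_del (f : PC) (n : ℤ × ℤ) :
    cf (del f) n = Real.pi * I * ((n.1 : ℂ) - I * (n.2 : ℂ)) * cf f n := by
  have h : del f = (1 / 2 : ℂ) • (dvC (1, 0) f - I • dvC (0, 1) f) := rfl
  rw [h, cf_smul, cf_sub, cf_smul, cf_dvC, cf_dvC]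
  simp only [dotZ]
  push_cast
  ring

theorem cf_dbar (f : PC) (n : ℤ × ℤ) :
    cf (dbar f) n = Real.pi * I * ((n.1 : ℂ) + I * (n.2 : ℂ)) * cf f n := by
  have h : dbar f = (1 / 2 : ℂ) • (dvC (1, 0) f + I • dvC (0, 1) f) := rfl
  rw [h, cf_smul, cf_add, cf_smul, cf_dvC, cf_dvC]
  simp only [dotZ]
  push_cast
  ring

theorem isSymC_S : IsSymC symS := by
  refine ⟨1, 0, fun n => ?_⟩
  rw [pow_zero, mul_one]
  unfold symS
  by_cases hn : n = 0
  · rw [if_pos hn, norm_zero]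
    exact zero_le_one
  · rw [if_neg hn, norm_div, ub_norm_eq, div_self (norm_ne_zero_iff.2 (ub_ne hn))]

theorem isSymC_Di : IsSymC symDi := by
  refine ⟨1, 0, fun n => ?_⟩
  rw [pow_zero, mul_one]
  unfold symDi
  by_cases hn : n = 0
  · rw [if_pos hn, norm_zero]
    exact zero_le_one
  · rw [if_neg hn, norm_div, norm_one, norm_mul, norm_mul, Complex.norm_I, Complex.norm_real,
      Real.norm_of_nonneg Real.pi_pos.le, mul_one]
    have h1 := ub_one_le hn
    have h2 : (1 : ℝ) ≤ Real.pi := by linarith [Real.pi_gt_three]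
    rw [div_le_one (by positivity)]
    nlinarith

theorem del_mul (f g : PC) : del (f * g) = del f * g + f * del g := by
  have h : ∀ f : PC, del f = (1 / 2 : ℂ) • (dvC (1, 0) f - I • dvC (0, 1) f) := fun _ => rfl
  rw [h, h, h, dvC_mul, dvC_mul]
  ext x
  simp only [PC.smul_apply, PC.sub_apply, PC.add_apply, PC.mul_apply]
  ring

theorem dbar_mul (f g : PC) : dbar (f * g) = dbar f * g + f * dbar g := by
  have h : ∀ f : PC, dbar f = (1 / 2 : ℂ) • (dvC (1, 0) f + I • dvC (0, 1) f) := fun _ => rfl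
  rw [h, h, h, dvC_mul, dvC_mul]
  ext x
  simp only [PC.smul_apply, PC.add_apply, PC.mul_apply]
  ring

theorem del_one : del 1 = 0 := by
  have h := del_mul 1 1
  rw [mul_one, mul_one, one_mul] at h
  exact left_eq_add.1 h

theorem dbar_one : dbar 1 = 0 := by
  have h := dbar_mul 1 1
  rw [mul_one, mul_one, one_mul] at h
  exact left_eq_add.1 h

theorem meanC_del (f : PC) : meanC (del f) = 0 := by
  unfold meanC
  rw [cf_del]
  simp

theorem meanC_dbar (f : PC) : meanC (dbar f) = 0 := by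
  unfold meanC
  rw [cf_dbar]
  simp

private theorem ub_symS_mul (n : ℤ × ℤ) :
    symS n * ((n.1 : ℂ) + I * (n.2 : ℂ)) = (n.1 : ℂ) - I * (n.2 : ℂ) := by
  unfold symS
  by_cases hn : n = 0
  · rw [if_pos hn, hn]
    simp
  · rw [if_neg hn, div_mul_cancel₀ _ (ub_ne hn)]

theorem Bs_dbar (f : PC) : Bs (dbar f) = del f := by
  apply cf_injective
  intro n
  unfold Bs
  rw [cf_OpC isSymC_S, cf_dbar, cf_del, ← ub_symS_mul n]
  ring

theorem dbar_Bs (f : PC) : dbar (Bs f) = del f := by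
  apply cf_injective
  intro n
  unfold Bs
  rw [cf_dbar, cf_OpC isSymC_S, cf_del, ← ub_symS_mul n]
  ring

theorem dbar_Di {p : PC} (hp : meanC p = 0) : dbar (Di p) = p := by
  apply cf_injective
  intro n
  unfold Di
  rw [cf_dbar, cf_OpC isSymC_Di]
  by_cases hn : n = 0
  · subst hn
    rw [show cf p 0 = 0 from hp]
    simp
  · unfold symDi
    rw [if_neg hn]
    have h1 := ub_ne hn
    have h2 := ub_pi
    have h3 := Complex.I_ne_zero
    field_simp

theorem del_Di (p : PC) : del (Di p) = Bs p := by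
  apply cf_injective
  intro n
  unfold Di Bs
  rw [cf_del, cf_OpC isSymC_Di, cf_OpC isSymC_S]
  unfold symDi symS
  by_cases hn : n = 0
  · rw [if_pos hn, if_pos hn]
    simp
  · rw [if_neg hn, if_neg hn]
    have h1 := ub_ne hn
    have h2 := ub_pi
    have h3 := Complex.I_ne_zero
    field_simp

theorem dvC_Bs (a : ℝ × ℝ) (f : PC) : dvC a (Bs f) = Bs (dvC a f) := by
  apply cf_injective
  intro n
  unfold Bs
  rw [cf_dvC, cf_OpC isSymC_S, cf_OpC isSymC_S, cf_dvC]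
  ring

end P205T
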