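import Vale.Agent.Lib.P205T.UDefs

/-! # P205T module UB2: uniformization: the L2 norm -/

open scoped ContDiff ENNReal
open Complex Set

namespace P205T

theorem l2_nonneg (f : PC) : 0 ≤ l2 f := Real.sqrt_nonneg _

theorem l2_sq (f : PC) : HasSum (fun n => ‖cf f n‖ ^ 2) (l2 f ^ 2) := by
  have h := parseval f
  have h0 : 0 ≤ ∫ x in (0 : ℝ)..1, ∫ y in (0 : ℝ)..1, ‖f (x, y)‖ ^ 2 :=
    h.nonneg fun n => sq_nonneg _
  unfold l2
  rw [Real.sq_sqrt h0]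
  exact h

/-- the sequence of Fourier coefficients as an element of `ℓ²` -/
private noncomputable def UB2_lp (f : PC) : lp (fun _ : ℤ × ℤ => ℂ) 2 :=
  ⟨fun n => cf f n, memℓp_gen (by simpa using (l2_sq f).summable)⟩

private theorem UB2_norm (f : PC) : ‖UB2_lp f‖ = l2 f := by
  have h1 := lp.hasSum_norm (by norm_num : (0 : ℝ) < (2 : ENNReal).toReal) (UB2_lp f)
  have h2 : HasSum (fun n => ‖(UB2_lp f : ∀ n : ℤ × ℤ, ℂ) n‖ ^ 2) (‖UB2_lp f‖ ^ 2) := by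
    simpa using h1
  have h3 := h2.unique (l2_sq f)
  exact (sq_eq_sq₀ (norm_nonneg _) (l2_nonneg f)).1 h3

theorem l2_add_le (f g : PC) : l2 (f + g) ≤ l2 f + l2 g := by
  have h : UB2_lp (f + g) = UB2_lp f + UB2_lp g := by
    ext n
    exact cf_add f g n
  rw [← UB2_norm, ← UB2_norm, ← UB2_norm, h]
  exact norm_add_le _ _

theorem l2_smul (r : ℂ) (f : PC) : l2 (r • f) = ‖r‖ * l2 f := by
  have h : UB2_lp (r • f) = r • UB2_lp f := by
    ext n
    exact cf_smul r f n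
  rw [← UB2_norm, ← UB2_norm, h, norm_smul]

theorem l2_sum_le {κ : Type*} (s : Finset κ) (f : κ → PC) : l2 (∑ k ∈ s, f k) ≤ ∑ k ∈ s, l2 (f k) := by
  refine Finset.le_sum_of_subadditive l2 ?_ l2_add_le s f
  have h := l2_smul 0 (0 : PC)
  rw [norm_zero, zero_mul, smul_zero] at h
  exact h.le

private theorem UB2_cont {φ : ℝ × ℝ → ℝ} (h : Continuous φ) :
    (∀ x : ℝ, IntervalIntegrable (fun y : ℝ => φ (x, y)) MeasureTheory.volume 0 1) ∧
    IntervalIntegrable (fun x : ℝ => ∫ y in (0 : ℝ)..1, φ (x, y)) MeasureTheory.volume 0 1 := by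
  refine ⟨fun x => ?_, ?_⟩
  · exact (h.comp (continuous_const.prodMk continuous_id)).intervalIntegrable 0 1
  · exact (intervalIntegral.continuous_parametric_intervalIntegral_of_continuous'
      (f := fun x y => φ (x, y)) h 0 1).intervalIntegrable 0 1

theorem l2_mul_le {f : PC} {B : ℝ} (h : ∀ x, ‖f x‖ ≤ B) (g : PC) : l2 (f * g) ≤ B * l2 g := by
  have hB : 0 ≤ B := (norm_nonneg _).trans (h 0)
  have hf : Continuous (f : ℝ × ℝ → ℂ) := (PC.smooth f).continuous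
  have hg : Continuous (g : ℝ × ℝ → ℂ) := (PC.smooth g).continuous
  have c1 : Continuous (fun p : ℝ × ℝ => ‖(f * g) p‖ ^ 2) := ((hf.mul hg).norm).pow 2
  have c2 : Continuous (fun p : ℝ × ℝ => B ^ 2 * ‖g p‖ ^ 2) := continuous_const.mul (hg.norm.pow 2)
  obtain ⟨i1, o1⟩ := UB2_cont c1
  obtain ⟨i2, o2⟩ := UB2_cont c2
  have hle : (∫ x in (0 : ℝ)..1, ∫ y in (0 : ℝ)..1, ‖(f * g) (x, y)‖ ^ 2) ≤
      ∫ x in (0 : ℝ)..1, ∫ y in (0 : ℝ)..1, B ^ 2 * ‖g (x, y)‖ ^ 2 := by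
    refine intervalIntegral.integral_mono zero_le_one o1 o2 fun x => ?_
    refine intervalIntegral.integral_mono zero_le_one (i1 x) (i2 x) fun y => ?_
    show ‖(f * g) (x, y)‖ ^ 2 ≤ B ^ 2 * ‖g (x, y)‖ ^ 2
    rw [PC.mul_apply, norm_mul, mul_pow]
    exact mul_le_mul_of_nonneg_right (pow_le_pow_left₀ (norm_nonneg _) (h _) 2) (sq_nonneg _)
  have heq : (∫ x in (0 : ℝ)..1, ∫ y in (0 : ℝ)..1, B ^ 2 * ‖g (x, y)‖ ^ 2) =
      B ^ 2 * ∫ x in (0 : ℝ)..1, ∫ y in (0 : ℝ)..1, ‖g (x, y)‖ ^ 2 := by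
    rw [← intervalIntegral.integral_const_mul]
    congr 1
    funext x
    rw [← intervalIntegral.integral_const_mul]
  unfold l2
  refine (Real.sqrt_le_sqrt (hle.trans heq.le)).trans ?_
  rw [Real.sqrt_mul (sq_nonneg B), Real.sqrt_sq hB]

private theorem UB2_symS (n : ℤ × ℤ) : ‖symS n‖ ≤ 1 := by
  unfold symS
  split_ifs
  · simp
  · have h : (n.1 : ℂ) - I * (n.2 : ℂ) = starRingEnd ℂ ((n.1 : ℂ) + I * (n.2 : ℂ)) := by
      simp only [map_add, map_mul, Complex.conj_I, map_intCast]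
      ring
    rw [norm_div, h, RCLike.norm_conj]
    exact div_self_le_one _

theorem l2_Bs_le (f : PC) : l2 (Bs f) ≤ l2 f := by
  have hs : IsSymC symS := ⟨1, 0, fun n => by simpa using UB2_symS n⟩
  have h1 := l2_sq (Bs f)
  have h2 := l2_sq f
  have h3 : l2 (Bs f) ^ 2 ≤ l2 f ^ 2 := by
    refine hasSum_le (fun n => ?_) h1 h2
    unfold Bs
    rw [cf_OpC hs, norm_mul, mul_pow]
    calc ‖symS n‖ ^ 2 * ‖cf f n‖ ^ 2 ≤ 1 * ‖cf f n‖ ^ 2 := by
          refine mul_le_mul_of_nonneg_right ?_ (sq_nonneg _)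
          exact pow_le_one₀ (norm_nonneg _) (UB2_symS n)
      _ = ‖cf f n‖ ^ 2 := one_mul _
  exact (sq_le_sq₀ (l2_nonneg _) (l2_nonneg _)).1 h3

end P205T
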