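import Vale.Agent.Lib.P205T.UB

/-! # P205T module UC: uniformization: the miracle of vanishing means -/

open scoped ContDiff ENNReal
open Complex Set

namespace P205T

open PowerSeries in
private theorem uc_ext {R : Type*} [CommRing R] [Algebra ℂ R] {A B : PowerSeries R}
    (hD : derivative R A = derivative R B) (h0 : coeff 0 A = coeff 0 B) : A = B := by
  ext n
  cases n with
  | zero => exact h0
  | succ n =>
    have h := congrArg (coeff n) hD
    rw [coeff_derivative, coeff_derivative] at h
    have h1 : ((n : R) + 1) * algebraMap ℂ R ((n + 1 : ℂ)⁻¹) = 1 := by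
      have h2 : ((n : R) + 1) = algebraMap ℂ R (n + 1) := by simp
      rw [h2, ← map_mul, mul_inv_cancel₀ (by exact_mod_cast Nat.succ_ne_zero n), map_one]
    have h3 := congrArg (fun t => t * algebraMap ℂ R ((n + 1 : ℂ)⁻¹)) h
    simp only [mul_assoc, h1, mul_one] at h3
    exact h3

open PowerSeries in
/-- coefficientwise application -/
private noncomputable def ucMap {R : Type*} [CommRing R] [Algebra ℂ R] (δ : R →ₗ[ℂ] R)
    (f : PowerSeries R) : PowerSeries R := PowerSeries.mk fun n => δ (coeff n f)

open PowerSeries in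
private theorem ucMap_mul {R : Type*} [CommRing R] [Algebra ℂ R] (δ : R →ₗ[ℂ] R)
    (hδ : ∀ f g, δ (f * g) = δ f * g + f * δ g) (f g : PowerSeries R) :
    ucMap δ (f * g) = ucMap δ f * g + f * ucMap δ g := by
  ext n
  simp only [ucMap, coeff_mk, map_add, coeff_mul, map_sum, hδ, Finset.sum_add_distrib]

open PowerSeries in
private theorem ucMap_derivative {R : Type*} [CommRing R] [Algebra ℂ R] (δ : R →ₗ[ℂ] R)
    (f : PowerSeries R) :
    ucMap δ (derivative R f) = derivative R (ucMap δ f) := by
  ext n
  simp only [ucMap, coeff_mk, coeff_derivative]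
  have h2 : ((n : R) + 1) = algebraMap ℂ R (n + 1) := by simp
  rw [h2, mul_comm, ← Algebra.smul_def, map_smul, Algebra.smul_def, mul_comm]

open PowerSeries in
private theorem uc_miracle {R : Type*} [CommRing R] [Algebra ℂ R] (δ δb B : R →ₗ[ℂ] R)
    (hδ : ∀ f g, δ (f * g) = δ f * g + f * δ g) (hδb : ∀ f g, δb (f * g) = δb f * g + f * δb g)
    (h1 : ∀ x, B (δb x) = δ x) (h2 : ∀ x, δb (B x) = δ x) (mu : R) (p : ℕ → R)
    (hp0 : p 0 = δ mu) (hps : ∀ k, p (k + 1) = mu * B (p k)) (k : ℕ) : ∃ y, p k = δb y := by
  have hδ1 : δ 1 = 0 := by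
    have h := hδ 1 1
    simp only [mul_one, one_mul] at h
    simpa using h
  have hδb1 : δb 1 = 0 := by
    have h := hδb 1 1
    simp only [mul_one, one_mul] at h
    simpa using h
  -- the series
  let Fk : ℕ → R := fun k => Nat.rec 1 (fun _ x => B (mu * x)) k
  have hF0 : Fk 0 = 1 := rfl
  have hFs : ∀ k, Fk (k + 1) = B (mu * Fk k) := fun k => rfl
  let F : PowerSeries R := PowerSeries.mk Fk
  have hcF : constantCoeff F = ((1 : Rˣ) : R) := by
    simp [F, ← coeff_zero_eq_constantCoeff_apply, hF0]
  let G : PowerSeries R := invOfUnit F 1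
  have hFG : F * G = 1 := mul_invOfUnit F 1 hcF
  -- `δb F = X δ (mu F)`
  have hbF : ucMap δb F = X * ucMap δ (C mu * F) := by
    ext n
    cases n with
    | zero => simp [ucMap, F, hF0, hδb1]
    | succ n =>
      rw [coeff_succ_X_mul]
      simp only [ucMap, coeff_mk, coeff_C_mul, F, hFs, h2]
  have hone : ∀ D : R →ₗ[ℂ] R, D 1 = 0 → ucMap D (1 : PowerSeries R) = 0 := by
    intro D hD
    ext n
    simp only [ucMap, coeff_mk, coeff_one]
    split_ifs
    · simp [hD]
    · simp
  -- the logarithm
  let lam : PowerSeries R := PowerSeries.mk fun n =>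
    Nat.casesOn n 0 fun k => ((k + 1 : ℂ)⁻¹) • coeff k (derivative R F * G)
  have hlam0 : coeff 0 lam = 0 := by simp [lam]
  have hlam : derivative R lam = derivative R F * G := by
    ext n
    rw [coeff_derivative]
    simp only [lam, coeff_mk]
    have h2 : ((n : R) + 1) = algebraMap ℂ R (n + 1) := by simp
    rw [h2, mul_comm, ← Algebra.smul_def, smul_smul,
      mul_inv_cancel₀ (by exact_mod_cast Nat.succ_ne_zero n), one_smul]
  have key : ∀ D : R →ₗ[ℂ] R, (∀ f g, D (f * g) = D f * g + f * D g) → D 1 = 0 →
      ucMap D lam = ucMap D F * G := by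
    intro D hD hD1
    have e1 : ucMap D F * G + F * ucMap D G = 0 := by
      rw [← ucMap_mul D hD, hFG, hone D hD1]
    have e2 : derivative R F * G + F * derivative R G = 0 := by
      have h := (derivative R).leibniz F G
      rw [hFG] at h
      have h3 : derivative R (1 : PowerSeries R) = 0 := Derivation.map_one_eq_zero _
      rw [h3, smul_eq_mul, smul_eq_mul] at h
      rw [add_comm, mul_comm (derivative R F)]
      exact h.symm
    have e3 : ucMap D G = - (ucMap D F * G * G) := by
      have : G * (ucMap D F * G + F * ucMap D G) = 0 := by rw [e1, mul_zero]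
      linear_combination this - ucMap D G * hFG
    have e4 : derivative R G = - (derivative R F * G * G) := by
      have : G * (derivative R F * G + F * derivative R G) = 0 := by rw [e2, mul_zero]
      linear_combination this - derivative R G * hFG
    refine uc_ext ?_ ?_
    · rw [← ucMap_derivative, hlam, ucMap_mul D hD, ucMap_derivative, Derivation.leibniz,
        smul_eq_mul, smul_eq_mul, e3, e4]
      ring
    · have h3 : coeff 0 (ucMap D lam) = 0 := by
        show coeff 0 (PowerSeries.mk fun n => D (coeff n lam)) = 0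
        rw [coeff_mk, hlam0, map_zero]
      rw [h3, coeff_mul]
      simp [ucMap, F, hF0, hD1]
  have hl := key δb hδb hδb1
  have hm := key δ hδ hδ1
  -- recursion
  have hrec : ucMap δb lam = X * (C (δ mu) + C mu * ucMap δ lam) := by
    rw [hl, hm, hbF, ucMap_mul δ hδ]
    have h3 : ucMap δ (C mu) = C (δ mu) := by
      ext n
      simp only [ucMap, coeff_mk, coeff_C]
      split_ifs <;> simp
    rw [h3]
    linear_combination (X * C (δ mu)) * hFG
  have hcoef : ∀ n, δb (coeff (n + 1) lam) = coeff n (C (δ mu) : PowerSeries R) +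
      mu * δ (coeff n lam) := by
    intro n
    have h := congrArg (coeff (n + 1)) hrec
    rw [coeff_succ_X_mul, map_add, coeff_C_mul] at h
    simpa only [ucMap, coeff_mk] using h
  refine ⟨coeff (k + 1) lam, ?_⟩
  induction k with
  | zero =>
    rw [hcoef 0, hp0, hlam0, map_zero, mul_zero, add_zero]
    simp
  | succ k ih =>
    rw [hcoef (k + 1), hps, ih, h1, coeff_C]
    simp

/-- Formal power series argument: `F = ∑ F_k X^k` with `F_0 = 1`, `F_{k+1} = Bs (mu * F_k)`,
`lam = log F`; see `notes/P205/TORUS_PROOF.md` I.3. -/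
theorem meanC_pk (mu : PC) (k : ℕ) : meanC (pk mu k) = 0 := by
  obtain ⟨y, hy⟩ := uc_miracle del dbar Bs del_mul dbar_mul Bs_dbar dbar_Bs mu (pk mu) rfl
    (fun _ => rfl) k
  rw [hy]
  exact meanC_dbar y

end P205T
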