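import Vale.Agent.Lib.P205T.UB
import Vale.Agent.Lib.P205T.UB2

/-! # P205T module UD: uniformization: summability of the iterates -/

open scoped ContDiff ENNReal
open Complex Set

namespace P205T

theorem ud_DD_succ_left (a b : ℕ) (f : PC) : DD (a + 1) b f = DD a b (dvC (1, 0) f) := by
  have h : ∀ m : ℕ, dvC (1, 0) ((dvC (0, 1))^[m] f) = (dvC (0, 1))^[m] (dvC (1, 0) f) := by
    intro m
    induction m generalizing f with
    | zero => rfl
    | succ m ih =>
      rw [Function.iterate_succ_apply, Function.iterate_succ_apply, ih (dvC (0, 1) f), dvC_comm]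
  unfold DD
  rw [Function.iterate_succ_apply, h]

theorem ud_DD_succ_right (a b : ℕ) (f : PC) : DD a (b + 1) f = DD a b (dvC (0, 1) f) := by
  unfold DD
  rw [Function.iterate_succ_apply]

theorem ud_DD_add (a b : ℕ) (f g : PC) : DD a b (f + g) = DD a b f + DD a b g := by
  induction a generalizing f g with
  | zero =>
    induction b generalizing f g with
    | zero => rfl
    | succ b ih => rw [ud_DD_succ_right, ud_DD_succ_right, ud_DD_succ_right, map_add, ih]
  | succ a ih => rw [ud_DD_succ_left, ud_DD_succ_left, ud_DD_succ_left, map_add, ih]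

theorem ud_DD_Bs (a b : ℕ) (f : PC) : DD a b (Bs f) = Bs (DD a b f) := by
  induction a generalizing f with
  | zero =>
    induction b generalizing f with
    | zero => rfl
    | succ b ih => rw [ud_DD_succ_right, ud_DD_succ_right, dvC_Bs, ih]
  | succ a ih => rw [ud_DD_succ_left, ud_DD_succ_left, dvC_Bs, ih]

/-- pairs of total order less than `n` -/
def udT (n : ℕ) : Finset (ℕ × ℕ) := (Finset.range n ×ˢ Finset.range n).filter fun p => p.1 + p.2 < n

theorem mem_udT {n : ℕ} {p : ℕ × ℕ} : p ∈ udT n ↔ p.1 + p.2 < n := by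
  unfold udT
  simp only [Finset.mem_filter, Finset.mem_product, Finset.mem_range]
  omega

/-- the sum of the norms of the derivatives of total order less than `n` -/
noncomputable def udZ (n : ℕ) (g : PC) : ℝ := ∑ p ∈ udT n, l2 (DD p.1 p.2 g)

theorem udZ_nonneg (n : ℕ) (g : PC) : 0 ≤ udZ n g := Finset.sum_nonneg fun _ _ => l2_nonneg _

theorem ud_le_udZ {n : ℕ} {a b : ℕ} (h : a + b < n) (g : PC) : l2 (DD a b g) ≤ udZ n g := by
  have hm : ((a, b) : ℕ × ℕ) ∈ udT n := mem_udT.2 h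
  have hf : ∀ p ∈ udT n, 0 ≤ (fun p : ℕ × ℕ => l2 (DD p.1 p.2 g)) p := fun p _ =>
    l2_nonneg (DD p.1 p.2 g)
  have h1 := Finset.single_le_sum hf hm
  unfold udZ
  simpa only using h1

theorem udZ_mono (n : ℕ) (g : PC) : udZ n g ≤ udZ (n + 1) g := by
  refine Finset.sum_le_sum_of_subset_of_nonneg ?_ fun _ _ _ => l2_nonneg _
  intro p hp
  rw [mem_udT] at hp ⊢
  omega

theorem udZ_left (n : ℕ) (g : PC) : udZ n (dvC (1, 0) g) ≤ udZ (n + 1) g := by
  have h : ∀ p ∈ udT n, l2 (DD p.1 p.2 (dvC (1, 0) g)) = l2 (DD (p.1 + 1) p.2 g) := by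
    intro p _
    rw [ud_DD_succ_left]
  unfold udZ
  rw [Finset.sum_congr rfl h]
  have hinj : Set.InjOn (fun p : ℕ × ℕ => (p.1 + 1, p.2)) (udT n : Set (ℕ × ℕ)) := by
    intro p _ q _ hpq
    simp only [Prod.mk.injEq, add_left_inj] at hpq
    exact Prod.ext hpq.1 hpq.2
  rw [← Finset.sum_image (s := udT n) (g := fun p : ℕ × ℕ => (p.1 + 1, p.2))
    (f := fun p : ℕ × ℕ => l2 (DD p.1 p.2 g)) hinj]
  refine Finset.sum_le_sum_of_subset_of_nonneg ?_ fun _ _ _ => l2_nonneg _
  intro q hq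
  obtain ⟨p, hp, rfl⟩ := Finset.mem_image.1 hq
  rw [mem_udT] at hp ⊢
  simp only
  omega

theorem udZ_right (n : ℕ) (g : PC) : udZ n (dvC (0, 1) g) ≤ udZ (n + 1) g := by
  have h : ∀ p ∈ udT n, l2 (DD p.1 p.2 (dvC (0, 1) g)) = l2 (DD p.1 (p.2 + 1) g) := by
    intro p _
    rw [ud_DD_succ_right]
  unfold udZ
  rw [Finset.sum_congr rfl h]
  have hinj : Set.InjOn (fun p : ℕ × ℕ => (p.1, p.2 + 1)) (udT n : Set (ℕ × ℕ)) := by
    intro p _ q _ hpq
    simp only [Prod.mk.injEq, add_left_inj] at hpq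
    exact Prod.ext hpq.1 hpq.2
  rw [← Finset.sum_image (s := udT n) (g := fun p : ℕ × ℕ => (p.1, p.2 + 1))
    (f := fun p : ℕ × ℕ => l2 (DD p.1 p.2 g)) hinj]
  refine Finset.sum_le_sum_of_subset_of_nonneg ?_ fun _ _ _ => l2_nonneg _
  intro q hq
  obtain ⟨p, hp, rfl⟩ := Finset.mem_image.1 hq
  rw [mem_udT] at hp ⊢
  simp only
  omega

theorem ud_leibniz (n : ℕ) : ∀ a b : ℕ, a + b = n → ∀ f : PC, ∃ C : ℝ, 0 ≤ C ∧
    ∀ g : PC, l2 (DD a b (f * g) - f * DD a b g) ≤ C * udZ n g := by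
  induction n with
  | zero =>
    intro a b hab f
    obtain ⟨rfl, rfl⟩ : a = 0 ∧ b = 0 := by omega
    refine ⟨0, le_rfl, fun g => ?_⟩
    have h0 : DD 0 0 (f * g) - f * DD 0 0 g = (0 : ℂ) • (0 : PC) := by
      rw [smul_zero]; exact sub_self _
    rw [h0, l2_smul]
    simp
  | succ n ih =>
    intro a b hab f
    -- a general step for a derivative `d`
    have key : ∀ (d : PC →ₗ[ℂ] PC), (∀ u v : PC, d (u * v) = d u * v + u * d v) →
        (∀ g : PC, udZ n (d g) ≤ udZ (n + 1) g) → ∀ a' b' : ℕ, a' + b' = n →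
        (∀ g : PC, DD a b g = DD a' b' (d g)) → ∃ C : ℝ, 0 ≤ C ∧
        ∀ g : PC, l2 (DD a b (f * g) - f * DD a b g) ≤ C * udZ (n + 1) g := by
      intro d hd hZ a' b' hab' hDD
      obtain ⟨C1, hC1, h1⟩ := ih a' b' hab' (d f)
      obtain ⟨C2, hC2, h2⟩ := ih a' b' hab' f
      obtain ⟨B, hB, hBf⟩ := bounded_PC (d f)
      refine ⟨C1 + B + C2, by positivity, fun g => ?_⟩
      have e : DD a b (f * g) - f * DD a b g =
          ((DD a' b' (d f * g) - d f * DD a' b' g) + d f * DD a' b' g) +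
            (DD a' b' (f * d g) - f * DD a' b' (d g)) := by
        rw [hDD, hDD, hd, ud_DD_add]
        ring
      rw [e]
      have s1 := l2_add_le ((DD a' b' (d f * g) - d f * DD a' b' g) + d f * DD a' b' g)
        (DD a' b' (f * d g) - f * DD a' b' (d g))
      have s2 := l2_add_le (DD a' b' (d f * g) - d f * DD a' b' g) (d f * DD a' b' g)
      have s3 := h1 g
      have s4 := h2 (d g)
      have s5 := l2_mul_le hBf (DD a' b' g)
      have s6 : l2 (DD a' b' g) ≤ udZ (n + 1) g := ud_le_udZ (by omega) g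
      have s7 := udZ_mono n g
      have s8 := hZ g
      have t1 : C1 * udZ n g ≤ C1 * udZ (n + 1) g := mul_le_mul_of_nonneg_left s7 hC1
      have t2 : C2 * udZ n (d g) ≤ C2 * udZ (n + 1) g := mul_le_mul_of_nonneg_left s8 hC2
      have t3 : B * l2 (DD a' b' g) ≤ B * udZ (n + 1) g := mul_le_mul_of_nonneg_left s6 hB
      linarith
    rcases Nat.eq_zero_or_pos a with ha | ha
    · obtain ⟨b', rfl⟩ : ∃ b', b = b' + 1 := ⟨b - 1, by omega⟩
      exact key (dvC (0, 1)) (dvC_mul (0, 1)) (udZ_right n) a b' (by omega)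
        (fun g => ud_DD_succ_right a b' g)
    · obtain ⟨a', rfl⟩ : ∃ a', a = a' + 1 := ⟨a - 1, by omega⟩
      exact key (dvC (1, 0)) (dvC_mul (1, 0)) (udZ_left n) a' b (by omega)
        (fun g => ud_DD_succ_left a' b g)

theorem ud_summable {Y W : ℕ → ℝ} {θ : ℝ} (h1 : θ < 1) (hY : ∀ k, 0 ≤ Y k)
    (hW : ∀ k, 0 ≤ W k) (hs : Summable W) (h : ∀ k, Y (k + 1) ≤ θ * Y k + W k) : Summable Y := by
  have key : ∀ n : ℕ, (1 - θ) * ∑ i ∈ Finset.range n, Y i + Y n ≤ Y 0 + ∑ i ∈ Finset.range n, W i := by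
    intro n
    induction n with
    | zero => simp
    | succ n ih =>
      rw [Finset.sum_range_succ, Finset.sum_range_succ]
      have := h n
      nlinarith [hY n]
  have h1' : 0 < 1 - θ := by linarith
  refine summable_of_sum_range_le (c := (Y 0 + ∑' i, W i) / (1 - θ)) hY fun n => ?_
  rw [le_div_iff₀ h1']
  have a1 := key n
  have a2 : ∑ i ∈ Finset.range n, W i ≤ ∑' i, W i := hs.sum_le_tsum _ fun i _ => hW i
  have a3 := hY n
  linarith

theorem summable_pk (mu : PC) {θ : ℝ} (h0 : 0 ≤ θ) (h1 : θ < 1) (hmu : ∀ x, ‖mu x‖ ≤ θ)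
    (a b : ℕ) : Summable fun k => l2 (DD a b (pk mu k)) := by
  obtain ⟨n, hn⟩ : ∃ n, a + b = n := ⟨_, rfl⟩
  induction n using Nat.strong_induction_on generalizing a b with
  | _ n ih =>
    obtain ⟨C, hC, hL⟩ := ud_leibniz n a b hn mu
    have hZs : Summable fun k => udZ n (pk mu k) := by
      unfold udZ
      exact summable_sum fun p hp => ih (p.1 + p.2) (mem_udT.1 hp) p.1 p.2 rfl
    refine ud_summable (W := fun k => C * udZ n (pk mu k)) h1 (fun k => l2_nonneg _)
      (fun k => mul_nonneg hC (udZ_nonneg _ _)) (hZs.mul_left C) fun k => ?_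
    have e : pk mu (k + 1) = mu * Bs (pk mu k) := rfl
    have e2 : DD a b (pk mu (k + 1)) = mu * Bs (DD a b (pk mu k)) +
        (DD a b (mu * Bs (pk mu k)) - mu * DD a b (Bs (pk mu k))) := by
      rw [e, ud_DD_Bs]
      ring
    have s1 := l2_add_le (mu * Bs (DD a b (pk mu k)))
      (DD a b (mu * Bs (pk mu k)) - mu * DD a b (Bs (pk mu k)))
    have s2 := hL (Bs (pk mu k))
    have s3 := l2_mul_le hmu (Bs (DD a b (pk mu k)))
    have s4 := l2_Bs_le (DD a b (pk mu k))
    have s5 : udZ n (Bs (pk mu k)) ≤ udZ n (pk mu k) := by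
      unfold udZ
      refine Finset.sum_le_sum fun p _ => ?_
      rw [ud_DD_Bs]
      exact l2_Bs_le _
    have t1 : C * udZ n (Bs (pk mu k)) ≤ C * udZ n (pk mu k) := mul_le_mul_of_nonneg_left s5 hC
    have t2 : θ * l2 (Bs (DD a b (pk mu k))) ≤ θ * l2 (DD a b (pk mu k)) :=
      mul_le_mul_of_nonneg_left s4 h0
    show l2 (DD a b (pk mu (k + 1))) ≤ θ * l2 (DD a b (pk mu k)) + C * udZ n (pk mu k)
    rw [e2]
    linarith

end P205T
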