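import Vale.Agent.Lib.P205T.FM

/-! # P205T module UDefs: uniformization: definitions -/

open scoped ContDiff ENNReal
open Complex Set

namespace P205T

/-- periodic metrics on the plane -/
structure PMet where
  E : PR
  F : PR
  G : PR
  pos : ∀ x, 0 < E x
  det : ∀ x, 0 < E x * G x - F x ^ 2

/-- the quadratic form of a periodic metric -/
noncomputable def PMet.q (g : PMet) (x v : ℝ × ℝ) : ℝ :=
  g.E x * v.1 ^ 2 + 2 * g.F x * v.1 * v.2 + g.G x * v.2 ^ 2

/-- `(d_x - i d_y) / 2` -/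
noncomputable def del : PC →ₗ[ℂ] PC := (1 / 2 : ℂ) • (dvC (1, 0) - I • dvC (0, 1))

/-- `(d_x + i d_y) / 2` -/
noncomputable def dbar : PC →ₗ[ℂ] PC := (1 / 2 : ℂ) • (dvC (1, 0) + I • dvC (0, 1))

/-- symbol of the Beurling operator -/
noncomputable def symS (n : ℤ × ℤ) : ℂ :=
  if n = 0 then 0 else ((n.1 : ℂ) - I * (n.2 : ℂ)) / ((n.1 : ℂ) + I * (n.2 : ℂ))

/-- the Beurling operator -/
noncomputable def Bs : PC →ₗ[ℂ] PC := OpC symS

/-- symbol of the inverse of `dbar` -/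
noncomputable def symDi (n : ℤ × ℤ) : ℂ :=
  if n = 0 then 0 else 1 / (Real.pi * I * ((n.1 : ℂ) + I * (n.2 : ℂ)))

/-- inverse of `dbar` on mean-free functions -/
noncomputable def Di : PC →ₗ[ℂ] PC := OpC symDi

/-- the complex mean value -/
noncomputable def meanC (f : PC) : ℂ := cf f 0

/-- the `L²` norm over a period -/
noncomputable def l2 (f : PC) : ℝ :=
  Real.sqrt (∫ x in (0 : ℝ)..1, ∫ y in (0 : ℝ)..1, ‖f (x, y)‖ ^ 2)

/-- the Neumann iterates -/
noncomputable def pk (mu : PC) : ℕ → PC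
  | 0 => del mu
  | k + 1 => mu * Bs (pk mu k)

/-- iterated partial derivatives -/
noncomputable def DD (a b : ℕ) (f : PC) : PC := (dvC (1, 0))^[a] ((dvC (0, 1))^[b] f)

end P205T
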