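import Vale.Agent.Lib.P205T.UC
import Vale.Agent.Lib.P205T.UD

/-! # P205T module UE: uniformization: the linear equation -/

open scoped ContDiff ENNReal
open Complex Set

namespace P205T

private theorem UE_cf_le_l2 (f : PC) (n : ℤ × ℤ) : ‖cf f n‖ ≤ l2 f := by
  have h := le_hasSum (l2_sq f) n (fun _ _ => sq_nonneg _)
  exact (pow_le_pow_iff_left₀ (norm_nonneg _) (l2_nonneg f) two_ne_zero).mp h

private theorem UE_symS_le (n : ℤ × ℤ) : ‖symS n‖ ≤ 1 := by
  unfold symS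
  split_ifs with h
  · simp
  · rw [norm_div]
    have h1 : ‖((n.1 : ℂ) - I * (n.2 : ℂ))‖ = ‖((n.1 : ℂ) + I * (n.2 : ℂ))‖ := by
      rw [← Complex.norm_conj ((n.1 : ℂ) + I * (n.2 : ℂ))]
      congr 1
      simp only [map_add, map_mul, Complex.conj_I, map_intCast]
      ring
    rw [h1]
    exact div_self_le_one _

private theorem UE_dir (a : ℝ × ℝ) (f : PC) (n : ℤ × ℤ) (s : ℕ) :
    |dotZ n a| ^ s * ‖cf f n‖ ≤ l2 ((dvC a)^[s] f) := by
  have h1 := UE_cf_le_l2 ((dvC a)^[s] f) n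
  rw [cf_iter_dvC, norm_mul, norm_pow] at h1
  have h2 : ‖(2 * Real.pi * I * (dotZ n a : ℂ))‖ = 2 * Real.pi * |dotZ n a| := by
    rw [norm_mul, norm_mul, norm_mul, Complex.norm_I, Complex.norm_real, Complex.norm_real]
    simp [abs_of_pos Real.pi_pos]
  rw [h2] at h1
  have h3 : |dotZ n a| ≤ 2 * Real.pi * |dotZ n a| := by
    have := Real.pi_gt_three
    nlinarith [abs_nonneg (dotZ n a)]
  exact (mul_le_mul_of_nonneg_right (pow_le_pow_left₀ (abs_nonneg _) h3 s) (norm_nonneg _)).trans h1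

private theorem UE_pow (a b : ℝ) (ha : 0 ≤ a) (hb : 0 ≤ b) (s : ℕ) :
    (1 + (a + b)) ^ s ≤ 3 ^ s * (1 + a ^ s + b ^ s) := by
  have hs : (0 : ℝ) ≤ 3 ^ s := by positivity
  have p1 : 0 ≤ a ^ s := by positivity
  have p2 : 0 ≤ b ^ s := by positivity
  rcases le_total a b with hab | hab
  · rcases le_total b 1 with h1 | h1
    · have : (1 + (a + b)) ^ s ≤ 3 ^ s := pow_le_pow_left₀ (by positivity) (by linarith) s
      nlinarith [mul_nonneg hs p1, mul_nonneg hs p2]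
    · have : (1 + (a + b)) ^ s ≤ (3 * b) ^ s := pow_le_pow_left₀ (by positivity) (by linarith) s
      rw [mul_pow] at this
      nlinarith [mul_nonneg hs p1, mul_nonneg hs p2]
  · rcases le_total a 1 with h1 | h1
    · have : (1 + (a + b)) ^ s ≤ 3 ^ s := pow_le_pow_left₀ (by positivity) (by linarith) s
      nlinarith [mul_nonneg hs p1, mul_nonneg hs p2]
    · have : (1 + (a + b)) ^ s ≤ (3 * a) ^ s := pow_le_pow_left₀ (by positivity) (by linarith) s
      rw [mul_pow] at this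
      nlinarith [mul_nonneg hs p1, mul_nonneg hs p2]

private theorem UE_bound (f : PC) (n : ℤ × ℤ) (s : ℕ) :
    ‖cf f n‖ * (1 + nn n) ^ s ≤ 3 ^ s * (l2 (DD 0 0 f) + l2 (DD s 0 f) + l2 (DD 0 s f)) := by
  have h0 : ‖cf f n‖ ≤ l2 (DD 0 0 f) := UE_cf_le_l2 f n
  have h1 : |dotZ n (1, 0)| ^ s * ‖cf f n‖ ≤ l2 (DD s 0 f) := UE_dir (1, 0) f n s
  have h2 : |dotZ n (0, 1)| ^ s * ‖cf f n‖ ≤ l2 (DD 0 s f) := UE_dir (0, 1) f n s
  have d1 : dotZ n (1, 0) = n.1 := by simp [dotZ]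
  have d2 : dotZ n (0, 1) = n.2 := by simp [dotZ]
  rw [d1] at h1
  rw [d2] at h2
  have h3 := UE_pow |(n.1 : ℝ)| |(n.2 : ℝ)| (abs_nonneg _) (abs_nonneg _) s
  have h4 : nn n = |(n.1 : ℝ)| + |(n.2 : ℝ)| := rfl
  rw [h4]
  calc ‖cf f n‖ * (1 + (|(n.1 : ℝ)| + |(n.2 : ℝ)|)) ^ s
      ≤ ‖cf f n‖ * (3 ^ s * (1 + |(n.1 : ℝ)| ^ s + |(n.2 : ℝ)| ^ s)) :=
        mul_le_mul_of_nonneg_left h3 (norm_nonneg _)
    _ = 3 ^ s * (‖cf f n‖ + |(n.1 : ℝ)| ^ s * ‖cf f n‖ + |(n.2 : ℝ)| ^ s * ‖cf f n‖) := by ring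
    _ ≤ 3 ^ s * (l2 (DD 0 0 f) + l2 (DD s 0 f) + l2 (DD 0 s f)) :=
        mul_le_mul_of_nonneg_left (add_le_add (add_le_add h0 h1) h2) (by positivity)

private theorem UE_key (mu : PC) {θ : ℝ} (h0 : 0 ≤ θ) (h1 : θ < 1) (hmu : ∀ x, ‖mu x‖ ≤ θ) (s : ℕ) :
    ∃ c : ℕ → ℝ, Summable c ∧ (∀ k, 0 ≤ c k) ∧
      ∀ k n, ‖cf (pk mu k) n‖ * (1 + nn n) ^ s ≤ c k * ((1 + nn n) ^ 4)⁻¹ := by
  refine ⟨fun k => 3 ^ (s + 4) * (l2 (DD 0 0 (pk mu k)) + l2 (DD (s + 4) 0 (pk mu k)) +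
    l2 (DD 0 (s + 4) (pk mu k))), ?_, ?_, ?_⟩
  · exact (((summable_pk mu h0 h1 hmu 0 0).add (summable_pk mu h0 h1 hmu (s + 4) 0)).add
      (summable_pk mu h0 h1 hmu 0 (s + 4))).mul_left _
  · intro k
    exact mul_nonneg (by positivity)
      (add_nonneg (add_nonneg (l2_nonneg _) (l2_nonneg _)) (l2_nonneg _))
  · intro k n
    have hn := nn_nonneg n
    have hp : 0 < (1 + nn n) ^ 4 := by positivity
    rw [← div_eq_mul_inv, le_div_iff₀ hp]
    refine le_trans (le_of_eq ?_) (UE_bound (pk mu k) n (s + 4))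
    rw [pow_add]
    ring

theorem exists_p (mu : PC) {θ : ℝ} (h0 : 0 ≤ θ) (h1 : θ < 1) (hmu : ∀ x, ‖mu x‖ ≤ θ) :
    ∃ p : PC, meanC p = 0 ∧ p = del mu + mu * Bs p := by
  obtain ⟨c, hc, hc0, hcb⟩ := UE_key mu h0 h1 hmu 0
  have hcb' : ∀ k n, ‖cf (pk mu k) n‖ ≤ c k := by
    intro k n
    have h2 := hcb k n
    rw [pow_zero, mul_one] at h2
    refine h2.trans ?_
    have hn := nn_nonneg n
    have h3 : ((1 + nn n) ^ 4)⁻¹ ≤ 1 := inv_le_one_of_one_le₀ (one_le_pow₀ (by linarith))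
    calc c k * ((1 + nn n) ^ 4)⁻¹ ≤ c k * 1 := mul_le_mul_of_nonneg_left h3 (hc0 k)
      _ = c k := mul_one _
  have hsum : ∀ n, Summable fun k => ‖cf (pk mu k) n‖ := fun n =>
    Summable.of_nonneg_of_le (fun k => norm_nonneg _) (fun k => hcb' k n) hc
  have hsum' : ∀ n, Summable fun k => cf (pk mu k) n := fun n => (hsum n).of_norm
  obtain ⟨p, hp, -⟩ := synth (fun n => ∑' k, cf (pk mu k) n) (fun s => by
    obtain ⟨c', hc', hc0', hcb2⟩ := UE_key mu h0 h1 hmu s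
    refine Summable.of_nonneg_of_le (fun n => by have := nn_nonneg n; positivity) (fun n => ?_)
      (summable_nn.mul_left (∑' k, c' k))
    have hn := nn_nonneg n
    calc ‖∑' k, cf (pk mu k) n‖ * (1 + nn n) ^ s
        ≤ (∑' k, ‖cf (pk mu k) n‖) * (1 + nn n) ^ s :=
          mul_le_mul_of_nonneg_right (norm_tsum_le_tsum_norm (hsum n)) (by positivity)
      _ = ∑' k, ‖cf (pk mu k) n‖ * (1 + nn n) ^ s := tsum_mul_right.symm
      _ ≤ ∑' k, c' k * ((1 + nn n) ^ 4)⁻¹ :=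
          Summable.tsum_le_tsum (fun k => hcb2 k n) ((hsum n).mul_right _) (hc'.mul_right _)
      _ = (∑' k, c' k) * ((1 + nn n) ^ 4)⁻¹ := tsum_mul_right)
  have hpn : ∀ n, HasSum (fun k => cf (pk mu k) n) (cf p n) := by
    intro n
    rw [hp n]
    exact (hsum' n).hasSum
  refine ⟨p, ?_, ?_⟩
  · unfold meanC
    have h2 := hpn 0
    have h3 : (fun k => cf (pk mu k) 0) = fun _ => (0 : ℂ) := by
      funext k
      exact meanC_pk mu k
    rw [h3] at h2
    exact h2.unique hasSum_zero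
  · apply cf_injective
    intro n
    -- the double sum
    set F : (ℤ × ℤ) × ℕ → ℂ := fun z => cf mu z.1 * (symS (n - z.1) * cf (pk mu z.2) (n - z.1)) with hF
    have hFs : Summable F := by
      refine Summable.of_norm_bounded (g := fun z : (ℤ × ℤ) × ℕ => ‖cf mu z.1‖ * c z.2) ?_ ?_
      · have h2 : Summable fun m => ‖cf mu m‖ := by
          have := summable_cf mu 0
          simpa using this
        exact h2.mul_of_nonneg hc (fun _ => norm_nonneg _) hc0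
      · rintro ⟨m, k⟩
        show ‖cf mu m * (symS (n - m) * cf (pk mu k) (n - m))‖ ≤ ‖cf mu m‖ * c k
        rw [norm_mul, norm_mul]
        refine mul_le_mul_of_nonneg_left ?_ (norm_nonneg _)
        calc ‖symS (n - m)‖ * ‖cf (pk mu k) (n - m)‖ ≤ 1 * c k :=
              mul_le_mul (UE_symS_le _) (hcb' k _) (norm_nonneg _) zero_le_one
          _ = c k := one_mul _
    have hA : HasSum (fun m => cf mu m * cf (Bs p) (n - m)) (∑' z, F z) := by
      refine hFs.hasSum.prod_fiberwise (fun m => ?_)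
      have h2 : cf (Bs p) (n - m) = symS (n - m) * cf p (n - m) := cf_OpC isSymC_S p (n - m)
      rw [h2]
      exact ((hpn (n - m)).mul_left (symS (n - m))).mul_left (cf mu m)
    have hA' : cf (mu * Bs p) n = ∑' z, F z := (cf_mul mu (Bs p) n).unique hA
    have hFs' : HasSum (fun z : ℕ × (ℤ × ℤ) => F (z.2, z.1)) (∑' z, F z) :=
      ((Equiv.prodComm ℕ (ℤ × ℤ)).hasSum_iff (f := F)).mpr hFs.hasSum
    have hB : HasSum (fun k => cf (pk mu (k + 1)) n) (∑' z, F z) := by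
      refine hFs'.prod_fiberwise (fun k => ?_)
      have h2 := cf_mul mu (Bs (pk mu k)) n
      have h3 : (fun m => cf mu m * cf (Bs (pk mu k)) (n - m)) =
          fun m => F (m, k) := by
        funext m
        have h4 : cf (Bs (pk mu k)) (n - m) = symS (n - m) * cf (pk mu k) (n - m) :=
          cf_OpC isSymC_S (pk mu k) (n - m)
        rw [h4]
      rw [h3] at h2
      exact h2
    have hC : HasSum (fun k => cf (pk mu k) n) (cf (pk mu 0) n + ∑' z, F z) := by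
      have h2 := (hasSum_nat_add_iff (f := fun k => cf (pk mu k) n) 1).mp hB
      rw [Finset.sum_range_one, add_comm] at h2
      exact h2
    rw [cf_add, hA']
    exact (hpn n).unique hC

end P205T
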