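import Vale.Agent.Lib.P205T.UE

/-! # P205T module UF: uniformization: the nowhere vanishing solution -/

open scoped ContDiff ENNReal
open Complex Set

namespace P205T

/-- the exponential of a smooth periodic function -/
private noncomputable def UF_exp (φ : PC) : PC :=
  ⟨fun x => exp (φ x), Complex.contDiff_exp.comp (PC.smooth φ),
    fun x n => by simp only [(PC.per φ) x n]⟩

private theorem UF_exp_apply (φ : PC) (x : ℝ × ℝ) : UF_exp φ x = exp (φ x) := rfl

private theorem UF_dvC (a : ℝ × ℝ) (φ : PC) : dvC a (UF_exp φ) = UF_exp φ * dvC a φ := by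
  ext x
  have h1 : HasFDerivAt (φ : ℝ × ℝ → ℂ) (fderiv ℝ φ x) x :=
    ((PC.smooth φ).differentiable (by simp) x).hasFDerivAt
  have h2 : HasFDerivAt (fun y : ℝ × ℝ => exp (φ y)) (exp (φ x) • fderiv ℝ φ x) x := h1.cexp
  have h3 : dvC a (UF_exp φ) x = fderiv ℝ (fun y : ℝ × ℝ => exp (φ y)) x a := rfl
  rw [h3, h2.fderiv, PC.mul_apply, UF_exp_apply, dvC_apply]
  simp only [smul_apply, smul_eq_mul]

private theorem UF_del (φ : PC) : del (UF_exp φ) = UF_exp φ * del φ := by
  unfold del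
  ext x
  simp only [LinearMap.smul_apply, LinearMap.sub_apply, PC.smul_apply, PC.sub_apply, UF_dvC,
    PC.mul_apply]
  ring

private theorem UF_dbar (φ : PC) : dbar (UF_exp φ) = UF_exp φ * dbar φ := by
  unfold dbar
  ext x
  simp only [LinearMap.smul_apply, LinearMap.add_apply, PC.smul_apply, PC.add_apply, UF_dvC,
    PC.mul_apply]
  ring

/-- `f = exp (Di p)` -/
theorem exists_f (mu : PC) {θ : ℝ} (h0 : 0 ≤ θ) (h1 : θ < 1) (hmu : ∀ x, ‖mu x‖ ≤ θ) :
    ∃ f : PC, (∀ x, f x ≠ 0) ∧ dbar f = del (mu * f) := by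
  obtain ⟨p, hp0, hp⟩ := exists_p mu h0 h1 hmu
  refine ⟨UF_exp (Di p), fun x => exp_ne_zero _, ?_⟩
  rw [UF_dbar, dbar_Di hp0, del_mul, UF_del, del_Di]
  linear_combination (UF_exp (Di p)) * hp

end P205T
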