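import Vale.Agent.Lib.P205T.UDefs

/-! # P205T module UG: uniformization: integration -/

open scoped ContDiff ENNReal
open Complex Set

namespace P205T

/-- the one-form `v ↦ v.1 P + v.2 Q` -/
private noncomputable def ug_form (P Q : PC) (x : ℝ × ℝ) : ℝ × ℝ →L[ℝ] ℂ :=
  (ContinuousLinearMap.fst ℝ ℝ ℝ).smulRight (P x) + (ContinuousLinearMap.snd ℝ ℝ ℝ).smulRight (Q x)

private theorem ug_form_apply (P Q : PC) (x v : ℝ × ℝ) :
    ug_form P Q x v = v.1 • P x + v.2 • Q x := rfl

private theorem ug_form_contDiff (P Q : PC) : ContDiff ℝ ∞ (ug_form P Q) := by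
  rw [contDiff_clm_apply_iff]
  intro v
  exact (contDiff_const.smul (PC.smooth P)).add (contDiff_const.smul (PC.smooth Q))

private theorem ug_dir (P : PC) (x u : ℝ × ℝ) :
    fderiv ℝ P x u = u.1 • dvC (1, 0) P x + u.2 • dvC (0, 1) P x := by
  have h : u = u.1 • ((1, 0) : ℝ × ℝ) + u.2 • ((0, 1) : ℝ × ℝ) := by
    ext <;> simp
  rw [dvC_apply, dvC_apply]
  conv_lhs => rw [h]
  rw [map_add, map_smul, map_smul]

private theorem ug_form_fderiv (P Q : PC) (x u v : ℝ × ℝ) :
    fderiv ℝ (ug_form P Q) x u v = v.1 • fderiv ℝ P x u + v.2 • fderiv ℝ Q x u := by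
  have hd : DifferentiableAt ℝ (ug_form P Q) x :=
    (ug_form_contDiff P Q).differentiable (by simp) x
  have h1 : fderiv ℝ (fun y => ug_form P Q y v) x u = fderiv ℝ (ug_form P Q) x u v := by
    rw [fderiv_clm_apply hd (differentiableAt_const v)]
    simp
  have hP := ((PC.smooth P).differentiable (by simp) x).hasFDerivAt
  have hQ := ((PC.smooth Q).differentiable (by simp) x).hasFDerivAt
  have h2 : HasFDerivAt (fun y => ug_form P Q y v)
      (v.1 • fderiv ℝ P x + v.2 • fderiv ℝ Q x) x :=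
    (hP.const_smul v.1).add (hQ.const_smul v.2)
  rw [← h1, h2.fderiv]
  rfl

private theorem ug_exists (P Q : PC) (h : dvC (0, 1) P = dvC (1, 0) Q) :
    ∃ W : ℝ × ℝ → ℂ, ContDiff ℝ ∞ W ∧ ∀ x v, fderiv ℝ W x v = v.1 • P x + v.2 • Q x := by
  obtain ⟨W, hW⟩ := (convex_univ (𝕜 := ℝ)
    (E := ℝ × ℝ)).exists_forall_hasFDerivAt_of_fderiv_symmetric isOpen_univ
    ((ug_form_contDiff P Q).differentiable (by simp)).differentiableOn (by
      intro a _ u v
      have h1 : dvC (0, 1) P a = dvC (1, 0) Q a := by rw [h]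
      rw [ug_form_fderiv, ug_form_fderiv, ug_dir, ug_dir, ug_dir P a v, ug_dir Q a v, h1]
      simp only [Complex.real_smul]
      ring)
  have hf : fderiv ℝ W = ug_form P Q := funext fun x => (hW x (mem_univ x)).fderiv
  refine ⟨W, ?_, fun x v => ?_⟩
  · rw [contDiff_infty_iff_fderiv]
    refine ⟨fun x => (hW x (mem_univ x)).differentiableAt, ?_⟩
    rw [hf]
    exact ug_form_contDiff P Q
  · rw [hf]
    rfl

/-- The one-form `f (dz + mu dzbar)` is closed, hence exact (Poincare lemma on the plane). -/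
theorem exists_W (mu f : PC) (h : dbar f = del (mu * f)) :
    ∃ W : ℝ × ℝ → ℂ, ContDiff ℝ ∞ W ∧ ∀ x v, fderiv ℝ W x v =
      f x * (((v.1 : ℂ) + v.2 * I) + mu x * ((v.1 : ℂ) - v.2 * I)) := by
  obtain ⟨W, hW, hWf⟩ := ug_exists (f + mu * f) (I • (f - mu * f)) (by
    ext x
    have h1 := congrArg (fun u : PC => u x) h
    have h2 : (1 / 2 : ℂ) * (dvC (1, 0) f x + I * dvC (0, 1) f x) =
        (1 / 2 : ℂ) * (dvC (1, 0) (mu * f) x - I * dvC (0, 1) (mu * f) x) := h1
    have h3 : dvC (1, 0) f x + I * dvC (0, 1) f x =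
        dvC (1, 0) (mu * f) x - I * dvC (0, 1) (mu * f) x :=
      mul_left_cancel₀ (by norm_num) h2
    rw [map_add, map_smul, map_sub, PC.add_apply, PC.smul_apply, PC.sub_apply]
    have h4 : I * (dvC (1, 0) f x - dvC (1, 0) (mu * f) x) =
        I * (-(I * dvC (0, 1) (mu * f) x) - I * dvC (0, 1) f x) := by
      congr 1
      linear_combination h3
    rw [h4]
    have hI : I * I = -1 := I_mul_I
    linear_combination (dvC (0, 1) (mu * f) x + dvC (0, 1) f x) * hI)
  refine ⟨W, hW, fun x v => ?_⟩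
  rw [hWf, PC.add_apply, PC.smul_apply, PC.sub_apply, PC.mul_apply]
  simp only [Complex.real_smul]
  ring

end P205T
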