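import Vale.Agent.Lib.P205T.Defs
import Vale.Agent.Lib.P205T.FA2

/-! # P205T module UH: uniformization: a global inverse function theorem -/

open scoped ContDiff ENNReal NNReal
open Complex Set

namespace P205T

/-- The inverse of the derivative is a smooth periodic field. -/
theorem uh_field (W : ℝ × ℝ → ℝ × ℝ) (hW : ContDiff ℝ ∞ W) (hper : IsPer (fderiv ℝ W))
    (hinj : ∀ x v, fderiv ℝ W x v = 0 → v = 0) :
    ∃ B : ℝ × ℝ → (ℝ × ℝ →L[ℝ] ℝ × ℝ), ContDiff ℝ ∞ B ∧ IsPer B ∧
      (∀ x c, fderiv ℝ W x (B x c) = c) ∧ ∀ x c, B x (fderiv ℝ W x c) = c := by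
  have he : ∀ x, ∃ e : (ℝ × ℝ) ≃L[ℝ] (ℝ × ℝ), (e : ℝ × ℝ →L[ℝ] ℝ × ℝ) = fderiv ℝ W x := by
    intro x
    have hi : Function.Injective (fderiv ℝ W x : ℝ × ℝ →ₗ[ℝ] ℝ × ℝ) := by
      rw [← LinearMap.ker_eq_bot, LinearMap.ker_eq_bot']
      exact fun v hv => hinj x v hv
    let l : (ℝ × ℝ) ≃ₗ[ℝ] (ℝ × ℝ) := LinearEquiv.ofInjectiveEndo _ hi
    refine ⟨l.toContinuousLinearEquiv, ?_⟩
    ext <;> simp [l]
  refine ⟨fun x => ContinuousLinearMap.inverse (fderiv ℝ W x), ?_, ?_, ?_, ?_⟩
  · rw [contDiff_iff_contDiffAt]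
    intro x
    obtain ⟨e, hex⟩ := he x
    have h1 : ContDiffAt ℝ ∞ (fderiv ℝ W) x :=
      (hW.fderiv_right (m := ∞) (by norm_cast)).contDiffAt
    have h2 : ContDiffAt ℝ ∞ (ContinuousLinearMap.inverse :
        (ℝ × ℝ →L[ℝ] ℝ × ℝ) → (ℝ × ℝ →L[ℝ] ℝ × ℝ)) (fderiv ℝ W x) := by
      rw [← hex]; exact contDiffAt_map_inverse e
    exact h2.comp x h1
  · intro x n
    simp only [hper x n]
  · intro x c
    obtain ⟨e, hex⟩ := he x
    simp only [← hex, ContinuousLinearMap.inverse_equiv]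
    simp
  · intro x c
    obtain ⟨e, hex⟩ := he x
    simp only [← hex, ContinuousLinearMap.inverse_equiv]
    simp

/-- A smooth map of the plane with periodic invertible derivative is bijective. -/
theorem bijective_of_per (W : ℝ × ℝ → ℝ × ℝ) (hW : ContDiff ℝ ∞ W) (hper : IsPer (fderiv ℝ W))
    (hinj : ∀ x v, fderiv ℝ W x v = 0 → v = 0) : Function.Bijective W := by
  obtain ⟨B, hBs, hBp, hB1, hB2⟩ := uh_field W hW hper hinj
  obtain ⟨L, hL0, hL⟩ := fa2_bounded hBs.continuous hBp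
  obtain ⟨K, hK0, hK⟩ := fa2_bounded (hBs.continuous_fderiv (by simp)) (isPer_fderiv hBp)
  have hBlip : LipschitzWith ⟨K, hK0⟩ B := by
    apply lipschitzWith_of_nnnorm_fderiv_le (𝕜 := ℝ) (hBs.differentiable (by simp))
    intro x
    exact_mod_cast hK x
  have hBc : ∀ c, LipschitzWith (⟨K, hK0⟩ * ‖c‖₊) (fun x => B x c) := by
    intro c
    apply LipschitzWith.of_dist_le_mul
    intro x y
    rw [dist_eq_norm, ← sub_apply]
    refine (ContinuousLinearMap.le_opNorm _ _).trans ?_
    have h1 := hBlip.dist_le_mul x y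
    rw [dist_eq_norm] at h1
    calc ‖B x - B y‖ * ‖c‖ ≤ (K * dist x y) * ‖c‖ := by
          apply mul_le_mul_of_nonneg_right _ (norm_nonneg _)
          exact_mod_cast h1
      _ = K * ‖c‖ * dist x y := by ring
  -- the trajectories
  have hode : ∀ c : ℝ × ℝ, ∃ α : ℝ → ℝ × ℝ, α 0 = 0 ∧
      ∀ t ∈ Icc (0 : ℝ) 1, HasDerivWithinAt α (B (α t) c) (Icc 0 1) t := by
    intro c
    have hpl : IsPicardLindelof (fun _ : ℝ => fun x => B x c)
        (⟨0, by norm_num⟩ : Icc (0 : ℝ) 1) (0 : ℝ × ℝ)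
        (⟨L, hL0⟩ * ‖c‖₊) 0 (⟨L, hL0⟩ * ‖c‖₊) (⟨K, hK0⟩ * ‖c‖₊) := by
      constructor
      · intro t _
        exact (hBc c).lipschitzOnWith
      · intro x _
        exact continuousOn_const
      · intro t _ x _
        exact (ContinuousLinearMap.le_opNorm _ _).trans
          (mul_le_mul_of_nonneg_right (hL x) (norm_nonneg _))
      · simp
    obtain ⟨α, h0, hα⟩ := hpl.exists_eq_forall_mem_Icc_hasDerivWithinAt₀
    exact ⟨α, h0, hα⟩
  choose α hα0 hα using hode
  have hαc : ∀ c, ContinuousOn (α c) (Icc 0 1) := fun c t ht => (hα c t ht).continuousWithinAt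
  have hαr : ∀ c, ∀ t ∈ Ico (0 : ℝ) 1, HasDerivWithinAt (α c) (B (α c t) c) (Ici t) t := by
    intro c t ht
    have h1 := hα c t ⟨ht.1, ht.2.le⟩
    exact h1.mono_of_mem_nhdsWithin (Icc_mem_nhdsGE_of_mem ht)
  -- `W` along the trajectories
  have hWσ : ∀ c, W (α c 1) = W 0 + c := by
    intro c
    have h1 : ∀ t ∈ Icc (0 : ℝ) 1, (fun s => W (α c s) - s • c) t = (fun s => W (α c s) - s • c) 0 := by
      apply constant_of_has_deriv_right_zero
      · exact (hW.continuous.comp_continuousOn (hαc c)).sub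
          (continuous_id.smul continuous_const).continuousOn
      · intro t ht
        have h2 : HasDerivWithinAt (fun s => W (α c s)) (fderiv ℝ W (α c t) (B (α c t) c))
            (Ici t) t :=
          ((hW.differentiable (by simp) (α c t)).hasFDerivAt).comp_hasDerivWithinAt t (hαr c t ht)
        rw [hB1] at h2
        have h3 : HasDerivWithinAt (fun s : ℝ => s • c) c (Ici t) t := by
          simpa using ((hasDerivAt_id t).smul_const c).hasDerivWithinAt
        have h4 := h2.sub h3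
        rw [sub_self] at h4
        exact h4
    have h2 := h1 1 (by norm_num)
    simp only [one_smul, zero_smul, sub_zero, hα0] at h2
    rw [← h2]; abel
  -- continuity
  have hσc : Continuous fun c => α c 1 := by
    rw [continuous_iff_continuousAt]
    intro c
    have hb : ∀ c', dist (α c' 1) (α c 1) ≤
        gronwallBound 0 ((⟨K, hK0⟩ * ‖c‖₊ : ℝ≥0) : ℝ) (L * ‖c' - c‖ + 0) (1 - 0) := by
      intro c'
      apply dist_le_of_approx_trajectories_ODE (v := fun _ x => B x c)
        (f := α c') (g := α c) (a := 0) (b := 1)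
        (f' := fun t => B (α c' t) c') (g' := fun t => B (α c t) c)
      · intro t; exact hBc c
      · exact hαc c'
      · exact hαr c'
      · intro t _
        rw [dist_eq_norm, ← map_sub]
        exact (ContinuousLinearMap.le_opNorm _ _).trans
          (mul_le_mul_of_nonneg_right (hL _) (norm_nonneg _))
      · exact hαc c
      · exact hαr c
      · intro t _
        simp
      · simp [hα0]
      · norm_num
    rw [ContinuousAt, tendsto_iff_dist_tendsto_zero]
    refine squeeze_zero (fun _ => dist_nonneg) hb ?_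
    have hg := gronwallBound_continuous_ε 0 ((⟨K, hK0⟩ * ‖c‖₊ : ℝ≥0) : ℝ) (1 - 0)
    have h2 : Continuous fun c' : ℝ × ℝ => L * ‖c' - c‖ + 0 := by fun_prop
    have h3 := (hg.comp h2).tendsto c
    have h4 : gronwallBound 0 ((⟨K, hK0⟩ * ‖c‖₊ : ℝ≥0) : ℝ) (L * ‖c - c‖ + 0) (1 - 0) = 0 := by
      rw [sub_self, norm_zero, mul_zero, add_zero, gronwallBound_ε0_δ0]
    have h5 : ((fun ε => gronwallBound 0 ((⟨K, hK0⟩ * ‖c‖₊ : ℝ≥0) : ℝ) ε (1 - 0)) ∘
        fun c' : ℝ × ℝ => L * ‖c' - c‖ + 0) c = 0 := h4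
    rw [h5] at h3
    exact h3
  -- the range is closed and open
  have hclosed : IsClosed (range fun c => α c 1) := by
    have : (range fun c => α c 1) = {x | α (W x - W 0) 1 = x} := by
      ext x
      constructor
      · rintro ⟨c, rfl⟩
        show α (W (α c 1) - W 0) 1 = α c 1
        rw [hWσ]; simp
      · intro hx
        exact ⟨_, hx⟩
    rw [this]
    exact isClosed_eq (hσc.comp (hW.continuous.sub continuous_const)) continuous_id
  have hopen : IsOpen (range fun c => α c 1) := by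
    rw [isOpen_iff_mem_nhds]
    rintro _ ⟨c, rfl⟩
    -- local injectivity of `W` at `α c 1`
    have hinjx : ∃ U ∈ nhds (α c 1), InjOn W U := by
      have hi : Function.Injective (fderiv ℝ W (α c 1) : ℝ × ℝ →ₗ[ℝ] ℝ × ℝ) := by
        rw [← LinearMap.ker_eq_bot, LinearMap.ker_eq_bot']
        exact fun v hv => hinj _ v hv
      let l : (ℝ × ℝ) ≃ₗ[ℝ] (ℝ × ℝ) := LinearEquiv.ofInjectiveEndo _ hi
      have hs : HasStrictFDerivAt W (l.toContinuousLinearEquiv : ℝ × ℝ →L[ℝ] ℝ × ℝ) (α c 1) := by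
        have h1 : HasStrictFDerivAt W (fderiv ℝ W (α c 1)) (α c 1) :=
          (hW.contDiffAt).hasStrictFDerivAt (by simp)
        have h2 : (l.toContinuousLinearEquiv : ℝ × ℝ →L[ℝ] ℝ × ℝ) = fderiv ℝ W (α c 1) := by
          ext <;> simp [l]
        rw [h2]; exact h1
      refine ⟨(hs.toOpenPartialHomeomorph W).source,
        (hs.toOpenPartialHomeomorph W).open_source.mem_nhds hs.mem_toOpenPartialHomeomorph_source, ?_⟩
      have := (hs.toOpenPartialHomeomorph W).injOn
      exact this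
    obtain ⟨U, hU, hUinj⟩ := hinjx
    have hcont : ContinuousAt (fun x => α (W x - W 0) 1) (α c 1) :=
      (hσc.comp (hW.continuous.sub continuous_const)).continuousAt
    have hval : α (W (α c 1) - W 0) 1 = α c 1 := by rw [hWσ]; simp
    have hU' : ∀ᶠ x in nhds (α c 1), α (W x - W 0) 1 ∈ U := by
      apply hcont
      show U ∈ nhds (α (W (α c 1) - W 0) 1)
      rw [hval]; exact hU
    filter_upwards [hU', hU] with x hx1 hx2
    refine ⟨W x - W 0, ?_⟩
    apply hUinj hx1 hx2
    rw [hWσ]; abel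
  have huniv : (range fun c => α c 1) = univ :=
    IsClopen.eq_univ ⟨hclosed, hopen⟩ (range_nonempty _)
  have hsurj : Function.Surjective fun c => α c 1 := range_eq_univ.mp huniv
  constructor
  · intro x y hxy
    obtain ⟨c, rfl⟩ := hsurj x
    obtain ⟨d, rfl⟩ := hsurj y
    simp only [hWσ, add_right_inj] at hxy
    rw [hxy]
  · intro y
    exact ⟨α (y - W 0) 1, by rw [hWσ]; abel⟩

end P205T
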