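import Vale.Agent.Lib.P205T.Defs

/-! # P205T module UI: uniformization: smoothness of the inverse -/

open scoped ContDiff ENNReal
open Complex Set

namespace P205T

theorem exists_smooth_inverse (W : ℝ × ℝ → ℝ × ℝ) (hW : ContDiff ℝ ∞ W)
    (hinj : ∀ x v, fderiv ℝ W x v = 0 → v = 0) (hb : Function.Bijective W) :
    ∃ Z : ℝ × ℝ → ℝ × ℝ, ContDiff ℝ ∞ Z ∧ (∀ x, Z (W x) = x) ∧ ∀ y, W (Z y) = y := by
  have hinj' : ∀ x, Function.Injective (fderiv ℝ W x) := fun x =>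
    (injective_iff_map_eq_zero _).2 (hinj x)
  let e : ∀ _ : ℝ × ℝ, (ℝ × ℝ) ≃L[ℝ] (ℝ × ℝ) := fun x =>
    (LinearEquiv.ofInjectiveEndo (fderiv ℝ W x : (ℝ × ℝ) →ₗ[ℝ] (ℝ × ℝ))
      (hinj' x)).toContinuousLinearEquiv
  have he : ∀ x, ((e x : (ℝ × ℝ) ≃L[ℝ] (ℝ × ℝ)) : (ℝ × ℝ) →L[ℝ] (ℝ × ℝ)) = fderiv ℝ W x := by
    intro x
    ext <;> rfl
  have hst : ∀ x, HasStrictFDerivAt W ((e x : (ℝ × ℝ) ≃L[ℝ] (ℝ × ℝ)) : (ℝ × ℝ) →L[ℝ] (ℝ × ℝ)) x := by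
    intro x
    rw [he x]
    exact hW.contDiffAt.hasStrictFDerivAt (by simp)
  have hop : IsOpenMap W := IsOpenMap.of_nhds_le fun x => (hst x).map_nhds_eq_of_equiv.ge
  let H : (ℝ × ℝ) ≃ₜ (ℝ × ℝ) :=
    (Equiv.ofBijective W hb).toHomeomorphOfContinuousOpen hW.continuous hop
  have hH : ∀ x, H x = W x := fun x => rfl
  refine ⟨H.symm, ?_, fun x => ?_, fun y => ?_⟩
  · rw [contDiff_iff_contDiffAt]
    intro y
    have h1 := H.toOpenPartialHomeomorph.contDiffAt_symm (n := ∞) (f₀' := e (H.symm y)) (a := y)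
      (mem_univ _) (hst _).hasFDerivAt hW.contDiffAt
    exact h1
  · rw [← hH]
    exact H.symm_apply_apply x
  · rw [← hH]
    exact H.apply_symm_apply y

end P205T
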