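import Vale.Agent.Lib.P205T.Defs

/-! # P205T module UJ: uniformization: the period lattice -/

open scoped ContDiff ENNReal
open Complex Set

namespace P205T

theorem lat_add (n m : ℤ × ℤ) : lat (n + m) = lat n + lat m := by
  simp [lat]

theorem lat_zero : lat 0 = 0 := by
  simp [lat]

/-- the increment along a lattice vector is constant -/
theorem incr_const (W : ℝ × ℝ → ℝ × ℝ) (hW : ContDiff ℝ ∞ W) (hper : IsPer (fderiv ℝ W))
    (x : ℝ × ℝ) (n : ℤ × ℤ) : W (x + lat n) - W x = W (lat n) - W 0 := by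
  have hd : Differentiable ℝ W := hW.differentiable (by simp)
  have hd2 : Differentiable ℝ (fun y => W (y + lat n)) :=
    hd.comp (differentiable_id.add_const (lat n))
  have h0 : ∀ y, fderiv ℝ (fun y => W (y + lat n) - W y) y = 0 := by
    intro y
    rw [fderiv_fun_sub (hd2 y) (hd y), fderiv_comp_add_right, hper y n, sub_self]
  have := is_const_of_fderiv_eq_zero (hd2.sub hd) h0 x 0
  simpa using this

/-- The periods of `W` extend to an invertible linear map (`W` minus this linear map is periodic,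
hence bounded, and `W` is onto). -/
theorem exists_periods (W : ℝ × ℝ → ℝ × ℝ) (hW : ContDiff ℝ ∞ W) (hper : IsPer (fderiv ℝ W))
    (hs : Function.Surjective W) :
    ∃ Lam : (ℝ × ℝ) ≃L[ℝ] (ℝ × ℝ), ∀ x n, W (x + lat n) = W x + Lam (lat n) := by
  have hinc := incr_const W hW hper
  -- the additive map of increments
  let D : ℤ × ℤ →+ ℝ × ℝ :=
    { toFun := fun n => W (lat n) - W 0
      map_zero' := by simp [lat_zero]
      map_add' := by
        intro n m
        have h1 := hinc (lat n) m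
        rw [← lat_add] at h1
        rw [← h1]
        abel }
  have hD : ∀ n, D n = W (lat n) - W 0 := fun n => rfl
  obtain ⟨a, ha⟩ : ∃ a, a = D (1, 0) := ⟨_, rfl⟩
  obtain ⟨b, hb⟩ : ∃ b, b = D (0, 1) := ⟨_, rfl⟩
  let L0 : (ℝ × ℝ) →ₗ[ℝ] (ℝ × ℝ) :=
    (LinearMap.fst ℝ ℝ ℝ).smulRight a + (LinearMap.snd ℝ ℝ ℝ).smulRight b
  have hL0 : ∀ v, L0 v = v.1 • a + v.2 • b := fun v => rfl
  have hDL : ∀ n, D n = L0 (lat n) := by
    intro n
    have h1 : n = n.1 • ((1, 0) : ℤ × ℤ) + n.2 • ((0, 1) : ℤ × ℤ) := by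
      ext <;> simp
    rw [hL0]
    conv_lhs => rw [h1]
    rw [map_add, map_zsmul, map_zsmul, ← ha, ← hb]
    simp only [lat, Int.cast_smul_eq_zsmul]
  have hWL : ∀ x n, W (x + lat n) = W x + L0 (lat n) := by
    intro x n
    rw [← hDL, hD, ← hinc x n]
    abel
  -- boundedness of `W - L0`
  have hcont : Continuous (fun x => W x - L0 x) :=
    hW.continuous.sub (LinearMap.continuous_of_finiteDimensional L0)
  obtain ⟨C, hC⟩ : ∃ C, ∀ x ∈ (Icc (0 : ℝ) 1 ×ˢ Icc (0 : ℝ) 1), ‖W x - L0 x‖ ≤ C :=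
    (isCompact_Icc.prod isCompact_Icc).exists_bound_of_continuousOn hcont.continuousOn
  have hbd : ∀ x, ‖W x - L0 x‖ ≤ C := by
    intro x
    obtain ⟨n, hn⟩ : ∃ n : ℤ × ℤ, n = (⌊x.1⌋, ⌊x.2⌋) := ⟨_, rfl⟩
    obtain ⟨y, hy⟩ : ∃ y : ℝ × ℝ, y = (Int.fract x.1, Int.fract x.2) := ⟨_, rfl⟩
    have hx : x = y + lat n := by
      rw [hy, hn]
      ext <;> simp [lat, Int.fract_add_floor]
    have hmem : y ∈ (Icc (0 : ℝ) 1 ×ˢ Icc (0 : ℝ) 1) := by
      rw [hy]
      exact ⟨⟨Int.fract_nonneg _, (Int.fract_lt_one _).le⟩,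
        ⟨Int.fract_nonneg _, (Int.fract_lt_one _).le⟩⟩
    have h1 := hC y hmem
    rw [hx, hWL, map_add]
    simpa using h1
  by_cases hdet : a.1 * b.2 - a.2 * b.1 = 0
  · exfalso
    obtain ⟨p, q, hpq, h1, h2⟩ : ∃ p q : ℝ, 0 < p ^ 2 + q ^ 2 ∧ p * a.1 + q * a.2 = 0 ∧
        p * b.1 + q * b.2 = 0 := by
      by_cases ha0 : a.1 = 0 ∧ a.2 = 0
      · by_cases hb0 : b.1 = 0 ∧ b.2 = 0
        · exact ⟨1, 0, by norm_num, by simp [ha0.1], by simp [hb0.1]⟩
        · refine ⟨-b.2, b.1, ?_, by simp [ha0.1, ha0.2], by ring⟩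
          by_contra hcon
          apply hb0
          constructor <;> nlinarith [sq_nonneg b.1, sq_nonneg b.2]
      · refine ⟨-a.2, a.1, ?_, by ring, by linarith⟩
        by_contra hcon
        apply ha0
        constructor <;> nlinarith [sq_nonneg a.1, sq_nonneg a.2]
    have hC0 : 0 ≤ C := (norm_nonneg _).trans (hbd 0)
    obtain ⟨t, ht⟩ : ∃ t : ℝ, (|p| + |q|) * C < t * (p ^ 2 + q ^ 2) := by
      refine ⟨((|p| + |q|) * C + 1) / (p ^ 2 + q ^ 2), ?_⟩
      rw [div_mul_cancel₀ _ hpq.ne']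
      linarith
    obtain ⟨x, hx⟩ := hs (t * p, t * q)
    have h3 := hbd x
    have h4 : |(W x - L0 x).1| ≤ C := (norm_fst_le (W x - L0 x)).trans h3
    have h5 : |(W x - L0 x).2| ≤ C := (norm_snd_le (W x - L0 x)).trans h3
    have h6 : p * (W x - L0 x).1 + q * (W x - L0 x).2 = t * (p ^ 2 + q ^ 2) := by
      rw [hL0, hx]
      simp only [Prod.fst_sub, Prod.snd_sub, Prod.fst_add, Prod.snd_add, Prod.smul_fst,
        Prod.smul_snd, smul_eq_mul]
      linear_combination (-x.1) * h1 - x.2 * h2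
    have h7 : p * (W x - L0 x).1 ≤ |p| * C := by
      calc p * (W x - L0 x).1 ≤ |p * (W x - L0 x).1| := le_abs_self _
        _ = |p| * |(W x - L0 x).1| := abs_mul _ _
        _ ≤ |p| * C := mul_le_mul_of_nonneg_left h4 (abs_nonneg _)
    have h8 : q * (W x - L0 x).2 ≤ |q| * C := by
      calc q * (W x - L0 x).2 ≤ |q * (W x - L0 x).2| := le_abs_self _
        _ = |q| * |(W x - L0 x).2| := abs_mul _ _
        _ ≤ |q| * C := mul_le_mul_of_nonneg_left h5 (abs_nonneg _)
    linarith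
  · have hinj : Function.Injective L0 := by
      rw [← LinearMap.ker_eq_bot, LinearMap.ker_eq_bot']
      intro v hv
      rw [hL0] at hv
      have e1 : v.1 * a.1 + v.2 * b.1 = 0 := by simpa using congrArg Prod.fst hv
      have e2 : v.1 * a.2 + v.2 * b.2 = 0 := by simpa using congrArg Prod.snd hv
      have f1 : v.1 * (a.1 * b.2 - a.2 * b.1) = 0 := by linear_combination b.2 * e1 - b.1 * e2
      have f2 : v.2 * (a.1 * b.2 - a.2 * b.1) = 0 := by linear_combination a.1 * e2 - a.2 * e1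
      ext
      · simpa [hdet] using f1
      · simpa [hdet] using f2
    refine ⟨(LinearEquiv.ofInjectiveEndo L0 hinj).toContinuousLinearEquiv, fun x n => ?_⟩
    rw [hWL]
    simp

end P205T
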