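import Vale.Agent.Lib.P205T.UA
import Vale.Agent.Lib.P205T.UF
import Vale.Agent.Lib.P205T.UG
import Vale.Agent.Lib.P205T.UH
import Vale.Agent.Lib.P205T.UI
import Vale.Agent.Lib.P205T.UJ
import Vale.Agent.Lib.P205T.Frame

/-! # P205T module UK: uniformization of the torus -/

open scoped ContDiff ENNReal
open Complex Set

namespace P205T

/-- a linear map of the plane in coordinates -/
theorem UK_lin (L : (ℝ × ℝ) ≃L[ℝ] (ℝ × ℝ)) (u : ℝ × ℝ) :
    L u = u.1 • L (1, 0) + u.2 • L (0, 1) := by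
  have : u = u.1 • ((1, 0) : ℝ × ℝ) + u.2 • ((0, 1) : ℝ × ℝ) := by
    ext <;> simp
  conv_lhs => rw [this]
  rw [map_add, map_smul, map_smul]

/-- the determinant of an invertible linear map does not vanish -/
theorem UK_det (L : (ℝ × ℝ) ≃L[ℝ] (ℝ × ℝ)) :
    (L (1, 0)).1 * (L (0, 1)).2 - (L (1, 0)).2 * (L (0, 1)).1 ≠ 0 := by
  intro h
  have hk : ∀ u : ℝ × ℝ, L u = 0 → u = 0 := fun u hu => by
    simpa using hu
  have h1 := hk ((L (0, 1)).2, -(L (1, 0)).2) (by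
    rw [UK_lin]
    ext
    · simp; linarith
    · simp; ring)
  have h2 := hk ((L (0, 1)).1, -(L (1, 0)).1) (by
    rw [UK_lin]
    ext
    · simp; ring
    · simp; linarith)
  rw [Prod.ext_iff] at h1 h2
  simp only [Prod.fst_zero, Prod.snd_zero, neg_eq_zero] at h1 h2
  have h3 : L (0, 1) = 0 := Prod.ext h2.1 h1.1
  have h4 := hk _ h3
  rw [Prod.ext_iff] at h4
  simp at h4

/-- the pull-back of the Euclidean metric -/
noncomputable def UK_G (L : (ℝ × ℝ) ≃L[ℝ] (ℝ × ℝ)) : CMet where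
  p := (L (1, 0)).1 ^ 2 + (L (1, 0)).2 ^ 2
  q := (L (1, 0)).1 * (L (0, 1)).1 + (L (1, 0)).2 * (L (0, 1)).2
  r := (L (0, 1)).1 ^ 2 + (L (0, 1)).2 ^ 2
  p_pos := by
    have h := UK_det L
    by_contra hc
    have h1 : (L (1, 0)).1 = 0 := by nlinarith [sq_nonneg (L (1, 0)).1, sq_nonneg (L (1, 0)).2]
    have h2 : (L (1, 0)).2 = 0 := by nlinarith [sq_nonneg (L (1, 0)).1, sq_nonneg (L (1, 0)).2]
    rw [h1, h2] at h
    simp at h
  det_pos := by
    have h := UK_det L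
    have h' : 0 < ((L (1, 0)).1 * (L (0, 1)).2 - (L (1, 0)).2 * (L (0, 1)).1) ^ 2 := by positivity
    nlinarith

theorem UK_ip (L : (ℝ × ℝ) ≃L[ℝ] (ℝ × ℝ)) (u : ℝ × ℝ) :
    (UK_G L).ip u u = (L u).1 ^ 2 + (L u).2 ^ 2 := by
  rw [UK_lin L u]
  simp only [CMet.ip, UK_G, Prod.fst_add, Prod.snd_add, Prod.smul_fst, Prod.smul_snd, smul_eq_mul]
  ring

theorem uniformization (g : PMet) : ∃ (Y Z : ℝ × ℝ → ℝ × ℝ) (G : CMet) (rho : PR),
    ContDiff ℝ ∞ Y ∧ ContDiff ℝ ∞ Z ∧ (∀ x, Z (Y x) = x) ∧ (∀ y, Y (Z y) = y) ∧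
    (∀ x n, Y (x + lat n) = Y x + lat n) ∧ (∀ x, 0 < rho x) ∧
    ∀ x v, g.q x v = rho (Y x) ^ 2 * G.ip (fderiv ℝ Y x v) (fderiv ℝ Y x v) := by
  obtain ⟨mu, lam, θ, h0, h1, hmu, hlam, hq⟩ := beltrami g
  obtain ⟨f, hf0, hf⟩ := exists_f mu h0 h1 hmu
  obtain ⟨Wc, hWc, hDW⟩ := exists_W mu f hf
  have hDc : ∀ x, DifferentiableAt ℝ Wc x := fun x => hWc.differentiable (by simp) x
  have key : ∀ x v, ‖fderiv ℝ Wc x v‖ ^ 2 = ‖f x‖ ^ 2 / lam x * g.q x v := by
    intro x v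
    rw [hDW, hq, norm_mul, mul_pow]
    have := hlam x
    field_simp
  have hqpos : ∀ x v, g.q x v = 0 → v = 0 := by
    intro x v h
    have hp := g.pos x
    have hd := g.det x
    simp only [PMet.q] at h
    have h2 : (g.E x * v.1 + g.F x * v.2) ^ 2 + (g.E x * g.G x - g.F x ^ 2) * v.2 ^ 2 = 0 := by
      have : (g.E x * v.1 + g.F x * v.2) ^ 2 + (g.E x * g.G x - g.F x ^ 2) * v.2 ^ 2
          = g.E x * (g.E x * v.1 ^ 2 + 2 * g.F x * v.1 * v.2 + g.G x * v.2 ^ 2) := by ring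
      rw [this, h, mul_zero]
    have h3 : v.2 ^ 2 = 0 := by
      by_contra hne
      have : 0 < v.2 ^ 2 := lt_of_le_of_ne (sq_nonneg _) (Ne.symm hne)
      nlinarith [sq_nonneg (g.E x * v.1 + g.F x * v.2), mul_pos hd this]
    have h4 : v.2 = 0 := by simpa using h3
    rw [h4] at h
    have h5 : v.1 = 0 := by
      have : g.E x * v.1 ^ 2 = 0 := by linarith
      rcases mul_eq_zero.1 this with h | h
      · exact absurd h hp.ne'
      · simpa using h
    exact Prod.ext h5 h4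
  set W : ℝ × ℝ → ℝ × ℝ := fun x => Complex.equivRealProdCLM (Wc x) with hWdef
  have hW : ContDiff ℝ ∞ W := Complex.equivRealProdCLM.contDiff.comp hWc
  have hDW' : ∀ x, fderiv ℝ W x = (Complex.equivRealProdCLM : ℂ →L[ℝ] ℝ × ℝ).comp
      (fderiv ℝ Wc x) := fun x =>
    ((Complex.equivRealProdCLM : ℂ →L[ℝ] ℝ × ℝ).hasFDerivAt.comp x (hDc x).hasFDerivAt).fderiv
  have hWv : ∀ x v, fderiv ℝ W x v = Complex.equivRealProdCLM (fderiv ℝ Wc x v) := by
    intro x v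
    rw [hDW' x]; rfl
  have hper : IsPer (fderiv ℝ W) := by
    intro x n
    refine ContinuousLinearMap.ext fun v => ?_
    rw [hWv, hWv, hDW, hDW, PC.per f x n, PC.per mu x n]
  have hinj : ∀ x v, fderiv ℝ W x v = 0 → v = 0 := by
    intro x v h
    rw [hWv] at h
    have h' : fderiv ℝ Wc x v = 0 :=
      Complex.equivRealProdCLM.injective (by rw [h, map_zero])
    have h2 := key x v
    rw [h', norm_zero] at h2
    have h3 : ‖f x‖ ^ 2 / lam x * g.q x v = 0 := by rw [← h2]; norm_num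
    have h4 : ‖f x‖ ^ 2 / lam x ≠ 0 :=
      (div_pos (by have := norm_pos_iff.2 (hf0 x); positivity) (hlam x)).ne'
    exact hqpos x v ((mul_eq_zero.1 h3).resolve_left h4)
  have hb := bijective_of_per W hW hper hinj
  obtain ⟨Z0, hZ0, hZW, hWZ⟩ := exists_smooth_inverse W hW hinj hb
  obtain ⟨L, hL⟩ := exists_periods W hW hper hb.2
  have hYs : ContDiff ℝ ∞ (fun x => L.symm (W x)) := L.symm.contDiff.comp hW
  have hZs : ContDiff ℝ ∞ (fun y => Z0 (L y)) := hZ0.comp L.contDiff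
  have hZY : ∀ x, Z0 (L (L.symm (W x))) = x := fun x => by
    rw [ContinuousLinearEquiv.apply_symm_apply, hZW]
  have hYZ : ∀ y, L.symm (W (Z0 (L y))) = y := fun y => by
    rw [hWZ, ContinuousLinearEquiv.symm_apply_apply]
  have hYper : ∀ x n, L.symm (W (x + lat n)) = L.symm (W x) + lat n := fun x n => by
    rw [hL, map_add, ContinuousLinearEquiv.symm_apply_apply]
  have hZper : ∀ y n, Z0 (L (y + lat n)) = Z0 (L y) + lat n := fun y n => by
    have h := hYper (Z0 (L y)) n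
    rw [hYZ] at h
    rw [← h, hZY]
  have hfn : ∀ y, 0 < ‖f (Z0 (L y))‖ := fun y => norm_pos_iff.2 (hf0 _)
  refine ⟨fun x => L.symm (W x), fun y => Z0 (L y), UK_G L,
    ⟨fun y => Real.sqrt (lam (Z0 (L y))) / ‖f (Z0 (L y))‖, ?_, ?_⟩, hYs, hZs, hZY, hYZ, hYper,
    ?_, ?_⟩
  · refine ContDiff.div (ContDiff.sqrt ((PR.smooth lam).comp hZs) fun y => (hlam _).ne') ?_
      (fun y => (hfn y).ne')
    exact ContDiff.norm ℝ ((PC.smooth f).comp hZs) fun y => hf0 _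
  · intro y n
    simp only [hZper, PR.per lam _ n, PC.per f _ n]
  · intro y
    exact div_pos (Real.sqrt_pos.2 (hlam _)) (hfn y)
  · intro x v
    have hDY : fderiv ℝ (fun x => L.symm (W x)) x v = L.symm (fderiv ℝ W x v) := by
      have := ((L.symm : (ℝ × ℝ) →L[ℝ] ℝ × ℝ).hasFDerivAt.comp x
        ((hW.differentiable (by simp) x).hasFDerivAt)).fderiv
      have h2 := congrArg (fun T : (ℝ × ℝ) →L[ℝ] ℝ × ℝ => T v) this
      exact h2
    rw [UK_ip, hDY, ContinuousLinearEquiv.apply_symm_apply, hWv]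
    have h2 := key x v
    have h3 : (Complex.equivRealProdCLM (fderiv ℝ Wc x v)).1 ^ 2 +
        (Complex.equivRealProdCLM (fderiv ℝ Wc x v)).2 ^ 2 = ‖fderiv ℝ Wc x v‖ ^ 2 := by
      rw [← Complex.normSq_eq_norm_sq, Complex.normSq_apply]
      simp only [Complex.equivRealProdCLM_apply]
      ring
    rw [h3, h2]
    show g.q x v = (Real.sqrt (lam (Z0 (L (L.symm (W x))))) / ‖f (Z0 (L (L.symm (W x))))‖) ^ 2 *
      (‖f x‖ ^ 2 / lam x * g.q x v)
    rw [hZY, div_pow, Real.sq_sqrt (hlam x).le]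
    have h4 : ‖f x‖ ≠ 0 := norm_ne_zero_iff.2 (hf0 x)
    have h5 := (hlam x).ne'
    field_simp

end P205T
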